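import Mathlib

/-! P244, block S: the Laguerre measure `z^a e^{-z} dz` on `(0,∞)`, `a > -1`, its moments, and
the Laguerre polynomials (helper460). -/

open MeasureTheory Set Filter Polynomial
open scoped Topology ENNReal

namespace Vale.Agent.P244.ST.Lag

/-- the measure `z^a e^{-z} dz` on `(0,∞)` -/
noncomputable def mu (a : ℝ) : Measure ℝ :=
  (volume.restrict (Ioi 0)).withDensity (fun z => ENNReal.ofReal (z ^ a * Real.exp (-z)))

theorem wt_nonneg {a z : ℝ} (hz : z ∈ Ioi (0 : ℝ)) : 0 ≤ z ^ a * Real.exp (-z) :=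
  mul_nonneg (Real.rpow_nonneg (le_of_lt hz) _) (Real.exp_nonneg _)

theorem integral_mu (a : ℝ) (f : ℝ → ℝ) :
    ∫ z, f z ∂(mu a) = ∫ z in Ioi 0, f z * (z ^ a * Real.exp (-z)) := by
  unfold mu
  rw [integral_withDensity_eq_integral_toReal_smul (by fun_prop)
    (Eventually.of_forall fun _ => ENNReal.ofReal_lt_top)]
  apply setIntegral_congr_fun measurableSet_Ioi
  intro z hz
  simp only [smul_eq_mul]
  rw [ENNReal.toReal_ofReal (wt_nonneg hz), mul_comm]

theorem integrable_mu (a : ℝ) (f : ℝ → ℝ) :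
    Integrable f (mu a) ↔ IntegrableOn (fun z => f z * (z ^ a * Real.exp (-z))) (Ioi 0) := by
  unfold mu
  rw [integrable_withDensity_iff_integrable_smul' (by fun_prop)
    (Eventually.of_forall fun _ => ENNReal.ofReal_lt_top)]
  unfold IntegrableOn
  apply integrable_congr
  filter_upwards [ae_restrict_mem measurableSet_Ioi] with z hz
  rw [ENNReal.toReal_ofReal (wt_nonneg hz), smul_eq_mul, mul_comm]

theorem ae_mu (a : ℝ) : ∀ᵐ z ∂(mu a), 0 < z := by
  unfold mu
  exact (withDensity_absolutelyContinuous _ _).ae_le (ae_restrict_mem measurableSet_Ioi)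

theorem pow_wt {a z : ℝ} (k : ℕ) (hz : z ∈ Ioi (0 : ℝ)) :
    Real.exp (-z) * z ^ (a + k + 1 - 1) = z ^ k * (z ^ a * Real.exp (-z)) := by
  have h : a + k + 1 - 1 = a + k := by ring
  rw [h, Real.rpow_add_natCast (ne_of_gt hz)]
  ring

theorem pos_of {a : ℝ} (ha : -1 < a) (k : ℕ) : 0 < a + k + 1 := by
  have : (0 : ℝ) ≤ k := Nat.cast_nonneg k
  linarith only [ha]

theorem pow_integrable {a : ℝ} (ha : -1 < a) (k : ℕ) :
    Integrable (fun z : ℝ => z ^ k) (mu a) := by
  rw [integrable_mu]
  refine (Real.GammaIntegral_convergent (pos_of ha k)).congr_fun ?_ measurableSet_Ioi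
  intro z hz
  exact pow_wt k hz

/-- the moments -/
theorem moment {a : ℝ} (ha : -1 < a) (k : ℕ) :
    ∫ z, z ^ k ∂(mu a) = Real.Gamma (a + k + 1) := by
  rw [integral_mu, Real.Gamma_eq_integral (pos_of ha k)]
  apply setIntegral_congr_fun measurableSet_Ioi
  intro z hz
  exact (pow_wt k hz).symm

theorem moment_succ {a : ℝ} (ha : -1 < a) (k : ℕ) :
    Real.Gamma (a + (k + 1 : ℕ) + 1) = (a + k + 1) * Real.Gamma (a + k + 1) := by
  rw [← Real.Gamma_add_one (pos_of ha k).ne']
  congr 1
  push_cast
  ring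

theorem poly_integrable {a : ℝ} (ha : -1 < a) (p : ℝ[X]) :
    Integrable (fun z => p.eval z) (mu a) := by
  induction p using Polynomial.induction_on' with
  | add p q hp hq =>
    simp only [eval_add]
    exact hp.add hq
  | monomial n c =>
    simp only [eval_monomial]
    exact (pow_integrable ha n).const_mul c

theorem poly_memLp {a : ℝ} (ha : -1 < a) (p : ℝ[X]) : MemLp (fun z => p.eval z) 2 (mu a) := by
  rw [memLp_two_iff_integrable_sq (by fun_prop)]
  have := poly_integrable ha (p ^ 2)
  simpa using this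

theorem finite_mu {a : ℝ} (ha : -1 < a) : IsFiniteMeasure (mu a) := by
  have h := pow_integrable ha 0
  simp only [pow_zero] at h
  rwa [integrable_const_iff_isFiniteMeasure one_ne_zero] at h

/-! ### Laguerre polynomials -/

/-- coefficients of the Laguerre polynomial with constant term `1` -/
noncomputable def cf (a : ℝ) (n k : ℕ) : ℝ :=
  (-1) ^ k * (n.choose k : ℝ) / ∏ i ∈ Finset.range k, (a + 1 + i)

theorem prod_pos {a : ℝ} (ha : -1 < a) (k : ℕ) : 0 < ∏ i ∈ Finset.range k, (a + 1 + i) := by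
  apply Finset.prod_pos
  intro i _
  have : (0 : ℝ) ≤ i := Nat.cast_nonneg i
  linarith only [ha]

theorem choose_cast (n k : ℕ) :
    ((n.choose (k + 1) : ℕ) : ℝ) * (k + 1) = (n.choose k : ℝ) * (n - k) := by
  rcases le_or_gt k n with h | h
  · have h1 := Nat.choose_succ_right_eq n k
    have h2 : ((n.choose (k + 1) * (k + 1) : ℕ) : ℝ) = ((n.choose k * (n - k) : ℕ) : ℝ) := by
      exact_mod_cast h1
    rw [Nat.cast_mul, Nat.cast_mul, Nat.cast_sub h] at h2
    push_cast at h2
    exact h2
  · rw [Nat.choose_eq_zero_of_lt h, Nat.choose_eq_zero_of_lt (by omega)]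
    simp

theorem cf_succ {a : ℝ} (ha : -1 < a) (n k : ℕ) :
    ((k : ℝ) + 1) * (a + k + 1) * cf a n (k + 1) = -((n : ℝ) - k) * cf a n k := by
  unfold cf
  rw [Finset.prod_range_succ]
  have h1 := (prod_pos ha k).ne'
  have h2 : a + 1 + (k : ℝ) ≠ 0 := by
    have := pos_of ha k
    intro h
    linarith only [ha, h]
  have h3 := choose_cast n k
  rw [pow_succ]
  have e1 : ((k : ℝ) + 1) * (a + k + 1) * ((-1) ^ k * -1 * ((n.choose (k + 1) : ℕ) : ℝ) /
      ((∏ i ∈ Finset.range k, (a + 1 + i)) * (a + 1 + k))) =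
      -((-1) ^ k * (((n.choose (k + 1) : ℕ) : ℝ) * (k + 1)) /
        (∏ i ∈ Finset.range k, (a + 1 + i))) := by
    field_simp
    ring
  rw [e1, h3]
  ring

/-- Laguerre polynomial, normalized by `ell 0 = 1` -/
noncomputable def ell (a : ℝ) (n : ℕ) : ℝ[X] :=
  ∑ k ∈ Finset.range (n + 1), monomial k (cf a n k)

theorem coeff_ell (a : ℝ) (n k : ℕ) : (ell a n).coeff k = cf a n k := by
  unfold ell
  rw [finsetSum_coeff]
  simp_rw [coeff_monomial]
  rw [Finset.sum_ite_eq' (Finset.range (n + 1)) k]
  split_ifs with h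
  · rfl
  · rw [Finset.mem_range, not_lt] at h
    unfold cf
    rw [Nat.choose_eq_zero_of_lt (by omega)]
    simp

/-- the Laguerre operator on polynomials -/
noncomputable def Lp (a : ℝ) (p : ℝ[X]) : ℝ[X] :=
  X * derivative (derivative p) + (C (a + 1) - X) * derivative p

theorem coeff_Lp (a : ℝ) (p : ℝ[X]) (k : ℕ) :
    (Lp a p).coeff k = ((k : ℝ) + 1) * (a + k + 1) * p.coeff (k + 1) - k * p.coeff k := by
  unfold Lp
  rw [sub_mul, coeff_add, coeff_sub, coeff_C_mul]
  cases k with
  | zero =>
    simp only [mul_coeff_zero, coeff_X_zero, zero_mul, coeff_derivative]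
    push_cast
    ring
  | succ j =>
    rw [coeff_X_mul, coeff_X_mul, coeff_derivative, coeff_derivative, coeff_derivative]
    push_cast
    ring

theorem Lp_ell {a : ℝ} (ha : -1 < a) (n : ℕ) : Lp a (ell a n) = C (-(n : ℝ)) * ell a n := by
  ext k
  rw [coeff_Lp, coeff_C_mul, coeff_ell, coeff_ell, cf_succ ha]
  ring

theorem Lp_add (a : ℝ) (p q : ℝ[X]) : Lp a (p + q) = Lp a p + Lp a q := by
  unfold Lp
  simp only [derivative_add]
  ring

theorem Lp_C_mul (a c : ℝ) (p : ℝ[X]) : Lp a (C c * p) = C c * Lp a p := by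
  unfold Lp
  simp only [derivative_C_mul]
  ring

/-! ### integration by parts for polynomials -/

theorem ibp_poly {a : ℝ} (ha : -1 < a) (g : ℝ[X]) :
    ∫ z, (X * derivative g + (C (a + 1) - X) * g).eval z ∂(mu a) = 0 := by
  induction g using Polynomial.induction_on' with
  | add p q hp hq =>
    have h : (X * derivative (p + q) + (C (a + 1) - X) * (p + q)) =
        (X * derivative p + (C (a + 1) - X) * p) + (X * derivative q + (C (a + 1) - X) * q) := by
      rw [derivative_add]
      ring
    rw [h]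
    simp only [eval_add (p := X * derivative p + (C (a + 1) - X) * p)]
    rw [integral_add (poly_integrable ha _) (poly_integrable ha _), hp, hq, add_zero]
  | monomial k c =>
    have h : ∀ z : ℝ, (X * derivative (monomial k c) + (C (a + 1) - X) * monomial k c).eval z =
        c * ((a + k + 1) * z ^ k - z ^ (k + 1)) := by
      intro z
      rw [derivative_monomial]
      simp only [eval_add, eval_mul, eval_X, eval_monomial, eval_sub, eval_C]
      cases k with
      | zero => simp; ring
      | succ j =>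
        rw [Nat.add_sub_cancel]
        push_cast
        ring
    simp_rw [h]
    rw [integral_const_mul, integral_sub ((pow_integrable ha k).const_mul _)
      (pow_integrable ha (k + 1)), integral_const_mul, moment ha, moment ha, moment_succ ha,
      sub_self, mul_zero]

theorem Lp_symm {a : ℝ} (ha : -1 < a) (p q : ℝ[X]) :
    ∫ z, (Lp a p * q).eval z ∂(mu a) = -∫ z, (X * (derivative p * derivative q)).eval z ∂(mu a) := by
  have h := ibp_poly ha (derivative p * q)
  have e : X * derivative (derivative p * q) + (C (a + 1) - X) * (derivative p * q) =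
      Lp a p * q + X * (derivative p * derivative q) := by
    unfold Lp
    rw [derivative_mul]
    ring
  rw [e] at h
  simp only [eval_add (p := Lp a p * q)] at h
  rw [integral_add (poly_integrable ha _) (poly_integrable ha _)] at h
  linarith only [h]

theorem orth {a : ℝ} (ha : -1 < a) {m n : ℕ} (hmn : m ≠ n) :
    ∫ z, (ell a m).eval z * (ell a n).eval z ∂(mu a) = 0 := by
  have h1 := Lp_symm ha (ell a m) (ell a n)
  have h2 := Lp_symm ha (ell a n) (ell a m)
  rw [mul_comm (derivative (ell a n))] at h2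
  rw [← h2, Lp_ell ha, Lp_ell ha] at h1
  simp only [eval_mul, eval_C, mul_assoc] at h1
  rw [integral_const_mul, integral_const_mul] at h1
  have h3 : ∫ z, (ell a n).eval z * (ell a m).eval z ∂(mu a) =
      ∫ z, (ell a m).eval z * (ell a n).eval z ∂(mu a) := by
    congr 1
    funext z
    ring
  rw [h3] at h1
  have h4 : ((n : ℝ) - m) * ∫ z, (ell a m).eval z * (ell a n).eval z ∂(mu a) = 0 := by linarith only [h1]
  rcases mul_eq_zero.1 h4 with h5 | h5
  · exact absurd (by exact_mod_cast (sub_eq_zero.1 h5).symm) hmn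
  · exact h5

theorem sq_pos {a : ℝ} (ha : -1 < a) {p : ℝ[X]} (hp : p ≠ 0) : 0 < ∫ z, p.eval z ^ 2 ∂(mu a) := by
  have hi : Integrable (fun z => p.eval z ^ 2) (mu a) := (poly_memLp ha p).integrable_sq
  have h0 : 0 ≤ ∫ z, p.eval z ^ 2 ∂(mu a) := integral_nonneg fun z => sq_nonneg _
  refine lt_of_le_of_ne h0 fun h => ?_
  rw [eq_comm, integral_eq_zero_iff_of_nonneg (fun z => sq_nonneg _) hi] at h
  have h1 : ∀ᵐ z ∂(mu a), p.eval z = 0 := by
    filter_upwards [h] with z hz
    exact pow_eq_zero_iff (two_ne_zero) |>.1 hz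
  unfold mu at h1
  rw [ae_withDensity_iff (by fun_prop)] at h1
  rw [ae_restrict_iff' measurableSet_Ioi] at h1
  have h2 : ∀ᵐ z : ℝ, z ∉ Ioi (0 : ℝ) := by
    have hfin : ∀ᵐ z : ℝ, z ∉ (p.roots.toFinset : Set ℝ) := by
      have := (p.roots.toFinset : Set ℝ).toFinite.measure_zero (volume : Measure ℝ)
      exact measure_eq_zero_iff_ae_notMem.1 this
    filter_upwards [h1, hfin] with z hz hz'
    intro hz0
    apply hz'
    rw [Finset.mem_coe, Multiset.mem_toFinset, mem_roots hp]
    apply hz hz0
    rw [Ne, ENNReal.ofReal_eq_zero, not_le]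
    exact mul_pos (Real.rpow_pos_of_pos hz0 _) (Real.exp_pos _)
  have h3 := measure_eq_zero_iff_ae_notMem.2 h2
  rw [Real.volume_Ioi] at h3
  exact ENNReal.top_ne_zero h3

theorem cf_ne {a : ℝ} (ha : -1 < a) (n : ℕ) : cf a n n ≠ 0 := by
  unfold cf
  rw [Nat.choose_self]
  have := (prod_pos ha n).ne'
  simp [this]

theorem ell_ne {a : ℝ} (ha : -1 < a) (n : ℕ) : ell a n ≠ 0 := by
  intro h
  have := coeff_ell a n n
  rw [h, coeff_zero] at this
  exact cf_ne ha n this.symm

/-- squared norm of `ell n` -/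
noncomputable def nrm (a : ℝ) (n : ℕ) : ℝ := ∫ z, (ell a n).eval z ^ 2 ∂(mu a)

theorem nrm_pos {a : ℝ} (ha : -1 < a) (n : ℕ) : 0 < nrm a n := sq_pos ha (ell_ne ha n)

/-- normalized Laguerre polynomials -/
noncomputable def en (a : ℝ) (n : ℕ) : ℝ[X] := C (1 / √(nrm a n)) * ell a n

theorem Lp_en {a : ℝ} (ha : -1 < a) (n : ℕ) : Lp a (en a n) = C (-(n : ℝ)) * en a n := by
  unfold en
  rw [Lp_C_mul, Lp_ell ha]
  ring

theorem en_orth {a : ℝ} (ha : -1 < a) (m n : ℕ) :
    ∫ z, (en a m).eval z * (en a n).eval z ∂(mu a) = if m = n then 1 else 0 := by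
  unfold en
  simp only [eval_mul, eval_C]
  have e : ∀ z, 1 / √(nrm a m) * (ell a m).eval z * (1 / √(nrm a n) * (ell a n).eval z) =
      (1 / √(nrm a m) * (1 / √(nrm a n))) * ((ell a m).eval z * (ell a n).eval z) := by
    intro z; ring
  simp_rw [e]
  rw [integral_const_mul]
  split_ifs with h
  · subst h
    have h1 : ∫ z, (ell a m).eval z * (ell a m).eval z ∂(mu a) = nrm a m := by
      unfold nrm
      congr 1
      funext z
      ring
    rw [h1]
    have h2 := Real.mul_self_sqrt (nrm_pos ha m).le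
    have h3 : √(nrm a m) ≠ 0 := (Real.sqrt_pos.2 (nrm_pos ha m)).ne'
    field_simp
    rw [sq, h2]
  · rw [orth ha h, mul_zero]

/-- the span of the Laguerre polynomials contains the monomials (as functionals) -/
theorem monomials_of_en {a : ℝ} (ha : -1 < a) {ν : Measure ℝ} {f : ℝ → ℝ}
    (hf : ∀ k : ℕ, Integrable (fun z => f z * z ^ k) ν)
    (h : ∀ n, ∫ z, f z * (en a n).eval z ∂ν = 0) (k : ℕ) : ∫ z, f z * z ^ k ∂ν = 0 := by
  induction k using Nat.strong_induction_on with
  | _ n ih =>
    have h1 : ∫ z, f z * (ell a n).eval z ∂ν = 0 := by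
      have h2 := h n
      unfold en at h2
      simp only [eval_mul, eval_C] at h2
      have e : ∀ z, f z * (1 / √(nrm a n) * (ell a n).eval z) =
          (1 / √(nrm a n)) * (f z * (ell a n).eval z) := by intro z; ring
      simp_rw [e] at h2
      rw [integral_const_mul] at h2
      rcases mul_eq_zero.1 h2 with h3 | h3
      · exact absurd h3 (by
          have := Real.sqrt_pos.2 (nrm_pos ha n)
          positivity)
      · exact h3
    have h4 : ∀ z, f z * (ell a n).eval z =
        ∑ k ∈ Finset.range (n + 1), cf a n k * (f z * z ^ k) := by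
      intro z
      unfold ell
      rw [eval_finsetSum, Finset.mul_sum]
      apply Finset.sum_congr rfl
      intro k _
      rw [eval_monomial]
      ring
    simp_rw [h4] at h1
    rw [integral_finsetSum _ fun k _ => (hf k).const_mul _] at h1
    simp_rw [integral_const_mul] at h1
    rw [Finset.sum_range_succ, Finset.sum_eq_zero, zero_add] at h1
    · exact (mul_eq_zero.1 h1).resolve_left (cf_ne ha n)
    · intro k hk
      rw [ih k (Finset.mem_range.1 hk), mul_zero]

end Vale.Agent.P244.ST.Lag
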