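import Vale.Agent.P244.ST.Conf

/-!
# P244 / ST / S : the r-gauge package (definitions and statement)

`rh = log r`, `uu = log (phi/psi)`; `ze r^2 = phi psi`, `phi = e^f`, `psi = e^w sqrt(1-x^2)`.
All functions of `(t, ρ)`, `ρ = log r`, on the region `ρ < ρ_max(t) = rh (w t) (f t) 0`.
-/

open Set
open scoped ContDiff

namespace Vale.Agent.P244.ST.RG

noncomputable def ze (p : ℕ) : ℝ := ((p : ℝ) - 1) / (2 * (p : ℝ) - 1)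

/-- `u = log (phi/psi)`. -/
noncomputable def uu (w f : ℝ → ℝ) (x : ℝ) : ℝ := f x - w x - Real.log (1 - x ^ 2) / 2

/-- `ρ = log r`. -/
noncomputable def rh (p : ℕ) (w f : ℝ → ℝ) (x : ℝ) : ℝ :=
  (f x + w x + Real.log (1 - x ^ 2) / 2 - Real.log (ze p)) / 2

/-- `u_x`. -/
noncomputable def ux (w f : ℝ → ℝ) (x : ℝ) : ℝ := dx f x - dx w x + x / (1 - x ^ 2)

/-- `ρ_x`. -/
noncomputable def rhx (w f : ℝ → ℝ) (x : ℝ) : ℝ := (dx f x + dx w x - x / (1 - x ^ 2)) / 2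

/-- `Z = r_s^2`. -/
noncomputable def ZZ (p : ℕ) (w f : ℝ → ℝ) (x : ℝ) : ℝ :=
  Real.exp (f x - w x) * (Real.sqrt (1 - x ^ 2)) ^ 3 * (rhx w f x) ^ 2 / ze p

/-- the region of the r-gauge, `I` is the set of times -/
def reg (p : ℕ) (w f : ℝ → ℝ → ℝ) (I : Set ℝ) : Set (ℝ × ℝ) :=
  {q | q.1 ∈ I ∧ q.2 < rh p (w q.1) (f q.1) 0}

/-- `(X, U, Z, R)` is the r-gauge form of the solution `(w, f)` on `[0,T)`; `U1 = D_ρ U`,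
`U2 = D_ρ^2 U`. -/
structure RSol (p : ℕ) (w f : ℝ → ℝ → ℝ) (T : ℝ) (X U U1 U2 Z R : ℝ → ℝ → ℝ) : Prop where
  X_mem : ∀ q ∈ reg p w f (Ico 0 T), X q.1 q.2 ∈ Ioo (0 : ℝ) 1 ∧
    rh p (w q.1) (f q.1) (X q.1 q.2) = q.2
  X_inv : ∀ t ∈ Ico 0 T, ∀ x ∈ Ioo (0 : ℝ) 1,
    rh p (w t) (f t) x < rh p (w t) (f t) 0 ∧ X t (rh p (w t) (f t) x) = x
  U_eq : ∀ q ∈ reg p w f (Ico 0 T), U q.1 q.2 = uu (w q.1) (f q.1) (X q.1 q.2)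
  U1_eq : ∀ q ∈ reg p w f (Ico 0 T),
    U1 q.1 q.2 = ux (w q.1) (f q.1) (X q.1 q.2) / rhx (w q.1) (f q.1) (X q.1 q.2)
  Z_eq : ∀ q ∈ reg p w f (Ico 0 T), Z q.1 q.2 = ZZ p (w q.1) (f q.1) (X q.1 q.2)
  R_eq : ∀ q ∈ reg p w f (Ico 0 T), R q.1 q.2 = scal p (w q.1) (f q.1) (X q.1 q.2)
  -- regularity
  isOpen_reg : IsOpen (reg p w f (Ioo 0 T))
  smooth_X : ContDiffOn ℝ ∞ (fun q : ℝ × ℝ => X q.1 q.2) (reg p w f (Ioo 0 T))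
  smooth_U : ContDiffOn ℝ ∞ (fun q : ℝ × ℝ => U q.1 q.2) (reg p w f (Ioo 0 T))
  smooth_U1 : ContDiffOn ℝ ∞ (fun q : ℝ × ℝ => U1 q.1 q.2) (reg p w f (Ioo 0 T))
  smooth_U2 : ContDiffOn ℝ ∞ (fun q : ℝ × ℝ => U2 q.1 q.2) (reg p w f (Ioo 0 T))
  smooth_Z : ContDiffOn ℝ ∞ (fun q : ℝ × ℝ => Z q.1 q.2) (reg p w f (Ioo 0 T))
  smooth_R : ContDiffOn ℝ ∞ (fun q : ℝ × ℝ => R q.1 q.2) (reg p w f (Ioo 0 T))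
  cont_X : ContinuousOn (fun q : ℝ × ℝ => X q.1 q.2) (reg p w f (Ico 0 T))
  cont_U : ContinuousOn (fun q : ℝ × ℝ => U q.1 q.2) (reg p w f (Ico 0 T))
  cont_U1 : ContinuousOn (fun q : ℝ × ℝ => U1 q.1 q.2) (reg p w f (Ico 0 T))
  cont_U2 : ContinuousOn (fun q : ℝ × ℝ => U2 q.1 q.2) (reg p w f (Ico 0 T))
  cont_Z : ContinuousOn (fun q : ℝ × ℝ => Z q.1 q.2) (reg p w f (Ico 0 T))
  cont_R : ContinuousOn (fun q : ℝ × ℝ => R q.1 q.2) (reg p w f (Ico 0 T))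
  -- equations
  d1 : ∀ q ∈ reg p w f (Ico 0 T), HasDerivAt (U q.1) (U1 q.1 q.2) q.2
  d2 : ∀ q ∈ reg p w f (Ico 0 T), HasDerivAt (U1 q.1) (U2 q.1 q.2) q.2
  dZ : ∀ q ∈ reg p w f (Ico 0 T), HasDerivAt (Z q.1)
    ((2 * (p : ℝ) - 1) * (Real.cosh (U q.1 q.2) - Z q.1 q.2) - Z q.1 q.2 * (U1 q.1 q.2) ^ 2 / 4
      - Real.exp (2 * q.2) * R q.1 q.2 / (2 * p)) q.2
  dt : ∀ q ∈ reg p w f (Ioo 0 T), HasDerivAt (fun t => U t q.2)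
    (Real.exp (-2 * q.2) * (Z q.1 q.2 * U2 q.1 q.2
      + (2 * (p : ℝ) - 1) * Real.cosh (U q.1 q.2) * U1 q.1 q.2
      + 2 * (2 * (p : ℝ) - 1) * Real.sinh (U q.1 q.2))) q.1
  Z_pos : ∀ q ∈ reg p w f (Ico 0 T), 0 < Z q.1 q.2
  -- bounds near the tip
  tip : ∀ t₁ ∈ Ico 0 T, ∀ ρ₁ : ℝ, (∀ t ∈ Icc 0 t₁, ρ₁ < rh p (w t) (f t) 0) →
    ∃ K : ℝ, ∀ t ∈ Icc 0 t₁, ∀ ρ ≤ ρ₁, |U t ρ + 2 * ρ| ≤ K ∧ |U1 t ρ| ≤ K ∧ |U2 t ρ| ≤ K ∧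
      |Z t ρ| ≤ K * Real.exp (-2 * ρ) ∧ |R t ρ| ≤ K

/-- STATEMENT S8 (r-gauge package). -/
def S8Statement : Prop :=
  ∀ p : ℕ, 2 ≤ p → ∀ T > 0, ∀ w f : ℝ → ℝ → ℝ, ConfSol p w f T →
    (∀ t ∈ Ico 0 T, ∀ x ∈ Ioo (0 : ℝ) 1, rhx (w t) (f t) x < 0) →
    ∃ X U U1 U2 Z R : ℝ → ℝ → ℝ, RSol p w f T X U U1 U2 Z R

end Vale.Agent.P244.ST.RG
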