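import Vale.Agent.P244.ST.S.RGAlg

/-!
# P244 / ST / S : r-gauge package, proof of S8
-/

open Set Filter
open scoped ContDiff Topology

namespace Vale.Agent.P244.ST.RG

open Vale.Agent.P244.ST.Apr

noncomputable section

variable {p : ℕ} {w f : ℝ → ℝ → ℝ} {T : ℝ}

/-! ### joint smoothness of the ingredients -/

section sm
variable (hs : ConfSol p w f T)
include hs

lemma smDD : Sm T (fun t x => DD (w t) (f t) x) := by
  have h1 := sm_dx (h := w) hs.smooth_w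
  have h2 := sm_dx (h := f) hs.smooth_f
  exact contDiffOn_snd.sub ((contDiffOn_const.sub (contDiffOn_snd.pow 2)).mul
    (ContDiffOn.add h2 h1))

lemma smNN : Sm T (fun t x => NN (w t) (f t) x) := by
  have h1 := sm_dx (h := w) hs.smooth_w
  have h2 := sm_dx (h := f) hs.smooth_f
  exact ((contDiffOn_const.sub (contDiffOn_snd.pow 2)).mul (ContDiffOn.sub h2 h1)).add
    contDiffOn_snd

lemma smDDx : Sm T (fun t x => DDx (w t) (f t) x) := by
  have h1 := sm_dx (h := w) hs.smooth_w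
  have h2 := sm_dx (h := f) hs.smooth_f
  have h3 := sm_dx h1
  have h4 := sm_dx h2
  exact (contDiffOn_const.add ((contDiffOn_const.mul contDiffOn_snd).mul
    (ContDiffOn.add h2 h1))).sub
    ((contDiffOn_const.sub (contDiffOn_snd.pow 2)).mul (ContDiffOn.add h4 h3))

lemma smNNx : Sm T (fun t x => NNx (w t) (f t) x) := by
  have h1 := sm_dx (h := w) hs.smooth_w
  have h2 := sm_dx (h := f) hs.smooth_f
  have h3 := sm_dx h1
  have h4 := sm_dx h2
  exact (((contDiffOn_const.mul contDiffOn_snd).mul (ContDiffOn.sub h2 h1)).add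
    ((contDiffOn_const.sub (contDiffOn_snd.pow 2)).mul (ContDiffOn.sub h4 h3))).add
    contDiffOn_const

lemma smScal : Sm T (fun t x => scal p (w t) (f t) x) := by
  have h1 := sm_dx (h := w) hs.smooth_w
  have h2 := sm_dx (h := f) hs.smooth_f
  have h3 := sm_dx h1
  have h4 := sm_dx h2
  have hew : Sm T (fun t x => Real.exp (-2 * w t x)) :=
    ContDiffOn.exp (contDiffOn_const.mul hs.smooth_w)
  have hef : Sm T (fun t x => Real.exp (-2 * f t x)) :=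
    ContDiffOn.exp (contDiffOn_const.mul hs.smooth_f)
  have hρ : ContDiffOn ℝ ∞ (fun z : ℝ × ℝ => 1 - z.2 ^ 2) (Ico 0 T ×ˢ Icc (-1) 1) :=
    contDiffOn_const.sub (contDiffOn_snd.pow 2)
  have hlw : Sm T (fun t x => lap p (w t) x) :=
    (hρ.mul h3).sub ((contDiffOn_const.mul contDiffOn_snd).mul h1)
  have hlf : Sm T (fun t x => lap p (f t) x) :=
    (hρ.mul h4).sub ((contDiffOn_const.mul contDiffOn_snd).mul h2)
  have hg : Sm T (fun t x => gx p (w t) (f t) x) :=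
    (contDiffOn_const.mul h1).add (contDiffOn_const.mul h2)
  have hr1 : Sm T (fun t x => ric1 p (w t) (f t) x) :=
    (ContDiffOn.neg (hew.mul (hlf.add ((hρ.mul h2).mul hg)))).add (contDiffOn_const.mul hef)
  have hr2 : Sm T (fun t x => ric2 p (w t) (f t) x) :=
    ContDiffOn.neg (hew.mul (((hlw.sub contDiffOn_const).sub (contDiffOn_snd.mul hg)).add
      ((hρ.mul h1).mul hg)))
  have hr0 : Sm T (fun t x => ric0 p (w t) (f t) x) :=
    hr2.sub ((hew.mul hρ).mul ((contDiffOn_const.mul (ContDiffOn.sub h3 (ContDiffOn.pow h1 2))).add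
      (contDiffOn_const.mul ((ContDiffOn.add h4 (ContDiffOn.pow h2 2)).sub
        ((contDiffOn_const.mul h1).mul h2)))))
  exact (hr0.add (contDiffOn_const.mul hr1)).add (contDiffOn_const.mul hr2)

end sm

lemma sub_strip : Ico 0 T ×ˢ Ioo (0 : ℝ) 1 ⊆ Ico 0 T ×ˢ Icc (-1) 1 :=
  prod_mono subset_rfl (fun _ hx => ⟨by linarith only [hx, hx.1], hx.2.le⟩)

lemma mem_big {x : ℝ} (hx : x ∈ Ioo (0 : ℝ) 1) : x ∈ Ioo (-1 : ℝ) 1 :=
  ⟨by linarith only [hx, hx.1], hx.2⟩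

section neg
variable (hs : ConfSol p w f T)
  (hneg : ∀ t ∈ Ico 0 T, ∀ x ∈ Ioo (0 : ℝ) 1, rhx (w t) (f t) x < 0)
include hs

lemma c_uu : ContDiffOn ℝ ∞ (fun z : ℝ × ℝ => uu (w z.1) (f z.1) z.2) (Ico 0 T ×ˢ Ioo 0 1) := by
  have h1 := hs.smooth_w.mono sub_strip
  have h2 := hs.smooth_f.mono sub_strip
  have h3 : ContDiffOn ℝ ∞ (fun z : ℝ × ℝ => Real.log (1 - z.2 ^ 2)) (Ico 0 T ×ˢ Ioo 0 1) := by
    apply ContDiffOn.log
    · exact contDiffOn_const.sub (contDiffOn_snd.pow 2)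
    · intro z hz
      exact (one_sub_sq_pos (mem_big hz.2)).ne'
  exact (h2.sub h1).sub (h3.div_const 2)

lemma c_rh : ContDiffOn ℝ ∞ (fun z : ℝ × ℝ => rh p (w z.1) (f z.1) z.2) (Ico 0 T ×ˢ Ioo 0 1) :=
  (rh_smooth hs).mono (prod_mono subset_rfl (fun _ hx => mem_big hx))

include hneg

lemma c_u1 : ContDiffOn ℝ ∞ (fun z : ℝ × ℝ => u1 (w z.1) (f z.1) z.2) (Ico 0 T ×ˢ Ioo 0 1) := by
  apply ContDiffOn.div
  · exact contDiffOn_const.mul ((smNN hs).mono sub_strip)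
  · exact (smDD hs).mono sub_strip
  · intro z hz
    exact (DD_pos (mem_big hz.2) (hneg z.1 hz.1 z.2 hz.2)).ne'

lemma c_u2 : ContDiffOn ℝ ∞ (fun z : ℝ × ℝ => u2 (w z.1) (f z.1) z.2) (Ico 0 T ×ˢ Ioo 0 1) := by
  have a1 := ContDiffOn.mono (smDD hs) sub_strip
  have a2 := ContDiffOn.mono (smNN hs) sub_strip
  have a3 := ContDiffOn.mono (smDDx hs) sub_strip
  have a4 := ContDiffOn.mono (smNNx hs) sub_strip
  apply ContDiffOn.div
  · exact (contDiffOn_const.mul (contDiffOn_const.sub (contDiffOn_snd.pow 2))).mul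
      ((a4.mul a1).sub (a2.mul a3))
  · exact a1.pow 3
  · intro z hz
    exact pow_ne_zero 3 (DD_pos (mem_big hz.2) (hneg z.1 hz.1 z.2 hz.2)).ne'

omit hneg in
lemma c_ZZ : ContDiffOn ℝ ∞ (fun z : ℝ × ℝ => ZZ p (w z.1) (f z.1) z.2)
    (Ico 0 T ×ˢ Ioo 0 1) := by
  have a1 := ContDiffOn.mono (smDD hs) sub_strip
  have h1 := hs.smooth_w.mono sub_strip
  have h2 := hs.smooth_f.mono sub_strip
  have h3 : ContDiffOn ℝ ∞ (fun z : ℝ × ℝ => Real.sqrt (1 - z.2 ^ 2)) (Ico 0 T ×ˢ Ioo 0 1) := by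
    apply ContDiffOn.sqrt
    · exact contDiffOn_const.sub (contDiffOn_snd.pow 2)
    · intro z hz
      exact (one_sub_sq_pos (mem_big hz.2)).ne'
  have h4 : ContDiffOn ℝ ∞ (fun z : ℝ × ℝ => rhx (w z.1) (f z.1) z.2) (Ico 0 T ×ˢ Ioo 0 1) := by
    have : ContDiffOn ℝ ∞ (fun z : ℝ × ℝ => -DD (w z.1) (f z.1) z.2 / (2 * (1 - z.2 ^ 2)))
        (Ico 0 T ×ˢ Ioo 0 1) := by
      apply ContDiffOn.div
      · exact ContDiffOn.neg a1
      · exact contDiffOn_const.mul (contDiffOn_const.sub (contDiffOn_snd.pow 2))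
      · intro z hz
        have := one_sub_sq_pos (mem_big hz.2)
        positivity
    exact this.congr (fun z hz => rhx_eq (mem_big hz.2))
  exact (((h2.sub h1).exp.mul (h3.pow 3)).mul (h4.pow 2)).div_const (ze p)

/-- composition with `X`: smoothness and continuity -/
lemma comp_smooth {g : ℝ → ℝ → ℝ}
    (hg : ContDiffOn ℝ ∞ (fun z : ℝ × ℝ => g z.1 z.2) (Ico 0 T ×ˢ Ioo 0 1)) :
    ContDiffOn ℝ ∞ (fun q : ℝ × ℝ => g q.1 (XX p w f q.1 q.2)) (reg p w f (Ioo 0 T)) := by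
  have h1 : ContDiffOn ℝ ∞ (fun q : ℝ × ℝ => ((q.1, XX p w f q.1 q.2) : ℝ × ℝ))
      (reg p w f (Ioo 0 T)) := contDiffOn_fst.prodMk (XX_smooth hs hneg)
  have h2 : MapsTo (fun q : ℝ × ℝ => ((q.1, XX p w f q.1 q.2) : ℝ × ℝ)) (reg p w f (Ioo 0 T))
      (Ico 0 T ×ˢ Ioo 0 1) := by
    intro q hq
    have hq' : q ∈ reg p w f (Ico 0 T) := ⟨⟨hq.1.1.le, hq.1.2⟩, hq.2⟩
    exact ⟨hq'.1, (XX_spec hs hq').1⟩
  exact ContDiffOn.comp (g := fun z : ℝ × ℝ => g z.1 z.2) hg h1 h2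

lemma comp_cont {g : ℝ → ℝ → ℝ}
    (hg : ContDiffOn ℝ ∞ (fun z : ℝ × ℝ => g z.1 z.2) (Ico 0 T ×ˢ Ioo 0 1)) :
    ContinuousOn (fun q : ℝ × ℝ => g q.1 (XX p w f q.1 q.2)) (reg p w f (Ico 0 T)) := by
  have h1 : ContinuousOn (fun q : ℝ × ℝ => ((q.1, XX p w f q.1 q.2) : ℝ × ℝ))
      (reg p w f (Ico 0 T)) := continuousOn_fst.prodMk (XX_cont hs hneg)
  have h2 : MapsTo (fun q : ℝ × ℝ => ((q.1, XX p w f q.1 q.2) : ℝ × ℝ)) (reg p w f (Ico 0 T))
      (Ico 0 T ×ˢ Ioo 0 1) := fun q hq => ⟨hq.1, (XX_spec hs hq).1⟩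
  exact ContinuousOn.comp (g := fun z : ℝ × ℝ => g z.1 z.2) hg.continuousOn h1 h2

/-- time derivative of a composition with `X` -/
lemma comp_time {g : ℝ → ℝ → ℝ}
    (hg : ContDiffOn ℝ ∞ (fun z : ℝ × ℝ => g z.1 z.2) (Ico 0 T ×ˢ Ioo 0 1))
    {q : ℝ × ℝ} (hq : q ∈ reg p w f (Ioo 0 T)) {gt gx' X' : ℝ}
    (hX : HasDerivAt (fun s => XX p w f s q.2) X' q.1)
    (ht : HasDerivAt (fun s => g s (XX p w f q.1 q.2)) gt q.1)
    (hx : HasDerivAt (g q.1) gx' (XX p w f q.1 q.2)) :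
    HasDerivAt (fun s => g s (XX p w f s q.2)) (gt + gx' * X') q.1 := by
  have hq' : q ∈ reg p w f (Ico 0 T) := ⟨⟨hq.1.1.le, hq.1.2⟩, hq.2⟩
  have hspec := XX_spec hs hq'
  set x₀ := XX p w f q.1 q.2 with hx₀
  have hnb : Ico 0 T ×ˢ Ioo (0 : ℝ) 1 ∈ 𝓝 ((q.1, x₀) : ℝ × ℝ) :=
    prod_mem_nhds (Ico_mem_nhds hq.1.1 hq.1.2) (Ioo_mem_nhds hspec.1.1 hspec.1.2)
  have hd : HasFDerivAt (fun z : ℝ × ℝ => g z.1 z.2)
      (fderiv ℝ (fun z : ℝ × ℝ => g z.1 z.2) (q.1, x₀)) (q.1, x₀) :=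
    ((hg.contDiffAt hnb).differentiableAt (by simp)).hasFDerivAt
  set D := fderiv ℝ (fun z : ℝ × ℝ => g z.1 z.2) (q.1, x₀) with hD
  have e1 : D (1, 0) = gt := by
    have h1 : HasDerivAt (fun s : ℝ => ((s, x₀) : ℝ × ℝ)) (1, 0) q.1 :=
      (hasDerivAt_id q.1).prodMk (hasDerivAt_const q.1 x₀)
    have h2 := HasFDerivAt.comp_hasDerivAt (l := fun z : ℝ × ℝ => g z.1 z.2)
      (f := fun s : ℝ => ((s, x₀) : ℝ × ℝ)) q.1 hd h1
    exact HasDerivAt.unique h2 ht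
  have e2 : D (0, 1) = gx' := by
    have h1 : HasDerivAt (fun y : ℝ => ((q.1, y) : ℝ × ℝ)) (0, 1) x₀ :=
      (hasDerivAt_const x₀ q.1).prodMk (hasDerivAt_id x₀)
    have h2 := HasFDerivAt.comp_hasDerivAt (l := fun z : ℝ × ℝ => g z.1 z.2)
      (f := fun y : ℝ => ((q.1, y) : ℝ × ℝ)) x₀ hd h1
    exact HasDerivAt.unique h2 hx
  have h1 : HasDerivAt (fun s : ℝ => ((s, XX p w f s q.2) : ℝ × ℝ)) (1, X') q.1 :=
    (hasDerivAt_id q.1).prodMk hX
  have h2 := HasFDerivAt.comp_hasDerivAt (l := fun z : ℝ × ℝ => g z.1 z.2)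
    (f := fun s : ℝ => ((s, XX p w f s q.2) : ℝ × ℝ)) q.1 hd h1
  have e3 : D (1, X') = gt + gx' * X' := by
    have : ((1 : ℝ), X') = ((1 : ℝ), (0 : ℝ)) + X' • ((0 : ℝ), (1 : ℝ)) := by ext <;> simp
    rw [this, map_add, map_smul, e1, e2, smul_eq_mul]
    ring
  rw [e3] at h2
  exact h2

/-- time derivative of `X` -/
lemma XX_time {q : ℝ × ℝ} (hq : q ∈ reg p w f (Ioo 0 T)) :
    HasDerivAt (fun s => XX p w f s q.2)
      (-((rhsF p (w q.1) (f q.1) (XX p w f q.1 q.2) + rhsW p (w q.1) (f q.1) (XX p w f q.1 q.2)) / 2)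
        / rhx (w q.1) (f q.1) (XX p w f q.1 q.2)) q.1 := by
  have hq' : q ∈ reg p w f (Ico 0 T) := ⟨⟨hq.1.1.le, hq.1.2⟩, hq.2⟩
  have hspec := XX_spec hs hq'
  have hsl : HasDerivAt (fun s : ℝ => ((s, q.2) : ℝ × ℝ)) (1, 0) q.1 :=
    (hasDerivAt_id q.1).prodMk (hasDerivAt_const q.1 q.2)
  have hX : DifferentiableAt ℝ (fun s => XX p w f s q.2) q.1 := by
    have h1 : DifferentiableAt ℝ (fun q : ℝ × ℝ => XX p w f q.1 q.2) q :=
      ((XX_smooth hs hneg).contDiffAt ((reg_open hs).mem_nhds hq)).differentiableAt (by simp)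
    exact (HasFDerivAt.comp_hasDerivAt (l := fun z : ℝ × ℝ => XX p w f z.1 z.2)
      (f := fun s : ℝ => ((s, q.2) : ℝ × ℝ)) q.1 h1.hasFDerivAt hsl).differentiableAt
  have hXI : XX p w f q.1 q.2 ∈ Icc (-1 : ℝ) 1 := Ioo_subset_Icc_self (mem_big hspec.1)
  have hIco : Ico 0 T ∈ 𝓝 q.1 := Ico_mem_nhds hq.1.1 hq.1.2
  have hwt := (hs.eq_w q.1 hq'.1 _ hXI).hasDerivAt hIco
  have hft := (hs.eq_f q.1 hq'.1 _ hXI).hasDerivAt hIco
  have ht : HasDerivAt (fun s => rh p (w s) (f s) (XX p w f q.1 q.2))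
      ((rhsF p (w q.1) (f q.1) (XX p w f q.1 q.2) +
        rhsW p (w q.1) (f q.1) (XX p w f q.1 q.2)) / 2) q.1 := by
    have := (((hft.add hwt).add_const (Real.log (1 - (XX p w f q.1 q.2) ^ 2) / 2)).sub_const
      (Real.log (ze p))).div_const 2
    exact this
  have h2 := comp_time hs hneg (g := fun t => rh p (w t) (f t)) (c_rh hs) hq hX.hasDerivAt ht
    (rh_deriv hs hq'.1 (mem_big hspec.1))
  have h3 : HasDerivAt (fun s => rh p (w s) (f s) (XX p w f s q.2)) 0 q.1 := by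
    have : (fun s => rh p (w s) (f s) (XX p w f s q.2)) =ᶠ[𝓝 q.1] fun _ => q.2 := by
      have hc : ContinuousAt (fun s : ℝ => ((s, q.2) : ℝ × ℝ)) q.1 := by fun_prop
      have h4 := hc.eventually ((reg_open hs).mem_nhds hq)
      filter_upwards [h4] with s hs'
      have : ((s, q.2) : ℝ × ℝ) ∈ reg p w f (Ico 0 T) := ⟨⟨hs'.1.1.le, hs'.1.2⟩, hs'.2⟩
      exact (XX_spec hs this).2
    exact (hasDerivAt_const q.1 q.2).congr_of_eventuallyEq this
  have h5 := h2.unique h3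
  have hne := (hneg q.1 hq'.1 _ hspec.1).ne
  refine hX.hasDerivAt.congr_deriv ?_
  symm
  rw [div_eq_iff hne]
  linarith only [h5]

end neg

/-- bounds near the tip -/
lemma tip_bound (hs : ConfSol p w f T) (hp : 2 ≤ p)
    (hneg : ∀ t ∈ Ico 0 T, ∀ x ∈ Ioo (0 : ℝ) 1, rhx (w t) (f t) x < 0)
    {t₁ : ℝ} (ht₁ : t₁ ∈ Ico 0 T) {ρ₁ : ℝ} (hρ₁ : ∀ t ∈ Icc 0 t₁, ρ₁ < rh p (w t) (f t) 0) :
    ∃ K : ℝ, ∀ t ∈ Icc 0 t₁, ∀ ρ ≤ ρ₁,
      |uu (w t) (f t) (XX p w f t ρ) + 2 * ρ| ≤ K ∧ |u1 (w t) (f t) (XX p w f t ρ)| ≤ K ∧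
      |u2 (w t) (f t) (XX p w f t ρ)| ≤ K ∧
      |ZZ p (w t) (f t) (XX p w f t ρ)| ≤ K * Real.exp (-2 * ρ) ∧
      |scal p (w t) (f t) (XX p w f t ρ)| ≤ K := by
  have hIT : Icc 0 t₁ ⊆ Ico 0 T := fun t ht => ⟨ht.1, ht.2.trans_lt ht₁.2⟩
  have hze := ze_pos hp
  -- lower bound for X
  have hxm : ∃ xm ∈ Ioo (0 : ℝ) 1, ∀ t ∈ Icc 0 t₁, ρ₁ < rh p (w t) (f t) xm := by
    have hcr : ContinuousOn (fun z : ℝ × ℝ => rh p (w z.1) (f z.1) z.2)
        (Icc 0 t₁ ×ˢ Icc (0 : ℝ) (1 / 2)) :=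
      (rh_smooth hs).continuousOn.mono (prod_mono hIT
        (fun x hx => ⟨by linarith only [hx, hx.1], by linarith only [hx, hx.2]⟩))
    set Kc : Set (ℝ × ℝ) := (Icc 0 t₁ ×ˢ Icc (0 : ℝ) (1 / 2)) ∩
      (fun z : ℝ × ℝ => rh p (w z.1) (f z.1) z.2) ⁻¹' (Iic ρ₁) with hKc
    have hKcl : IsClosed Kc := hcr.preimage_isClosed_of_isClosed
      (isClosed_Icc.prod isClosed_Icc) isClosed_Iic
    have hKcomp : IsCompact Kc := (isCompact_Icc.prod isCompact_Icc).of_isClosed_subset hKcl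
      inter_subset_left
    by_cases hne : Kc.Nonempty
    · obtain ⟨z, hz, hzm⟩ := hKcomp.exists_isMinOn hne continuousOn_snd
      have hz2 : 0 < z.2 := by
        rcases eq_or_lt_of_le hz.1.2.1 with h | h
        · exfalso
          have h1 : rh p (w z.1) (f z.1) z.2 ≤ ρ₁ := hz.2
          rw [← h] at h1
          exact absurd (hρ₁ z.1 hz.1.1) (not_lt.2 h1)
        · exact h
      have hz3 : z.2 ≤ 1 / 2 := hz.1.2.2
      refine ⟨z.2 / 2, ⟨by linarith only [hz2], by linarith only [hz2, hz3]⟩, fun t ht => ?_⟩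
      by_contra hcon
      push Not at hcon
      have h2 : ((t, z.2 / 2) : ℝ × ℝ) ∈ Kc := ⟨⟨ht, by constructor <;> linarith only [hz2, hz3]⟩, hcon⟩
      have h3 : z.2 ≤ z.2 / 2 := hzm h2
      linarith only [hz2, h3]
    · refine ⟨1 / 2, by norm_num, fun t ht => ?_⟩
      by_contra hcon
      push Not at hcon
      exact hne ⟨(t, 1 / 2), ⟨ht, by constructor <;> norm_num⟩, hcon⟩
  obtain ⟨xm, hxm1, hxm2⟩ := hxm
  have hXm : ∀ t ∈ Icc 0 t₁, ∀ ρ ≤ ρ₁, XX p w f t ρ ∈ Ioo xm 1 ∧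
      rh p (w t) (f t) (XX p w f t ρ) = ρ := by
    intro t ht ρ hρ
    have hq : ((t, ρ) : ℝ × ℝ) ∈ reg p w f (Ico 0 T) := ⟨hIT ht, hρ.trans_lt (hρ₁ t ht)⟩
    have h1 := XX_spec hs hq
    exact ⟨⟨(XX_lt hs hneg hq ⟨hxm1.1.le, hxm1.2⟩).2 (hρ.trans_lt (hxm2 t ht)), h1.1.2⟩, h1.2⟩
  -- compactness
  set C : Set (ℝ × ℝ) := Icc 0 t₁ ×ˢ Icc xm 1 with hC
  have hCc : IsCompact C := isCompact_Icc.prod isCompact_Icc
  have hsub : C ⊆ Ico 0 T ×ˢ Icc (-1) 1 :=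
    prod_mono hIT (fun x hx => ⟨by linarith only [hxm1, hx, hx.1, hxm1.1], hx.2⟩)
  have cD := (smDD hs).continuousOn.mono hsub
  have cN := (smNN hs).continuousOn.mono hsub
  have cDx := (smDDx hs).continuousOn.mono hsub
  have cNx := (smNNx hs).continuousOn.mono hsub
  have cS := (smScal hs).continuousOn.mono hsub
  have cf := hs.smooth_f.continuousOn.mono hsub
  have hDne : ∀ z ∈ C, DD (w z.1) (f z.1) z.2 ≠ 0 := by
    intro z hz
    rcases eq_or_lt_of_le hz.2.2 with h | h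
    · rw [h]; unfold DD; norm_num
    · have hz2 : z.2 ∈ Ioo (0 : ℝ) 1 := ⟨hxm1.1.trans_le hz.2.1, h⟩
      exact (DD_pos (mem_big hz2) (hneg z.1 (hIT hz.1) z.2 hz2)).ne'
  obtain ⟨K1, hK1⟩ := hCc.exists_bound_of_continuousOn
    (f := fun z : ℝ × ℝ => 2 * f z.1 z.2 - Real.log (ze p))
    ((continuousOn_const.mul cf).sub continuousOn_const)
  obtain ⟨K2, hK2⟩ := hCc.exists_bound_of_continuousOn
    (f := fun z : ℝ × ℝ => u1 (w z.1) (f z.1) z.2)
    ((continuousOn_const.mul cN).div cD hDne)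
  obtain ⟨K3, hK3⟩ := hCc.exists_bound_of_continuousOn
    (f := fun z : ℝ × ℝ => u2 (w z.1) (f z.1) z.2)
    (((continuousOn_const.mul (continuousOn_const.sub (continuousOn_snd.pow 2))).mul
      ((cNx.mul cD).sub (cN.mul cDx))).div (cD.pow 3) (fun z hz => pow_ne_zero 3 (hDne z hz)))
  obtain ⟨K4, hK4⟩ := hCc.exists_bound_of_continuousOn
    (f := fun z : ℝ × ℝ => Real.exp (2 * f z.1 z.2) * (DD (w z.1) (f z.1) z.2) ^ 2
      / (4 * ze p ^ 2))
    (((Real.continuous_exp.comp_continuousOn (continuousOn_const.mul cf)).mul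
      (cD.pow 2)).div_const _)
  obtain ⟨K5, hK5⟩ := hCc.exists_bound_of_continuousOn
    (f := fun z : ℝ × ℝ => scal p (w z.1) (f z.1) z.2) cS
  refine ⟨max K1 (max K2 (max K3 (max K4 K5))), fun t ht ρ hρ => ?_⟩
  obtain ⟨hX, hXρ⟩ := hXm t ht ρ hρ
  have hXC : ((t, XX p w f t ρ) : ℝ × ℝ) ∈ C := ⟨ht, hX.1.le, hX.2.le⟩
  have hX1 : XX p w f t ρ ∈ Ioo (-1 : ℝ) 1 := ⟨by linarith only [hxm1, hX, hX.1, hxm1.1], hX.2⟩
  have b1 := hK1 _ hXC
  have b2 := hK2 _ hXC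
  have b3 := hK3 _ hXC
  have b4 := hK4 _ hXC
  have b5 := hK5 _ hXC
  simp only [Real.norm_eq_abs] at b1 b2 b3 b4 b5
  refine ⟨?_, ?_, ?_, ?_, ?_⟩
  · have : uu (w t) (f t) (XX p w f t ρ) + 2 * ρ = 2 * f t (XX p w f t ρ) - Real.log (ze p) := by
      rw [← hXρ]
      simp only [hXρ]
      nth_rewrite 2 [← hXρ]
      unfold uu rh
      ring
    rw [this]
    exact b1.trans (le_max_left _ _)
  · exact b2.trans ((le_max_left _ _).trans (le_max_right _ _))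
  · exact b3.trans ((le_max_left _ _).trans ((le_max_right _ _).trans (le_max_right _ _)))
  · have hpos := Real.exp_pos (-2 * ρ)
    have : ZZ p (w t) (f t) (XX p w f t ρ) = Real.exp (2 * f t (XX p w f t ρ)) *
        (DD (w t) (f t) (XX p w f t ρ)) ^ 2 / (4 * ze p ^ 2) * Real.exp (-2 * ρ) := by
      have e1 : Real.exp (-2 * ρ) = (Real.exp (2 * rh p (w t) (f t) (XX p w f t ρ)))⁻¹ := by
        rw [← Real.exp_neg, hXρ]; congr 1; ring
      rw [e1, exp_rh hX1 hp, ZZ_eq hX1]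
      have h0 : 0 < Real.sqrt (1 - (XX p w f t ρ) ^ 2) := Real.sqrt_pos.2 (one_sub_sq_pos hX1)
      rw [Real.exp_sub, Real.exp_add, show (2 : ℝ) * f t (XX p w f t ρ) =
        f t (XX p w f t ρ) + f t (XX p w f t ρ) by ring, Real.exp_add]
      have := Real.exp_pos (w t (XX p w f t ρ))
      have := Real.exp_pos (f t (XX p w f t ρ))
      field_simp
    rw [this, abs_mul, abs_of_pos hpos]
    exact mul_le_mul_of_nonneg_right (b4.trans ((le_max_left _ _).trans ((le_max_right _ _).trans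
      ((le_max_right _ _).trans (le_max_right _ _))))) hpos.le
  · exact b5.trans ((le_max_right _ _).trans ((le_max_right _ _).trans
      ((le_max_right _ _).trans (le_max_right _ _))))

theorem s8 : S8Statement := by
  intro p hp T hT w f hs hneg
  refine ⟨XX p w f, fun t ρ => uu (w t) (f t) (XX p w f t ρ),
    fun t ρ => u1 (w t) (f t) (XX p w f t ρ), fun t ρ => u2 (w t) (f t) (XX p w f t ρ),
    fun t ρ => ZZ p (w t) (f t) (XX p w f t ρ), fun t ρ => scal p (w t) (f t) (XX p w f t ρ), ?_⟩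
  have hscal := ContDiffOn.mono (smScal hs) sub_strip
  constructor
  · exact fun q hq => XX_spec hs hq
  · exact fun t ht x hx => XX_inv hs hneg ht hx
  · exact fun q _ => rfl
  · intro q hq
    have h := XX_spec hs hq
    exact (u1_eq (mem_big h.1) (hneg q.1 hq.1 _ h.1)).symm
  · exact fun q _ => rfl
  · exact fun q _ => rfl
  · exact reg_open hs
  · exact XX_smooth hs hneg
  · exact comp_smooth hs hneg (g := fun t => uu (w t) (f t)) (c_uu hs)
  · exact comp_smooth hs hneg (g := fun t => u1 (w t) (f t)) (c_u1 hs hneg)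
  · exact comp_smooth hs hneg (g := fun t => u2 (w t) (f t)) (c_u2 hs hneg)
  · exact comp_smooth hs hneg (g := fun t => ZZ p (w t) (f t)) (c_ZZ hs)
  · exact comp_smooth hs hneg (g := fun t => scal p (w t) (f t)) hscal
  · exact XX_cont hs hneg
  · exact comp_cont hs hneg (g := fun t => uu (w t) (f t)) (c_uu hs)
  · exact comp_cont hs hneg (g := fun t => u1 (w t) (f t)) (c_u1 hs hneg)
  · exact comp_cont hs hneg (g := fun t => u2 (w t) (f t)) (c_u2 hs hneg)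
  · exact comp_cont hs hneg (g := fun t => ZZ p (w t) (f t)) (c_ZZ hs)
  · exact comp_cont hs hneg (g := fun t => scal p (w t) (f t)) hscal
  · -- d1
    intro q hq
    have h := XX_spec hs hq
    have hn := hneg q.1 hq.1 _ h.1
    have h1 := (uu_deriv (slice (h := w) hs.smooth_w hq.1) (slice (h := f) hs.smooth_f hq.1)
      (mem_big h.1)).comp q.2 (XX_deriv hs hneg hq)
    refine HasDerivAt.congr_deriv h1 ?_
    rw [← u1_eq (mem_big h.1) hn, div_eq_mul_inv]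
  · -- d2
    intro q hq
    have h := XX_spec hs hq
    have hn := hneg q.1 hq.1 _ h.1
    have h1 := (u1_deriv (slice (h := w) hs.smooth_w hq.1) (slice (h := f) hs.smooth_f hq.1)
      (mem_big h.1) hn).comp q.2 (XX_deriv hs hneg hq)
    refine HasDerivAt.congr_deriv h1 ?_
    rw [mul_assoc, mul_inv_cancel₀ hn.ne, mul_one]
  · -- dZ
    intro q hq
    have h := XX_spec hs hq
    have hn := hneg q.1 hq.1 _ h.1
    have h1 := (ZZ_deriv (p := p) (slice (h := w) hs.smooth_w hq.1)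
      (slice (h := f) hs.smooth_f hq.1) (mem_big h.1) hn hp).comp q.2 (XX_deriv hs hneg hq)
    refine HasDerivAt.congr_deriv h1 ?_
    rw [mul_assoc _ (rhx (w q.1) (f q.1) (XX p w f q.1 q.2)), mul_inv_cancel₀ hn.ne, mul_one,
      E3 (mem_big h.1) hn hp, h.2]
  · -- dt
    intro q hq
    have hq' : q ∈ reg p w f (Ico 0 T) := ⟨⟨hq.1.1.le, hq.1.2⟩, hq.2⟩
    have h := XX_spec hs hq'
    have hn := hneg q.1 hq'.1 _ h.1
    have hXI : XX p w f q.1 q.2 ∈ Icc (-1 : ℝ) 1 := Ioo_subset_Icc_self (mem_big h.1)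
    have hIco : Ico 0 T ∈ 𝓝 q.1 := Ico_mem_nhds hq.1.1 hq.1.2
    have hwt := (hs.eq_w q.1 hq'.1 _ hXI).hasDerivAt hIco
    have hft := (hs.eq_f q.1 hq'.1 _ hXI).hasDerivAt hIco
    have ht : HasDerivAt (fun s => uu (w s) (f s) (XX p w f q.1 q.2))
        (rhsF p (w q.1) (f q.1) (XX p w f q.1 q.2) -
          rhsW p (w q.1) (f q.1) (XX p w f q.1 q.2)) q.1 :=
      (hft.sub hwt).sub_const _
    have h2 := comp_time hs hneg (g := fun t => uu (w t) (f t)) (c_uu hs) hq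
      (XX_time hs hneg hq) ht (uu_deriv (slice (h := w) hs.smooth_w hq'.1)
        (slice (h := f) hs.smooth_f hq'.1) (mem_big h.1))
    rw [E1 (mem_big h.1) hn hp, h.2] at h2
    exact h2
  · -- Z_pos
    intro q hq
    have h := XX_spec hs hq
    have h1 := one_sub_sq_pos (mem_big h.1)
    have h2 := DD_pos (mem_big h.1) (hneg q.1 hq.1 _ h.1)
    have h3 := ze_pos hp
    simp only [ZZ_eq (mem_big h.1)]
    positivity
  · intro t₁ ht₁ ρ₁ hρ₁
    exact tip_bound hs hp hneg ht₁ hρ₁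

end

end Vale.Agent.P244.ST.RG
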