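import Vale.Agent.P244.ST.S.Bd2

/-!
# P244 / ST / S : the boundary value at `y = ρ₀` (proof of `BdStatement`)
-/

open Set MeasureTheory Filter Topology
open scoped ContDiff

namespace Vale.Agent.P244.ST.SS

/-- `l₃` as a function -/
noncomputable def l3 (z : ℝ) : ℝ := (Lag.ell (SS.aa kap) 3).eval z

theorem l3_zero : l3 0 = 1 := by
  unfold l3
  rw [← Polynomial.coeff_zero_eq_eval_zero, Lag.coeff_ell]
  unfold Lag.cf
  simp

theorem l3_lip : ∃ L : ℝ, 0 < L ∧ ∀ z ∈ Icc (0 : ℝ) 1, ∀ z' ∈ Icc (0 : ℝ) 1,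
    |l3 z - l3 z'| ≤ L * |z - z'| := by
  have hc : Continuous fun z => (Polynomial.derivative (Lag.ell (SS.aa kap) 3)).eval z :=
    (Polynomial.derivative (Lag.ell (SS.aa kap) 3)).continuous
  obtain ⟨M, hM⟩ := isCompact_Icc.exists_bound_of_continuousOn (s := Icc (0 : ℝ) 1) hc.continuousOn
  refine ⟨|M| + 1, by positivity, fun z hz z' hz' => ?_⟩
  have h := Convex.norm_image_sub_le_of_norm_hasDerivWithin_le (f := l3) (C := |M| + 1)
    (s := Icc (0 : ℝ) 1) (fun x _ => ((Lag.ell (SS.aa kap) 3).hasDerivAt x).hasDerivWithinAt)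
    (fun x hx => (hM x hx).trans (by linarith only [le_abs_self M])) (convex_Icc 0 1) hz' hz
  simpa [Real.norm_eq_abs] using h

/-- Lipschitz constant of `l₃` on `[0,1]` -/
noncomputable def L3 : ℝ := l3_lip.choose

theorem L3_pos : 0 < L3 := l3_lip.choose_spec.1

theorem L3_spec {z z' : ℝ} (hz : z ∈ Icc (0 : ℝ) 1) (hz' : z' ∈ Icc (0 : ℝ) 1) :
    |l3 z - l3 z'| ≤ L3 * |z - z'| := l3_lip.choose_spec.2 z hz z' hz'

/-- `zR = ρ₀²/4` -/
noncomputable def zR (q : Par) : ℝ := q.rho0 ^ 2 / 4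

/-- the oscillation constant -/
noncomputable def KO (q : Par) : ℝ := 3 * q.MU + 4 * q.MP + L3

/-- sum of the norms -/
noncomputable def SN : ℝ := 1 + ∑ i ∈ Finset.range 3, nu kap i ^ 2 + nu kap 3 ^ 2

theorem SN_pos : 0 < SN := by unfold SN; positivity

/-- the constant in front of `sg` -/
noncomputable def KB (q : Par) : ℝ :=
  2 * ((Lag.wlow (SS.aa kap) (zR q) (2 * zR q))⁻¹ * SN) / zR q + 2 * KO q ^ 2 + 1

/-- the choice of `ch` equal to one -/
theorem ch_one {d N s z : ℝ} (h1 : 4 * z0 d s ≤ z) (hd : 0 < d) (h2 : be N s z ≤ 1) :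
    ch d N s z = 1 := by
  unfold ch
  have h3 : 4 ≤ z / z0 d s := by
    rw [le_div_iff₀ (z0_pos hd s)]
    exact h1
  rw [xi_one h3, xi_zero h2]
  ring

variable {q : Par} {g : ℝ → ℝ} {w f : Fn} {T t : ℝ} {X U U1 U2 Z R : ℝ → ℝ → ℝ}

/-- value of the normalised function near `zR` -/
theorem hh_near (P : BdPar q) (h0 : 0 ≤ t) (h1 : t < 1) {z : ℝ} (hz : z ∈ Icc (zR q) (2 * zR q)) :
    hh q U t z = wk kap z * U t (lr (st t) z) / q.A t := by
  have hτ : 0 < tau t := by unfold tau; linarith only [h1]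
  have hR0 := P.rho0
  have hst : 0 ≤ st t := by
    unfold st
    have := Real.log_nonpos (by linarith only [h1] : 0 ≤ 1 - t) (by linarith only [h0])
    linarith only [this]
  have hz0 : 0 < zR q := by unfold zR; positivity
  have hch : ch q.d0 q.N (st t) z = 1 := by
    apply ch_one
    · unfold z0
      have h2 : Real.exp (-st t / 5) ≤ 1 := by
        rw [Real.exp_le_one_iff]; linarith only [hst]
      have h3 := P.d0'
      have h4 := P.d0
      have h5 : q.d0 ^ 2 ≤ q.rho0 ^ 2 / 4 := by nlinarith only [hR0, h3, h4]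
      have h6 := hz.1
      unfold zR at h6
      nlinarith only [h2, h5, h6, Real.exp_pos (-st t / 5), sq_nonneg q.d0]
    · exact P.d0
    · unfold be
      have hN := P.N
      rw [div_le_one (by linarith only [hN])]
      have h2 : Real.exp (-st t) ≤ 1 := by
        rw [Real.exp_le_one_iff]; linarith only [hst]
      have h6 := hz.2
      unfold zR at h6
      have h7 := P.rho0'
      have h8 : z ≤ 1 := by nlinarith only [hR0, h6, h7]
      nlinarith only [hz, hR0, hz0, hN, h2, h6, h7, Real.exp_pos (-st t), hz0.trans_le hz.1]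
  unfold hh HH
  rw [hch, CV.tt_st hτ, CV.Am_eq hτ, one_mul]

theorem wk_near {z a l : ℝ} (ha : 0 < a) (hl : 0 ≤ l) (hl1 : l ≤ 1) (h1 : a ≤ z)
    (h2 : z ≤ a * (1 + l)) (h4a : 4 * a ≤ 1) :
    0 < wk kap a ∧ wk kap a ≤ 1 ∧ wk kap a ≤ wk kap z ∧ wk kap z ≤ wk kap a + 3 * l := by
  have hk := kkap
  have hk0 : 0 ≤ kap / 2 := by linarith only [ha, h4a, hk, hk.lo]
  have hz : 0 < z := ha.trans_le h1
  unfold wk
  have e1 : (0 : ℝ) < (4 * a) ^ (kap / 2) := Real.rpow_pos_of_pos (by linarith only [ha]) _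
  have e2 : (4 * a) ^ (kap / 2) ≤ 1 := Real.rpow_le_one (by linarith only [ha]) h4a hk0
  refine ⟨e1, e2, Real.rpow_le_rpow (by linarith only [ha]) (by linarith only [h1]) hk0, ?_⟩
  have e3 : (4 * z) ^ (kap / 2) ≤ (4 * a * (1 + l)) ^ (kap / 2) :=
    Real.rpow_le_rpow (by linarith only [ha, h1]) (by linarith only [h2]) hk0
  rw [Real.mul_rpow (x := 4 * a) (y := 1 + l) (by linarith only [ha]) (by linarith only [ha, hl, h4a])] at e3
  have e4 : (1 + l) ^ (kap / 2) ≤ (1 + l) ^ (2 : ℝ) :=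
    Real.rpow_le_rpow_of_exponent_le (by linarith only [hl]) (by linarith only [ha, h4a, hk, hk.hi])
  rw [Real.rpow_two] at e4
  have e5 : (1 + l) ^ 2 ≤ 1 + 3 * l := by nlinarith only [hl, hl1]
  have e6 : 0 ≤ (1 + l) ^ (kap / 2) := Real.rpow_nonneg (by linarith only [ha, hl, h4a]) _
  nlinarith only [ha, hl, h4a, e1, e2, e3, e4, e5]

/-- the normalised function is admissible for the `L²` theory -/
theorem hh_adm (P : BdPar q) (h : ConfSol 20 w f T) (hT : 0 < T) (hT1 : T ≤ 1)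
    (hR : RG.RSol 20 w f T X U U1 U2 Z R) {t₁ : ℝ} (ht₁ : t₁ ∈ Ico 0 T)
    (hb0 : ∀ t ∈ Icc 0 t₁, q.N / 4 ≤ rr w f t 0) (ht : t ∈ Icc 0 t₁) :
    (∀ z > 0, HasDerivAt (hh q U t) (H1 kap q.eps q.d0 q.N U U1 (st t) z) z) ∧
    (ContinuousOn (H1 kap q.eps q.d0 q.N U U1 (st t)) (Ioi 0)) ∧
    (∃ c₁ > 0, ∃ c₂ : ℝ, ∀ z > 0, z ∉ Icc c₁ c₂ → hh q U t z = 0) ∧
    2 * Real.sqrt q.N < rr w f t 0 := by
  have hsq : ∀ t ∈ Icc 0 t₁, 2 * Real.sqrt q.N < rr w f t 0 := by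
    intro t ht
    refine lt_of_lt_of_le ?_ (hb0 t ht)
    have hN := P.N
    have h2 : Real.sqrt q.N * Real.sqrt q.N = q.N := Real.mul_self_sqrt (by linarith only [hN])
    have h3 : 10 ≤ Real.sqrt q.N := Real.le_sqrt_of_sq_le (by linarith only [hN])
    nlinarith only [hN, h2, h3]
  obtain ⟨t', ht', hreg⟩ := region_ext h ht₁ hsq
  have ht'1 : t' < 1 := lt_of_lt_of_le ht'.2 hT1
  have hτ' : 0 < tau t' := by unfold tau; linarith only [ht'1]
  have htt : tt (st t') = t' := CV.tt_st hτ'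
  have ht0 : 0 < t' := lt_of_le_of_lt ht₁.1 ht'.1
  have hst' : 0 < st t' := by
    unfold st
    have := Real.log_neg (by linarith : 0 < 1 - t') (by linarith only [ht0])
    linarith only [this]
  have hF := s3 kap q.eps q.d0 q.N kkap P.eps P.d0 (by linarith only [P, ht'1, ht0, P.N]) T hT w f X U U1 U2 Z R hR
    (st t') hst' (by rw [htt]; exact ht'.2) (by
      intro s hs
      rw [htt] at hs
      have h1 := hreg s hs
      rw [CV.rh_eq, ← Real.exp_lt_exp]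
      have h2 : Real.exp (rho w f s 0) = rr w f s 0 := rfl
      rw [h2]
      have hN : 0 < q.N := by linarith only [P, ht'1, ht0, P.N]
      have h3 : Real.exp (Real.log (4 * q.N) / 2) = 2 * Real.sqrt q.N := by
        rw [← Real.log_sqrt (by linarith), Real.exp_log (Real.sqrt_pos.2 (by linarith)),
          Real.sqrt_mul (by norm_num)]
        congr 1
        rw [show (4 : ℝ) = 2 ^ 2 by norm_num, Real.sqrt_sq (by norm_num)]
      rw [h3]
      exact h1)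
  have hmem : st t ∈ Icc 0 (st t') := by
    constructor
    · unfold st
      have := Real.log_nonpos (by linarith only [ht, ht', ht'1, ht.2, ht'.1] : 0 ≤ 1 - t) (by linarith [ht.1])
      linarith
    · unfold st
      have := Real.log_le_log (by linarith : 0 < 1 - t') (by linarith [ht.2, ht'.1] : 1 - t' ≤ 1 - t)
      linarith
  refine ⟨fun z hz => hF.d1 _ hmem z hz, ?_, ?_, hsq t ht⟩
  · exact hF.cH1.comp (f := fun z : ℝ => ((st t, z) : ℝ × ℝ)) (by fun_prop) (fun z hz => ⟨hmem, hz⟩)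
  · obtain ⟨c₁, hc₁, c₂, -, hs⟩ := hF.supp
    exact ⟨c₁, hc₁, c₂, fun z hz hz' => (hs _ hmem z hz hz').1⟩

/-- averaging -/
theorem avg_lemma {v2 : ℝ → ℝ} {zr l I c v0 : ℝ} (hzr : 0 < zr) (hl : 0 < l) (hl1 : l ≤ 1)
    (hc : ContinuousOn v2 (Icc zr (2 * zr))) (h0 : ∀ z, 0 ≤ v2 z)
    (hI : ∫ z in zr..(2 * zr), v2 z ≤ I)
    (hv : ∀ z ∈ Icc zr (zr * (1 + l)), v0 ≤ 2 * v2 z + c) :
    (zr * l) * v0 ≤ 2 * I + (zr * l) * c := by
  have hle2 : zr * (1 + l) ≤ 2 * zr := by nlinarith only [hzr, hl1]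
  have hle1 : zr ≤ zr * (1 + l) := by nlinarith only [hzr, hl]
  have hcl : ContinuousOn v2 (Icc zr (zr * (1 + l))) := hc.mono (Icc_subset_Icc le_rfl hle2)
  have hi1 : IntervalIntegrable v2 volume zr (zr * (1 + l)) := by
    apply ContinuousOn.intervalIntegrable
    rwa [uIcc_of_le hle1]
  have h5 : ∫ z in zr..(zr * (1 + l)), v2 z ≤ ∫ z in zr..(2 * zr), v2 z := by
    refine intervalIntegral.integral_mono_interval le_rfl hle1 hle2 ?_ ?_
    · exact Eventually.of_forall fun x => h0 x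
    · apply ContinuousOn.intervalIntegrable
      rwa [uIcc_of_le (by linarith only [hzr])]
  have h6 : ∫ z in zr..(zr * (1 + l)), v0 ≤ ∫ z in zr..(zr * (1 + l)), (2 * v2 z + c) :=
    intervalIntegral.integral_mono_on hle1 intervalIntegrable_const
      ((hi1.const_mul 2).add intervalIntegrable_const) hv
  rw [intervalIntegral.integral_const, smul_eq_mul, intervalIntegral.integral_add
    (hi1.const_mul 2) intervalIntegrable_const,
    intervalIntegral.integral_const_mul, intervalIntegral.integral_const, smul_eq_mul] at h6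
  have e1 : zr * (1 + l) - zr = zr * l := by ring
  rw [e1] at h6
  linarith only [hI, h5, h6]

theorem bd_glob (P : BdPar q) (h : ConfSol 20 w f T) (hq : Qual w f T) (hT : 0 < T) (hT1 : T ≤ 1)
    (hR : RG.RSol 20 w f T X U U1 U2 Z R) (htT : t ∈ Ico 0 T) (h6 : Boot6At q w f t)
    (hreg : 2 * Real.sqrt q.N < rr w f t 0) (hm : MemLp (hh q U t) 2 (Lag.mu (SS.aa kap))) :
    ∫ z, (hh q U t z - l3 z) ^ 2 ∂(Lag.mu (SS.aa kap)) ≤ q.sg ^ 2 * SN := by
  have hl0 : 0 < q.sg := P.sg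
  have hmodes : (∀ i : ℕ, gami q w f i t = SS.gam kap i (hh q U t)) ∧
      enU q w f t = (4 : ℝ) ^ (20 - kap) * Ex kap (hh q U t) :=
    CV.cv q P.d0 (by linarith only [P, P.N]) P.eps w f T hT hT1 h hq X U U1 U2 Z R hR t htT hreg
  have hEx : Ex kap (hh q U t) ≤ q.sg ^ 2 := by
    have h7 := h6.en
    rw [hmodes.2] at h7
    have h8 : (1 : ℝ) ≤ (4 : ℝ) ^ (20 - kap) :=
      Real.one_le_rpow (by norm_num) (by linarith only [kkap.hi])
    by_contra hc
    push Not at hc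
    have h9 : 0 < q.sg ^ 2 := by positivity
    nlinarith only [h7, h8, hc]
  have e := dist_sq kkap hm
  unfold l3
  rw [e]
  unfold SN
  have h3 : (nu kap 3 * (SS.gam kap 3 (hh q U t) - 1)) ^ 2 ≤ q.sg ^ 2 * nu kap 3 ^ 2 := by
    rw [mul_pow, mul_comm]
    refine mul_le_mul_of_nonneg_right ?_ (sq_nonneg _)
    rw [← sq_abs, ← hmodes.1 3]
    exact pow_le_pow_left₀ (abs_nonneg _) h6.main 2
  have h4 : ∑ i ∈ Finset.range 3, (nu kap i * SS.gam kap i (hh q U t)) ^ 2 ≤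
      q.sg ^ 2 * ∑ i ∈ Finset.range 3, nu kap i ^ 2 := by
    rw [Finset.mul_sum]
    refine Finset.sum_le_sum fun i hi => ?_
    rw [mul_pow, mul_comm]
    refine mul_le_mul_of_nonneg_right ?_ (sq_nonneg _)
    rw [← sq_abs, ← hmodes.1 i]
    exact pow_le_pow_left₀ (abs_nonneg _) (h6.low i (Finset.mem_range.1 hi)) 2
  linarith only [hEx, h3, h4]

/-- algebra of the oscillation estimate -/
theorem osc_alg {wr wz Ur Uz A MU MP l L lr' lz : ℝ} (hA : 0 < A) (hl : 0 < l) (hl1 : l ≤ 1)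
    (hMU : 0 < MU) (hMP : 0 < MP) (w1 : 0 < wr) (w2 : wr ≤ 1) (w3 : wr ≤ wz)
    (w4 : wz ≤ wr + 3 * l) (hU : |Uz| ≤ MU * A) (hdU : |Uz - Ur| ≤ 2 * MP * A * Real.sqrt l)
    (hdl : |lz - lr'| ≤ L * Real.sqrt l) :
    |wr * Ur / A - lr'| ≤ |wz * Uz / A - lz| + (3 * MU + 4 * MP + L) * Real.sqrt l := by
  have hsl : l ≤ Real.sqrt l := by
    have h3 := Real.mul_self_sqrt hl.le
    have h4 : Real.sqrt l ≤ 1 := by
      rw [Real.sqrt_le_left (by norm_num)]; linarith only [hl1]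
    nlinarith only [h3, h4, Real.sqrt_nonneg l]
  have hs0 := Real.sqrt_nonneg l
  have hdh : |wr * Ur / A - wz * Uz / A| ≤ (3 * MU + 4 * MP) * Real.sqrt l := by
    have e1 : wr * Ur / A - wz * Uz / A = -((wr * (Uz - Ur) + (wz - wr) * Uz) / A) := by ring
    rw [e1, abs_neg, abs_div, abs_of_pos hA, div_le_iff₀ hA]
    refine (abs_add_le _ _).trans ?_
    rw [abs_mul, abs_mul, abs_of_pos w1, abs_of_nonneg (sub_nonneg.2 w3)]
    have h3 : wr * |Uz - Ur| ≤ 1 * (2 * MP * A * Real.sqrt l) :=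
      mul_le_mul w2 hdU (abs_nonneg _) (by norm_num)
    have h4 : (wz - wr) * |Uz| ≤ (3 * l) * (MU * A) :=
      mul_le_mul (by linarith only [w4]) hU (abs_nonneg _) (by positivity)
    have h5 : (3 * l) * (MU * A) ≤ 3 * Real.sqrt l * (MU * A) :=
      mul_le_mul_of_nonneg_right (by linarith only [hsl]) (by positivity)
    have h6 : 0 ≤ MP * A * Real.sqrt l := by positivity
    have e2 : (3 * MU + 4 * MP) * Real.sqrt l * A =
      3 * Real.sqrt l * (MU * A) + 2 * MP * A * Real.sqrt l + 2 * (MP * A * Real.sqrt l) := by ring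
    rw [e2]
    linarith only [h3, h4, h5, h6]
  have e2 : wr * Ur / A - lr' = (wz * Uz / A - lz) +
      ((wr * Ur / A - wz * Uz / A) + (lz - lr')) := by ring
  rw [e2]
  refine (abs_add_le _ _).trans (add_le_add le_rfl ((abs_add_le _ _).trans ?_))
  linarith only [hdl, hdh]

theorem lr_diff {s z zr : ℝ} (hz : 0 < z) (hzr : 0 < zr) :
    lr s z - lr s zr = Real.log (z / zr) / 2 := by
  unfold lr
  rw [Real.log_div hz.ne' hzr.ne', Real.log_mul (by norm_num) hz.ne',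
    Real.log_mul (by norm_num) hzr.ne']
  ring

theorem log_le_of {z zr l : ℝ} (hzr : 0 < zr) (h1 : zr ≤ z) (h2 : z ≤ zr * (1 + l)) :
    0 ≤ Real.log (z / zr) ∧ Real.log (z / zr) ≤ l := by
  have hz0 : 0 < z := hzr.trans_le h1
  refine ⟨Real.log_nonneg (by rw [le_div_iff₀ hzr]; linarith only [h1]), ?_⟩
  have h3 : z / zr ≤ 1 + l := by
    rw [div_le_iff₀ hzr]
    linarith only [h2]
  have h4 := Real.log_le_sub_one_of_pos (div_pos hz0 hzr)
  linarith only [h3, h4]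

/-- oscillation of the normalised function -/
theorem bd_osc2 (P : BdPar q) (h : ConfSol 20 w f T) (hq : Qual w f T) (hT1 : T ≤ 1)
    (hR : RG.RSol 20 w f T X U U1 U2 Z R) (htT : t ∈ Ico 0 T)
    (hb : ∀ x ∈ Ico (0 : ℝ) 1, BootAt q g w f t x) (hb0 : q.N / 4 ≤ rr w f t 0)
    (hsc : ∀ x ∈ Ioo (0 : ℝ) 1, RR w f t x = scal 20 (w t) (f t) x)
    {x₀ : ℝ} (hy₀ : yv w f t x₀ = q.rho0) {z : ℝ} (hz : z ∈ Icc (zR q) (zR q * (1 + q.sg))) :
    |hh q U t (zR q) - l3 (zR q)| ≤ |hh q U t z - l3 z| + KO q * Real.sqrt q.sg := by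
  have ht1 : t < 1 := lt_of_lt_of_le htT.2 hT1
  have hτ : 0 < tau t := CV.tau_pos hT1 htT
  have hA0 := CV.A_pos P.eps hτ
  have hR0 := P.rho0
  have hR1 := P.rho0'
  have hzr0 : 0 < zR q := by unfold zR; positivity
  have hzr1 : 4 * zR q ≤ 1 := by unfold zR; nlinarith only [hR0, hR1]
  have hl0 := P.sg
  have hl1 := P.sg'
  have hzt : CV.zt w f t x₀ = zR q := by
    unfold CV.zt zR
    rw [hy₀]
  have hlr : lr (st t) (zR q) = rho w f t x₀ := by
    rw [← hzt]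
    exact CV.lr_zt hτ x₀
  have hz0 : 0 < z := hzr0.trans_le hz.1
  have hz2 : z ≤ 2 * zR q := by nlinarith only [hz, hzr0, hzr1, hl1, hz.2]
  have hlz := lr_diff (s := st t) hz0 hzr0
  rw [hlr] at hlz
  obtain ⟨hlog0, hlog1⟩ := log_le_of hzr0 hz.1 hz.2
  have hρ : lr (st t) z ∈ Icc (rho w f t x₀) (rho w f t x₀ + 1 / 40) :=
    ⟨by linarith only [hlz, hlog0], by linarith only [hl0, hl1, hlz, hlog1]⟩
  obtain ⟨-, hU1, hU2⟩ := bd_osc P h hq hT1 htT hR hb hb0 hsc hy₀ hρ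
  obtain ⟨w1, w2, w3, w4⟩ := wk_near hzr0 hl0.le (by linarith only [hl0, hl1]) hz.1 hz.2 hzr1
  rw [hh_near P htT.1 ht1 ⟨le_rfl, by linarith only [hzr0]⟩, hh_near P htT.1 ht1 ⟨hz.1, hz2⟩, hlr]
  have hMP := P.MP
  have hdU : |U t (lr (st t) z) - U t (rho w f t x₀)| ≤ 2 * q.MP * q.A t * Real.sqrt q.sg := by
    refine hU2.trans ?_
    have h3 : Real.sqrt (lr (st t) z - rho w f t x₀) ≤ Real.sqrt q.sg := by
      apply Real.sqrt_le_sqrt
      rw [hlz]
      linarith only [hl0, hlog1]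
    have h4 : 2 * (2 * q.rho0 * q.MP * q.A t) ≤ 2 * q.MP * q.A t := by
      have : 0 ≤ q.MP * q.A t := by positivity
      nlinarith only [hR1, this]
    exact mul_le_mul h4 h3 (Real.sqrt_nonneg _) (by positivity)
  have hdl : |l3 z - l3 (zR q)| ≤ L3 * Real.sqrt q.sg := by
    have hz1 : z ∈ Icc (0 : ℝ) 1 := ⟨hz0.le, by nlinarith only [hzr1, hl0, hl1, hz2]⟩
    refine (L3_spec hz1 ⟨hzr0.le, by linarith only [hzr1, hl0, hl1]⟩).trans ?_
    refine mul_le_mul_of_nonneg_left ?_ L3_pos.le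
    rw [abs_of_nonneg (by linarith only [hz, hz.1])]
    have hsl : q.sg ≤ Real.sqrt q.sg := by
      have h3 := Real.mul_self_sqrt hl0.le
      have h4 : Real.sqrt q.sg ≤ 1 := by
        rw [Real.sqrt_le_left (by norm_num)]; linarith only [hl0, hl1]
      nlinarith only [hl0, hl1, h3, h4, Real.sqrt_nonneg q.sg]
    nlinarith only [hz, hR0, hR1, hzr1, hl0, hsl, hz.2]
  exact osc_alg hA0 hl0 (by linarith only [hl0, hl1]) P.MU hMP w1 w2 w3 w4 hU1 hdU hdl

theorem bd_small (P : BdPar q) (hK : q.sg * KB q ≤ 1 / 10000)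
    (h : ConfSol 20 w f T) (hq : Qual w f T) (hT : 0 < T) (hT1 : T ≤ 1)
    (hR : RG.RSol 20 w f T X U U1 U2 Z R) {t₁ : ℝ} (ht₁ : t₁ ∈ Ico 0 T)
    (hB : Boot q g w f t₁)
    (hsc : ∀ t ∈ Ico 0 T, ∀ x ∈ Ioo (0 : ℝ) 1, RR w f t x = scal 20 (w t) (f t) x)
    (ht : t ∈ Icc 0 t₁) {x₀ : ℝ} (hy₀ : yv w f t x₀ = q.rho0) :
    |hh q U t (zR q) - l3 (zR q)| ≤ 1 / 100 := by
  have htT : t ∈ Ico 0 T := ⟨ht.1, lt_of_le_of_lt ht.2 ht₁.2⟩
  have hR0 := P.rho0
  have hzr0 : 0 < zR q := by unfold zR; positivity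
  have hl0 := P.sg
  have hl1 := P.sg'
  obtain ⟨hd1, hd1c, ⟨c₁, hc₁, c₂, hsupp⟩, hreg⟩ := hh_adm P h hT hT1 hR ht₁ hB.b0 ht
  have hhc : ContinuousOn (hh q U t) (Ioi 0) := fun z hz =>
    (hd1 z hz).continuousAt.continuousWithinAt
  have hm := memLp_of_supp (k := kap) kkap hc₁ hhc hsupp
  have hglob := bd_glob P h hq hT hT1 hR htT (hB.b6 t ht) hreg hm
  have hKO : 0 < KO q := by
    unfold KO
    have := P.MU
    have := P.MP
    have := L3_pos
    positivity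
  set v0 := |hh q U t (zR q) - l3 (zR q)| with hv0
  have hv00 : 0 ≤ v0 := abs_nonneg _
  have hsq : ∀ z ∈ Icc (zR q) (zR q * (1 + q.sg)), v0 ^ 2 ≤
      2 * (hh q U t z - l3 z) ^ 2 + 2 * KO q ^ 2 * q.sg := by
    intro z hz
    have h3 := bd_osc2 P h hq hT1 hR htT (fun x hx => hB.b5 t ht x hx) (hB.b0 t ht)
      (hsc t htT) hy₀ hz
    have h4 := Real.mul_self_sqrt hl0.le
    have h5 : v0 ^ 2 ≤ (|hh q U t z - l3 z| + KO q * Real.sqrt q.sg) ^ 2 :=
      pow_le_pow_left₀ hv00 h3 2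
    have h6 := sq_abs (hh q U t z - l3 z)
    nlinarith only [h4, h5, h6, sq_nonneg (|hh q U t z - l3 z| - KO q * Real.sqrt q.sg)]
  have hposI : Icc (zR q) (2 * zR q) ⊆ Ioi 0 := fun x hx => lt_of_lt_of_le hzr0 hx.1
  have hl3c : Continuous l3 := (Lag.ell (SS.aa kap) 3).continuous
  have hvc : ContinuousOn (fun z => (hh q U t z - l3 z) ^ 2) (Icc (zR q) (2 * zR q)) :=
    ((hhc.mono hposI).sub hl3c.continuousOn).pow 2
  have hwm : MemLp (fun z => hh q U t z - l3 z) 2 (Lag.mu (SS.aa kap)) :=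
    hm.sub (Lag.poly_memLp kkap.neg_one_lt' (Lag.ell (SS.aa kap) 3))
  have h6 := Lag.integral_le_mu (a := SS.aa kap) hzr0 (by linarith only [hzr0] : zR q ≤ 2 * zR q) hvc
    (fun z _ => sq_nonneg _) hwm.integrable_sq
  have hI1 : ∫ z in (zR q)..(2 * zR q), (hh q U t z - l3 z) ^ 2 ≤
      (Lag.wlow (SS.aa kap) (zR q) (2 * zR q))⁻¹ * (q.sg ^ 2 * SN) :=
    h6.trans (mul_le_mul_of_nonneg_left hglob (inv_nonneg.2 (Lag.wlow_pos hzr0 (by linarith only [hzr0])).le))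
  have hI2 := avg_lemma hzr0 hl0 (by linarith only [hl0, hl1]) hvc (fun z => sq_nonneg _) hI1 hsq
  have hfin : v0 ^ 2 ≤ 1 / 10000 := by
    have h5 : v0 ^ 2 ≤ q.sg * (2 * ((Lag.wlow (SS.aa kap) (zR q) (2 * zR q))⁻¹ * SN) / zR q +
        2 * KO q ^ 2) := by
      have h6 : (zR q * q.sg) * (q.sg * (2 * ((Lag.wlow (SS.aa kap) (zR q) (2 * zR q))⁻¹ * SN) /
          zR q + 2 * KO q ^ 2)) =
          2 * ((Lag.wlow (SS.aa kap) (zR q) (2 * zR q))⁻¹ * (q.sg ^ 2 * SN)) +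
          (zR q * q.sg) * (2 * KO q ^ 2 * q.sg) := by
        field_simp
      rw [← h6] at hI2
      exact le_of_mul_le_mul_left hI2 (by positivity)
    unfold KB at hK
    nlinarith only [hK, hl0, h5]
  by_contra hc
  push Not at hc
  nlinarith only [hl0, hl1, hv00, hfin, hc]

theorem bd_at (P : BdPar q) (hK : q.sg * KB q ≤ 1 / 10000) (hl3 : |l3 (zR q) - 1| ≤ 1 / 100)
    (h : ConfSol 20 w f T) (hq : Qual w f T) (hT : 0 < T) (hT1 : T ≤ 1)
    (hR : RG.RSol 20 w f T X U U1 U2 Z R) {t₁ : ℝ} (ht₁ : t₁ ∈ Ico 0 T)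
    (hB : Boot q g w f t₁)
    (hsc : ∀ t ∈ Ico 0 T, ∀ x ∈ Ioo (0 : ℝ) 1, RR w f t x = scal 20 (w t) (f t) x)
    (ht : t ∈ Icc 0 t₁) {x₀ : ℝ} (hx₀ : x₀ ∈ Ioo (0 : ℝ) 1) (hy₀ : yv w f t x₀ = q.rho0) :
    9 / 10 * q.T0 t ≤ Real.tanh (uu w f t x₀) ∧ Real.tanh (uu w f t x₀) ≤ 11 / 10 * q.T0 t := by
  have htT : t ∈ Ico 0 T := ⟨ht.1, lt_of_le_of_lt ht.2 ht₁.2⟩
  have ht1 : t < 1 := lt_of_lt_of_le htT.2 hT1
  have hτ : 0 < tau t := CV.tau_pos hT1 htT
  have hA0 := CV.A_pos P.eps hτ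
  have hAe := A_le_eps P.eps ht.1 ht1
  have hR0 := P.rho0
  have h8 := bd_small P hK h hq hT hT1 hR ht₁ hB hsc ht hy₀
  have hzr0 : 0 < zR q := by unfold zR; positivity
  have hzt : CV.zt w f t x₀ = zR q := by
    unfold CV.zt zR
    rw [hy₀]
  have hlr : lr (st t) (zR q) = rho w f t x₀ := by
    rw [← hzt]
    exact CV.lr_zt hτ x₀
  have hU0 : uu w f t x₀ = U t (rho w f t x₀) := (CV.U_zt hR htT hx₀).symm
  have hhR : hh q U t (zR q) = wk kap (zR q) * U t (rho w f t x₀) / q.A t := by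
    rw [hh_near P ht.1 ht1 ⟨le_rfl, by linarith only [hzr0]⟩, hlr]
  have hwk : wk kap (zR q) = q.rho0 ^ kap := by
    rw [← hzt, CV.wk_eq hτ, hy₀]
  have hwp : 0 < q.rho0 ^ kap := Real.rpow_pos_of_pos hR0 _
  have hT0 : q.T0 t = q.A t / q.rho0 ^ kap := by
    unfold Par.T0
    rw [Real.rpow_neg hR0.le]
    rfl
  have hT0p : 0 < q.T0 t := by rw [hT0]; positivity
  have hval : uu w f t x₀ = hh q U t (zR q) * q.T0 t := by
    rw [hU0, hhR, hwk, hT0]
    field_simp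
  have h9 := abs_le.1 h8
  have h10 := abs_le.1 hl3
  have hT01 : q.T0 t ≤ 1 / 10 := by
    have h11 := P.epsT
    unfold Par.T0
    have h12 : 0 < q.rho0 ^ (-kap) := Real.rpow_pos_of_pos hR0 _
    nlinarith only [hAe, h11, h12]
  refine tanh_bounds hT0p hT01 ?_ ?_
  · rw [hval]
    nlinarith only [hT0p, h9, h10]
  · rw [hval]
    nlinarith only [hT0p, h9, h10]

theorem KB_head {q q' : Par} (h : HeadEq q q') : KB q = KB q' := by
  unfold KB KO zR
  rw [h.rho0, h.MU, h.MP]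

theorem ev_bdPar : Ev fun q => BdPar q ∧ q.sg * KB q ≤ 1 / 10000 ∧ |l3 (zR q) - 1| ≤ 1 / 100 := by
  set K0 : ℝ := 100 + 10 * L3 with hK0
  have hL := L3_pos
  have hK0p : 0 < K0 := by positivity
  have e1 := ev_pos (K := K0) hK0p
  have e2 : Ev fun q => q.d0 ≤ q.rho0 / 2 :=
    ev_d0 (F := fun q => q.rho0 / 2) (fun q q' h _ => by simp only [h.rho0])
      (fun q h _ => half_pos h)
  have e3 : Ev fun q => q.eps ≤ 1 / (|q.MU| + 1) :=
    ev_eps (F := fun q => 1 / (|q.MU| + 1)) (fun q q' h _ _ _ => by simp only [h.MU])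
      (fun q _ _ _ _ => by positivity)
  have e4 : Ev fun q => q.eps ≤ 1 / (|q.GR * q.MU ^ 2| + 1) :=
    ev_eps (F := fun q => 1 / (|q.GR * q.MU ^ 2| + 1))
      (fun q q' h _ _ _ => by simp only [h.MU, h.GR]) (fun q _ _ _ _ => by positivity)
  have e5 : Ev fun q => q.eps ≤ q.rho0 ^ kap / 10 :=
    ev_eps (F := fun q => q.rho0 ^ kap / 10) (fun q q' h _ _ _ => by simp only [h.rho0])
      (fun q h _ _ _ => by have := Real.rpow_pos_of_pos h kap; positivity)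
  have e6 : Ev fun q => q.sg ≤ 1 / (10000 * (|KB q| + 1)) :=
    ev_sg (F := fun q => 1 / (10000 * (|KB q| + 1))) (fun q q' h => by simp only [KB_head h])
      (fun q _ => by positivity)
  refine ((((((e1.and e2).and e3).and e4).and e5).and e6).mono ?_)
  rintro q ⟨⟨⟨⟨⟨P, h2⟩, h3⟩, h4⟩, h5⟩, h6⟩
  have hK1 : 1 / K0 ≤ 1 / 100 := by
    apply one_div_le_one_div_of_le (by norm_num)
    rw [hK0]
    linarith only [hL]
  have hMU : 0 < q.MU := hK0p.trans_le P.MU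
  have hMP : 0 < q.MP := hK0p.trans_le P.MP
  have hGR : 0 < q.GR := hK0p.trans_le P.GR
  have hN : 100 ≤ q.N := by
    refine le_trans ?_ P.N
    rw [hK0]
    linarith only [hL]
  refine ⟨⟨P.rho0, by linarith only [P, hK1, P.rho0'], hMU, hMP, hGR, P.sg, by linarith only [P, hK1, P.sg'], P.d0, h2, hN,
    P.eps, by linarith only [P, hK1, P.eps'], ?_, ?_, ?_⟩, ?_, ?_⟩
  · rw [abs_of_pos hMU, le_div_iff₀ (by positivity)] at h3
    have := P.eps
    nlinarith only [h3, this]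
  · have h7 : 0 < q.GR * q.MU ^ 2 := by positivity
    rw [abs_of_pos h7, le_div_iff₀ (by positivity)] at h4
    have := P.eps
    nlinarith only [h4, this]
  · have h7 := Real.rpow_pos_of_pos P.rho0 kap
    rw [Real.rpow_neg P.rho0.le, ← div_eq_mul_inv, div_le_iff₀ h7]
    linarith only [h5]
  · rw [le_div_iff₀ (by positivity)] at h6
    have h7 := le_abs_self (KB q)
    have h8 := P.sg
    nlinarith only [h6, h7, h8]
  · have hz0 : 0 ≤ zR q := by unfold zR; positivity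
    have hρ := P.rho0'
    have hρ0 := P.rho0
    have hρ2 : q.rho0 * K0 ≤ 1 := by
      rw [le_div_iff₀ hK0p] at hρ
      exact hρ
    have hz1 : zR q ≤ 1 := by
      unfold zR
      nlinarith only [hL, hK1, hρ, hρ0, hρ2]
    have h7 := L3_spec (z := zR q) (z' := 0) ⟨hz0, hz1⟩ ⟨le_rfl, zero_le_one⟩
    rw [l3_zero, sub_zero, abs_of_nonneg hz0] at h7
    refine h7.trans ?_
    have h8 : q.rho0 * L3 ≤ 1 / 10 := by
      have : q.rho0 * (10 * L3) ≤ q.rho0 * K0 := by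
        apply mul_le_mul_of_nonneg_left _ hρ0.le
        rw [hK0]
        linarith only [hK1, hρ, hρ0]
      linarith only [hρ0, hρ2]
    have h9 : q.rho0 ≤ 1 / 100 := by linarith only [hK1, hρ]
    unfold zR
    nlinarith only [hL, hρ0, hρ2]

/-- **Bd** -/
theorem bd (hs : ScalStatement) : BdStatement := by
  intro g hg
  refine ev_bdPar.mono ?_
  rintro q ⟨P, hK, hl3⟩ w f T hT hT1 h hq t₁ ht₁ hB t ht x hx hy
  obtain ⟨X, U, U1, U2, Z, R, hR⟩ := exists_rsol h hq hT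
  exact bd_at P hK hl3 h hq hT hT1 hR ht₁ hB (hs w f T hT h) ht hx hy

end Vale.Agent.P244.ST.SS
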