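import Vale.Agent.P244.ST.A.EvLem

/-!
# P244 / ST / S : choosing the late parameters depending on the early ones
-/

open Set

namespace Vale.Agent.P244.ST

/-- agreement of the parameters `B, …, GR` -/
structure HeadEq (q q' : Par) : Prop where
  B : q.B = q'.B
  rho0 : q.rho0 = q'.rho0
  BV : q.BV = q'.BV
  MU : q.MU = q'.MU
  MP : q.MP = q'.MP
  MV : q.MV = q'.MV
  CU : q.CU = q'.CU
  CP : q.CP = q'.CP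
  CV : q.CV = q'.CV
  GR : q.GR = q'.GR

theorem ev_sg {F : Par → ℝ} (hF : ∀ q q', HeadEq q q' → F q = F q')
    (hpos : ∀ q, 0 < q.rho0 → 0 < F q) : Ev fun q => q.sg ≤ F q := by
  refine ⟨0, fun B _ => ?_⟩
  refine ⟨1, one_pos, fun rho0 h0 => ?_⟩
  refine ⟨0, fun BV _ => ?_⟩
  refine ⟨0, fun MU _ => ?_⟩
  refine ⟨0, fun MP _ => ?_⟩
  refine ⟨0, fun MV _ => ?_⟩
  refine ⟨0, fun CU _ => ?_⟩
  refine ⟨0, fun CP _ => ?_⟩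
  refine ⟨0, fun CV _ => ?_⟩
  refine ⟨0, fun GR _ => ?_⟩
  refine ⟨F ⟨B, rho0, BV, MU, MP, MV, CU, CP, CV, GR, 0, 0, 0, 0, 0⟩, hpos _ h0.1, fun sg h1 => ?_⟩
  refine ⟨1, one_pos, fun d0 _ => ?_⟩
  refine ⟨1, one_pos, fun rb _ => ?_⟩
  refine ⟨0, fun N _ => ?_⟩
  refine ⟨1, one_pos, fun eps _ => ?_⟩
  show sg ≤ F _
  rw [hF ⟨B, rho0, BV, MU, MP, MV, CU, CP, CV, GR, sg, d0, rb, N, eps⟩
    ⟨B, rho0, BV, MU, MP, MV, CU, CP, CV, GR, 0, 0, 0, 0, 0⟩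
    ⟨rfl, rfl, rfl, rfl, rfl, rfl, rfl, rfl, rfl, rfl⟩]
  exact h1.2

theorem ev_d0 {F : Par → ℝ} (hF : ∀ q q', HeadEq q q' → q.sg = q'.sg → F q = F q')
    (hpos : ∀ q, 0 < q.rho0 → 0 < q.sg → 0 < F q) : Ev fun q => q.d0 ≤ F q := by
  refine ⟨0, fun B _ => ?_⟩
  refine ⟨1, one_pos, fun rho0 h0 => ?_⟩
  refine ⟨0, fun BV _ => ?_⟩
  refine ⟨0, fun MU _ => ?_⟩
  refine ⟨0, fun MP _ => ?_⟩
  refine ⟨0, fun MV _ => ?_⟩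
  refine ⟨0, fun CU _ => ?_⟩
  refine ⟨0, fun CP _ => ?_⟩
  refine ⟨0, fun CV _ => ?_⟩
  refine ⟨0, fun GR _ => ?_⟩
  refine ⟨1, one_pos, fun sg hs => ?_⟩
  refine ⟨F ⟨B, rho0, BV, MU, MP, MV, CU, CP, CV, GR, sg, 0, 0, 0, 0⟩, hpos _ h0.1 hs.1,
    fun d0 h1 => ?_⟩
  refine ⟨1, one_pos, fun rb _ => ?_⟩
  refine ⟨0, fun N _ => ?_⟩
  refine ⟨1, one_pos, fun eps _ => ?_⟩
  show d0 ≤ F _
  rw [hF ⟨B, rho0, BV, MU, MP, MV, CU, CP, CV, GR, sg, d0, rb, N, eps⟩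
    ⟨B, rho0, BV, MU, MP, MV, CU, CP, CV, GR, sg, 0, 0, 0, 0⟩
    ⟨rfl, rfl, rfl, rfl, rfl, rfl, rfl, rfl, rfl, rfl⟩ rfl]
  exact h1.2

theorem ev_N {F : Par → ℝ}
    (hF : ∀ q q', HeadEq q q' → q.sg = q'.sg → q.d0 = q'.d0 → F q = F q') :
    Ev fun q => F q ≤ q.N := by
  refine ⟨0, fun B _ => ?_⟩
  refine ⟨1, one_pos, fun rho0 h0 => ?_⟩
  refine ⟨0, fun BV _ => ?_⟩
  refine ⟨0, fun MU _ => ?_⟩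
  refine ⟨0, fun MP _ => ?_⟩
  refine ⟨0, fun MV _ => ?_⟩
  refine ⟨0, fun CU _ => ?_⟩
  refine ⟨0, fun CP _ => ?_⟩
  refine ⟨0, fun CV _ => ?_⟩
  refine ⟨0, fun GR _ => ?_⟩
  refine ⟨1, one_pos, fun sg hs => ?_⟩
  refine ⟨1, one_pos, fun d0 hd => ?_⟩
  refine ⟨1, one_pos, fun rb _ => ?_⟩
  refine ⟨F ⟨B, rho0, BV, MU, MP, MV, CU, CP, CV, GR, sg, d0, 0, 0, 0⟩, fun N h1 => ?_⟩
  refine ⟨1, one_pos, fun eps _ => ?_⟩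
  show F _ ≤ N
  rw [hF ⟨B, rho0, BV, MU, MP, MV, CU, CP, CV, GR, sg, d0, rb, N, eps⟩
    ⟨B, rho0, BV, MU, MP, MV, CU, CP, CV, GR, sg, d0, 0, 0, 0⟩
    ⟨rfl, rfl, rfl, rfl, rfl, rfl, rfl, rfl, rfl, rfl⟩ rfl rfl]
  exact h1

theorem ev_eps {F : Par → ℝ}
    (hF : ∀ q q', HeadEq q q' → q.sg = q'.sg → q.d0 = q'.d0 → q.N = q'.N → F q = F q')
    (hpos : ∀ q, 0 < q.rho0 → 0 < q.sg → 0 < q.d0 → 0 < q.N → 0 < F q) :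
    Ev fun q => q.eps ≤ F q := by
  refine ⟨0, fun B _ => ?_⟩
  refine ⟨1, one_pos, fun rho0 h0 => ?_⟩
  refine ⟨0, fun BV _ => ?_⟩
  refine ⟨0, fun MU _ => ?_⟩
  refine ⟨0, fun MP _ => ?_⟩
  refine ⟨0, fun MV _ => ?_⟩
  refine ⟨0, fun CU _ => ?_⟩
  refine ⟨0, fun CP _ => ?_⟩
  refine ⟨0, fun CV _ => ?_⟩
  refine ⟨0, fun GR _ => ?_⟩
  refine ⟨1, one_pos, fun sg hs => ?_⟩
  refine ⟨1, one_pos, fun d0 hd => ?_⟩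
  refine ⟨1, one_pos, fun rb _ => ?_⟩
  refine ⟨1, fun N hN => ?_⟩
  refine ⟨F ⟨B, rho0, BV, MU, MP, MV, CU, CP, CV, GR, sg, d0, 0, N, 0⟩,
    hpos _ h0.1 hs.1 hd.1 (lt_of_lt_of_le one_pos hN), fun eps h1 => ?_⟩
  show eps ≤ F _
  rw [hF ⟨B, rho0, BV, MU, MP, MV, CU, CP, CV, GR, sg, d0, rb, N, eps⟩
    ⟨B, rho0, BV, MU, MP, MV, CU, CP, CV, GR, sg, d0, 0, N, 0⟩
    ⟨rfl, rfl, rfl, rfl, rfl, rfl, rfl, rfl, rfl, rfl⟩ rfl rfl rfl]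
  exact h1.2

end Vale.Agent.P244.ST
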