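import Vale.Agent.P244.ST.S.Xi

/-! P244, block S, S3 (helper558): the equation of the normalised function `H`. -/

open Set Filter Topology MeasureTheory
open scoped ContDiff

namespace Vale.Agent.P244.ST.SS

theorem z0_pos {d : ℝ} (hd : 0 < d) (s : ℝ) : 0 < z0 d s := by
  unfold z0; positivity

theorem Am_pos {k ε : ℝ} (hε : 0 < ε) (s : ℝ) : 0 < Am k ε s := by
  unfold Am; positivity

theorem wk_pos {k z : ℝ} (hz : 0 < z) : 0 < wk k z := by
  unfold wk; positivity

/-! ### derivatives in `z` -/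

theorem hd_xiin {d : ℝ} (s z : ℝ) :
    HasDerivAt (fun z => xi (z / z0 d s)) (xi1 (z / z0 d s) / z0 d s) z := by
  have h1 : HasDerivAt (fun z : ℝ => z / z0 d s) (1 / z0 d s) z :=
    (hasDerivAt_id z).div_const _
  refine ((xi_hasDerivAt (z / z0 d s)).comp z h1).congr_deriv ?_
  ring

theorem hd_xi1in {d : ℝ} (s z : ℝ) :
    HasDerivAt (fun z => xi1 (z / z0 d s)) (xi2 (z / z0 d s) / z0 d s) z := by
  have h1 : HasDerivAt (fun z : ℝ => z / z0 d s) (1 / z0 d s) z :=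
    (hasDerivAt_id z).div_const _
  refine ((xi1_hasDerivAt (z / z0 d s)).comp z h1).congr_deriv ?_
  ring

theorem hd_be {N : ℝ} (s z : ℝ) : HasDerivAt (fun z => be N s z) (4 * Real.exp (-s) / N) z := by
  have h1 : HasDerivAt (fun z : ℝ => 4 * z * Real.exp (-s) / N)
      (4 * 1 * Real.exp (-s) / N) z :=
    (((hasDerivAt_id z).const_mul 4).mul_const _).div_const _
  rw [mul_one] at h1
  exact h1

theorem be_eq {N : ℝ} (s z : ℝ) : z * (4 * Real.exp (-s) / N) = be N s z := by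
  unfold be; ring

theorem hd_xiout {N : ℝ} (s z : ℝ) :
    HasDerivAt (fun z => xi (be N s z)) (xi1 (be N s z) * (4 * Real.exp (-s) / N)) z :=
  (xi_hasDerivAt _).comp z (hd_be s z)

theorem hd_xi1out {N : ℝ} (s z : ℝ) :
    HasDerivAt (fun z => xi1 (be N s z)) (xi2 (be N s z) * (4 * Real.exp (-s) / N)) z :=
  (xi1_hasDerivAt _).comp z (hd_be s z)

theorem hd_ch {d N : ℝ} (hd : 0 < d) (s : ℝ) {z : ℝ} (hz : 0 < z) :
    HasDerivAt (fun z => ch d N s z) (ch1 d N s z / (2 * z)) z := by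
  have h0 := (z0_pos hd s).ne'
  have h := (hd_xiin (d := d) s z).mul ((hd_xiout (N := N) s z).const_sub 1)
  refine h.congr_deriv ?_
  unfold ch1
  rw [← be_eq]
  field_simp
  ring

theorem hd_ch1 {d N : ℝ} (hd : 0 < d) (s : ℝ) {z : ℝ} (hz : 0 < z) :
    HasDerivAt (fun z => ch1 d N s z) (ch2 d N s z / (2 * z)) z := by
  have h0 := (z0_pos hd s).ne'
  have a1 : HasDerivAt (fun z : ℝ => 2 * (z / z0 d s)) (2 * (1 / z0 d s)) z :=
    ((hasDerivAt_id z).div_const _).const_mul 2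
  have a2 := (a1.mul (hd_xi1in (d := d) s z)).mul ((hd_xiout (N := N) s z).const_sub 1)
  have a3 := (hd_xiin (d := d) s z).mul
    (((hd_be (N := N) s z).const_mul 2).mul (hd_xi1out (N := N) s z))
  refine (a2.sub a3).congr_deriv ?_
  simp only [Pi.mul_apply]
  unfold ch2
  rw [← be_eq]
  generalize 4 * Real.exp (-s) / N = c
  field_simp
  ring

theorem hd_wk {k z : ℝ} (hz : 0 < z) : HasDerivAt (fun z => wk k z) (k * wk k z / (2 * z)) z := by
  have h1 : HasDerivAt (fun z : ℝ => 4 * z) 4 z := by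
    simpa using (hasDerivAt_id z).const_mul 4
  have h2 := h1.rpow_const (p := k / 2) (Or.inl (by positivity))
  refine h2.congr_deriv ?_
  unfold wk
  rw [Real.rpow_sub_one (by positivity)]
  field_simp

theorem hd_lr (s : ℝ) {z : ℝ} (hz : 0 < z) : HasDerivAt (fun z => lr s z) (1 / (2 * z)) z := by
  have h1 : HasDerivAt (fun z : ℝ => 4 * z) 4 z := by
    simpa using (hasDerivAt_id z).const_mul 4
  have h2 := ((h1.log (by positivity)).sub_const s).div_const 2
  refine h2.congr_deriv ?_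
  field_simp

/-! ### derivatives in `s` -/

theorem hd_tt (s : ℝ) : HasDerivAt tt (Real.exp (-s)) s := by
  have h1 : HasDerivAt (fun s : ℝ => Real.exp (-s)) (-Real.exp (-s)) s := by
    simpa using (hasDerivAt_neg s).exp
  refine (h1.const_sub 1).congr_deriv ?_
  rw [neg_neg]

theorem hd_lrs (s z : ℝ) : HasDerivAt (fun s => lr s z) (-1 / 2) s := by
  have h := ((hasDerivAt_id s).const_sub (Real.log (4 * z))).div_const 2
  exact h

theorem hd_Am {k ε : ℝ} (s : ℝ) : HasDerivAt (fun s => Am k ε s) (-(3 - k / 2) * Am k ε s) s := by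
  have h1 : HasDerivAt (fun s : ℝ => -(3 - k / 2) * s) (-(3 - k / 2)) s := by
    simpa using (hasDerivAt_id s).const_mul (-(3 - k / 2))
  refine (h1.exp.const_mul ε).congr_deriv ?_
  unfold Am
  ring

theorem hd_chs {d N : ℝ} (hd : 0 < d) (z s : ℝ) :
    HasDerivAt (fun s => ch d N s z) (chs d N s z) s := by
  have h0 := (z0_pos hd s).ne'
  have b1 : HasDerivAt (fun s : ℝ => -s / 5) (-1 / 5) s := (hasDerivAt_neg s).div_const 5
  have b2 : HasDerivAt (fun s => z0 d s) (-(1 / 5) * z0 d s) s := by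
    refine (b1.exp.const_mul (d ^ 2 / 4)).congr_deriv ?_
    unfold z0
    ring
  have b3 : HasDerivAt (fun s => z / z0 d s) (z / z0 d s / 5) s := by
    refine ((hasDerivAt_const s z).div b2 h0).congr_deriv ?_
    field_simp
    ring
  have b4 : HasDerivAt (fun s => be N s z) (-be N s z) s := by
    have h1 : HasDerivAt (fun s : ℝ => Real.exp (-s)) (-Real.exp (-s)) s := by
      simpa using (hasDerivAt_neg s).exp
    refine ((h1.const_mul (4 * z)).div_const N).congr_deriv ?_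
    unfold be
    ring
  have b5 := ((xi_hasDerivAt _).comp s b3).mul (((xi_hasDerivAt _).comp s b4).const_sub 1)
  refine b5.congr_deriv ?_
  unfold chs
  simp only [Function.comp]
  ring

/-! ### zeros of the cut-offs -/

theorem ch_zero {d N s z : ℝ} (hd : 0 < d) (h : z ≤ z0 d s ∨ 4 ≤ be N s z) :
    ch d N s z = 0 ∧ ch1 d N s z = 0 ∧ ch2 d N s z = 0 ∧ chs d N s z = 0 := by
  have h0 := z0_pos hd s
  unfold ch ch1 ch2 chs
  rcases h with h | h
  · have h1 : z / z0 d s ≤ 1 := by rwa [div_le_one h0]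
    rw [xi_zero h1, xi1_zero (Or.inl h1), xi2_zero (Or.inl h1)]
    refine ⟨by ring, by ring, by ring, by ring⟩
  · rw [xi_one h, xi1_zero (Or.inr h), xi2_zero (Or.inr h)]
    refine ⟨by ring, by ring, by ring, by ring⟩

theorem all_zero {k ε d N s z : ℝ} (hd : 0 < d) (h : z ≤ z0 d s ∨ 4 ≤ be N s z)
    (U U1 U2 Z : ℝ → ℝ → ℝ) :
    HH k ε d N U s z = 0 ∧ H1 k ε d N U U1 s z = 0 ∧ H2 k ε d N U U1 U2 s z = 0 ∧
      FN k ε d N U U1 U2 Z s z = 0 := by
  obtain ⟨e0, e1, e2, e3⟩ := ch_zero hd h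
  unfold HH H1 H2 FN HD HDD
  rw [e0, e1, e2, e3]
  refine ⟨by ring, by ring, by ring, by ring⟩

/-! ### the region -/

theorem tt_mono {s s' : ℝ} (h : s ≤ s') : tt s ≤ tt s' := by
  unfold tt
  have := Real.exp_le_exp.2 (neg_le_neg h)
  linarith only [this]

theorem tt_strict {s s' : ℝ} (h : s < s') : tt s < tt s' := by
  unfold tt
  have := Real.exp_lt_exp.2 (neg_lt_neg h)
  linarith only [this]

theorem tt_zero : tt 0 = 0 := by
  unfold tt; simp

theorem lr_le {N s z : ℝ} (hN : 1 ≤ N) (hz : 0 < z) (h : be N s z ≤ 4) :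
    lr s z ≤ Real.log (4 * N) / 2 := by
  unfold be at h
  rw [div_le_iff₀ (by linarith only [hN])] at h
  have h1 := Real.log_le_log (by positivity) h
  rw [Real.log_mul (by positivity) (Real.exp_pos _).ne', Real.log_exp] at h1
  unfold lr
  linarith only [h1]

section main

variable {k ε d N T s₁ : ℝ} {w f X U U1 U2 Z R : ℝ → ℝ → ℝ}

theorem in_reg (hN : 1 ≤ N) (hT : tt s₁ < T)
    (hreg : ∀ t ∈ Icc 0 (tt s₁), Real.log (4 * N) / 2 < RG.rh 20 (w t) (f t) 0) {s z : ℝ}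
    (hs : s ∈ Icc 0 s₁) (hz : 0 < z) (h : be N s z ≤ 4) :
    (tt s, lr s z) ∈ RG.reg 20 w f (Ico 0 T) := by
  have h1 : tt s ∈ Icc 0 (tt s₁) := ⟨by rw [← tt_zero]; exact tt_mono hs.1, tt_mono hs.2⟩
  exact ⟨⟨h1.1, lt_of_le_of_lt h1.2 hT⟩, lt_of_le_of_lt (lr_le hN hz h) (hreg _ h1)⟩

theorem in_reg' (hN : 1 ≤ N) (hT : tt s₁ < T)
    (hreg : ∀ t ∈ Icc 0 (tt s₁), Real.log (4 * N) / 2 < RG.rh 20 (w t) (f t) 0) {s z : ℝ}
    (hs : s ∈ Ioo 0 s₁) (hz : 0 < z) (h : be N s z ≤ 4) :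
    (tt s, lr s z) ∈ RG.reg 20 w f (Ioo 0 T) := by
  have h1 := in_reg hN hT hreg (Ioo_subset_Icc_self hs) hz h
  exact ⟨⟨by rw [← tt_zero]; exact tt_strict hs.1, h1.1.2⟩, h1.2⟩

theorem be_gt_nhds {s z : ℝ} (h : 4 < be N s z) : ∀ᶠ z' in 𝓝 z, 4 < be N s z' := by
  have hc : Continuous fun z => be N s z := by unfold be; fun_prop
  exact hc.continuousAt.eventually_mem (Ioi_mem_nhds h)

theorem be_gt_nhds' {s z : ℝ} (h : 4 < be N s z) : ∀ᶠ s' in 𝓝 s, 4 < be N s' z := by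
  have hc : Continuous fun s => be N s z := by unfold be; fun_prop
  exact hc.continuousAt.eventually_mem (Ioi_mem_nhds h)

theorem s3_d1 (hε : 0 < ε) (hd : 0 < d) (hN : 1 ≤ N) (hR : RG.RSol 20 w f T X U U1 U2 Z R)
    (hT : tt s₁ < T)
    (hreg : ∀ t ∈ Icc 0 (tt s₁), Real.log (4 * N) / 2 < RG.rh 20 (w t) (f t) 0) {s z : ℝ}
    (hs : s ∈ Icc 0 s₁) (hz : 0 < z) :
    HasDerivAt (HH k ε d N U s) (H1 k ε d N U U1 s z) z := by
  rcases le_or_gt (be N s z) 4 with h | h
  · have hq := in_reg hN hT hreg hs hz h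
    have hU : HasDerivAt (fun z => U (tt s) (lr s z)) (U1 (tt s) (lr s z) * (1 / (2 * z))) z :=
      (hR.d1 _ hq).comp z (hd_lr s hz)
    have h1 := (((hd_ch (N := N) hd s hz).mul (hd_wk (k := k) hz)).mul hU).div_const (Am k ε s)
    have hA := (Am_pos (k := k) hε s).ne'
    refine h1.congr_deriv ?_
    simp only [Pi.mul_apply]
    unfold H1 HD
    field_simp
    ring
  · have h0 := all_zero (k := k) (ε := ε) hd (Or.inr h.le) U U1 U2 Z
    rw [h0.2.1]
    refine (hasDerivAt_const z (0 : ℝ)).congr_of_eventuallyEq ?_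
    filter_upwards [be_gt_nhds h] with z' hz'
    exact (all_zero (k := k) (ε := ε) hd (Or.inr hz'.le) U U1 U2 Z).1

theorem s3_d2 (hε : 0 < ε) (hd : 0 < d) (hN : 1 ≤ N) (hR : RG.RSol 20 w f T X U U1 U2 Z R)
    (hT : tt s₁ < T)
    (hreg : ∀ t ∈ Icc 0 (tt s₁), Real.log (4 * N) / 2 < RG.rh 20 (w t) (f t) 0) {s z : ℝ}
    (hs : s ∈ Icc 0 s₁) (hz : 0 < z) :
    HasDerivAt (H1 k ε d N U U1 s) (H2 k ε d N U U1 U2 s z) z := by
  rcases le_or_gt (be N s z) 4 with h | h
  · have hq := in_reg hN hT hreg hs hz h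
    have hU : HasDerivAt (fun z => U (tt s) (lr s z)) (U1 (tt s) (lr s z) * (1 / (2 * z))) z :=
      (hR.d1 _ hq).comp z (hd_lr s hz)
    have hU1 : HasDerivAt (fun z => U1 (tt s) (lr s z)) (U2 (tt s) (lr s z) * (1 / (2 * z))) z :=
      (hR.d2 _ hq).comp z (hd_lr s hz)
    have hA := (Am_pos (k := k) hε s).ne'
    have a1 := (hd_wk (k := k) hz).div_const (Am k ε s)
    have a2 := (hd_ch1 (N := N) hd s hz).mul hU
    have a3 := (hd_ch (N := N) hd s hz).mul ((hU.const_mul k).add hU1)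
    have a4 := (a1.mul (a2.add a3)).div ((hasDerivAt_id z).const_mul 2) (by positivity)
    refine a4.congr_deriv ?_
    simp only [Pi.mul_apply, Pi.add_apply, id]
    unfold H2 HD HDD
    field_simp
    ring
  · have h0 := all_zero (k := k) (ε := ε) hd (Or.inr h.le) U U1 U2 Z
    rw [h0.2.2.1]
    refine (hasDerivAt_const z (0 : ℝ)).congr_of_eventuallyEq ?_
    filter_upwards [be_gt_nhds h] with z' hz'
    exact (all_zero (k := k) (ε := ε) hd (Or.inr hz'.le) U U1 U2 Z).2.1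

/-- the total derivative of `U` along `s ↦ (t, log r)` -/
theorem hd_Us (hR : RG.RSol 20 w f T X U U1 U2 Z R) {s z : ℝ}
    (hq : (tt s, lr s z) ∈ RG.reg 20 w f (Ioo 0 T)) :
    HasDerivAt (fun s => U (tt s) (lr s z))
      (Real.exp (-s) * (Real.exp (-2 * lr s z) * (Z (tt s) (lr s z) * U2 (tt s) (lr s z)
        + 39 * Real.cosh (U (tt s) (lr s z)) * U1 (tt s) (lr s z)
        + 78 * Real.sinh (U (tt s) (lr s z)))) - U1 (tt s) (lr s z) / 2) s := by
  have hq0 : (tt s, lr s z) ∈ RG.reg 20 w f (Ico 0 T) := ⟨Ioo_subset_Ico_self hq.1, hq.2⟩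
  have hdiff : DifferentiableAt ℝ (fun q : ℝ × ℝ => U q.1 q.2) (tt s, lr s z) :=
    ((hR.smooth_U).contDiffAt (hR.isOpen_reg.mem_nhds hq)).differentiableAt (by simp)
  have hF := hdiff.hasFDerivAt
  set F' := fderiv ℝ (fun q : ℝ × ℝ => U q.1 q.2) (tt s, lr s z) with hF'
  have e1 : HasDerivAt (fun ρ => U (tt s) ρ) (F' (0, 1)) (lr s z) := by
    have h1 : HasDerivAt (fun ρ : ℝ => ((tt s, ρ) : ℝ × ℝ)) (0, 1) (lr s z) :=
      (hasDerivAt_const _ _).prodMk (hasDerivAt_id _)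
    exact hF.comp_hasDerivAt (lr s z) h1
  have e2 : HasDerivAt (fun t => U t (lr s z)) (F' (1, 0)) (tt s) := by
    have h1 : HasDerivAt (fun t : ℝ => ((t, lr s z) : ℝ × ℝ)) (1, 0) (tt s) :=
      (hasDerivAt_id _).prodMk (hasDerivAt_const _ _)
    exact hF.comp_hasDerivAt (tt s) h1
  have e1' := e1.unique (hR.d1 _ hq0)
  have e2' := e2.unique (hR.dt _ hq)
  have h3 : HasDerivAt (fun s : ℝ => ((tt s, lr s z) : ℝ × ℝ)) (Real.exp (-s), -1 / 2) s :=
    (hd_tt s).prodMk (hd_lrs s z)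
  have h4 := hF.comp_hasDerivAt s h3
  refine h4.congr_deriv ?_
  have e3 : ((Real.exp (-s), -1 / 2) : ℝ × ℝ)
      = Real.exp (-s) • ((1, 0) : ℝ × ℝ) + (-1 / 2 : ℝ) • ((0, 1) : ℝ × ℝ) := by
    ext <;> simp
  rw [e3, map_add, map_smul, map_smul, e1', e2']
  simp only [smul_eq_mul]
  push_cast
  ring

theorem exp_lr {s z : ℝ} (hz : 0 < z) :
    Real.exp (-s) * Real.exp (-2 * lr s z) = 1 / (4 * z) := by
  have e : -2 * lr s z = s - Real.log (4 * z) := by unfold lr; ring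
  rw [e, ← Real.exp_add]
  have e2 : -s + (s - Real.log (4 * z)) = -Real.log (4 * z) := by ring
  rw [e2, Real.exp_neg, Real.exp_log (by positivity), one_div]

theorem s3_dt (hk : KK k) (hε : 0 < ε) (hd : 0 < d) (hN : 1 ≤ N)
    (hR : RG.RSol 20 w f T X U U1 U2 Z R) (hT : tt s₁ < T)
    (hreg : ∀ t ∈ Icc 0 (tt s₁), Real.log (4 * N) / 2 < RG.rh 20 (w t) (f t) 0) {s z : ℝ}
    (hs : s ∈ Ioo 0 s₁) (hz : 0 < z) :
    HasDerivAt (fun s => HH k ε d N U s z)
      (z * H2 k ε d N U U1 U2 s z + (aa k + 1 - z) * H1 k ε d N U U1 s z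
        + 3 * HH k ε d N U s z + FN k ε d N U U1 U2 Z s z) s := by
  rcases le_or_gt (be N s z) 4 with h | h
  · have hq := in_reg' hN hT hreg hs hz h
    have hU := hd_Us hR hq
    have hA := (Am_pos (k := k) hε s).ne'
    have h1 := (((hd_chs (N := N) hd z s).mul_const (wk k z)).mul hU).div (hd_Am (k := k) (ε := ε) s)
      hA
    refine h1.congr_deriv ?_
    have e := exp_lr (s := s) hz
    have hk2 := hk.eq
    simp only [Pi.mul_apply]
    unfold H2 H1 HH FN HDD HD aa nl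
    generalize U (tt s) (lr s z) = u at *
    generalize U1 (tt s) (lr s z) = u1 at *
    generalize U2 (tt s) (lr s z) = u2 at *
    generalize Z (tt s) (lr s z) = ζ at *
    generalize ch d N s z = c at *
    generalize ch1 d N s z = c1 at *
    generalize ch2 d N s z = c2 at *
    generalize chs d N s z = c3 at *
    generalize Real.sinh u = sh at *
    generalize Real.cosh u = co at *
    rw [← mul_assoc (Real.exp (-s)) (Real.exp (-2 * lr s z)), e]
    generalize Am k ε s = A at *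
    generalize wk k z = W at *
    field_simp
    linear_combination 4 * W * u * c * hk2
  · have h0 := all_zero (k := k) (ε := ε) hd (Or.inr h.le) U U1 U2 Z
    rw [h0.1, h0.2.1, h0.2.2.1, h0.2.2.2]
    have e : z * 0 + (aa k + 1 - z) * 0 + 3 * 0 + 0 = (0 : ℝ) := by ring
    rw [e]
    refine (hasDerivAt_const s (0 : ℝ)).congr_of_eventuallyEq ?_
    filter_upwards [be_gt_nhds' h] with s' hs'
    exact (all_zero (k := k) (ε := ε) hd (Or.inr hs'.le) U U1 U2 Z).1

/-! ### continuity -/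

theorem cont_glue {S A B : Set (ℝ × ℝ)} (hS : S ⊆ A ∪ B) (hA : IsClosed A) (hB : IsClosed B)
    {Φ : ℝ × ℝ → ℝ} (h1 : ContinuousOn Φ (S ∩ A)) (h2 : ContinuousOn Φ (S ∩ B)) :
    ContinuousOn Φ S := by
  intro q hq
  have key : ∀ C : Set (ℝ × ℝ), IsClosed C → ContinuousOn Φ (S ∩ C) →
      ContinuousWithinAt Φ (S ∩ C) q := by
    intro C hC h
    by_cases hqC : q ∈ C
    · exact h q ⟨hq, hqC⟩
    · refine continuousWithinAt_of_notMem_closure fun hcl => hqC ?_
      exact closure_minimal inter_subset_right hC hcl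
  have h3 := (key A hA h1).union (key B hB h2)
  refine h3.mono fun q' hq' => ?_
  rcases hS hq' with h | h
  · exact Or.inl ⟨hq', h⟩
  · exact Or.inr ⟨hq', h⟩

theorem zz_eq (d s z : ℝ) : z / z0 d s = z * (4 / d ^ 2) * Real.exp (s / 5) := by
  unfold z0
  have e : -s / 5 = -(s / 5) := by ring
  rw [e, Real.exp_neg]
  field_simp

theorem cont_ch {d N : ℝ} : Continuous fun q : ℝ × ℝ => ch d N q.1 q.2 := by
  have h0 := xi_smooth.continuous
  unfold ch
  simp_rw [zz_eq]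
  unfold be
  fun_prop

theorem cont_ch1 {d N : ℝ} : Continuous fun q : ℝ × ℝ => ch1 d N q.1 q.2 := by
  have h0 := xi_smooth.continuous
  have h1 := xi1_smooth.continuous
  unfold ch1
  simp_rw [zz_eq]
  unfold be
  fun_prop

theorem cont_ch2 {d N : ℝ} : Continuous fun q : ℝ × ℝ => ch2 d N q.1 q.2 := by
  have h0 := xi_smooth.continuous
  have h1 := xi1_smooth.continuous
  have h2 := xi2_smooth.continuous
  unfold ch2
  simp_rw [zz_eq]
  unfold be
  fun_prop

theorem cont_chs {d N : ℝ} : Continuous fun q : ℝ × ℝ => chs d N q.1 q.2 := by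
  have h0 := xi_smooth.continuous
  have h1 := xi1_smooth.continuous
  unfold chs
  simp_rw [zz_eq]
  unfold be
  fun_prop

theorem cont_wkA {k ε : ℝ} (hε : 0 < ε) :
    ContinuousOn (fun q : ℝ × ℝ => wk k q.2 / Am k ε q.1) (univ ×ˢ Ioi 0) := by
  refine ContinuousOn.div ?_ ?_ fun q _ => (Am_pos hε q.1).ne'
  · unfold wk
    refine ContinuousOn.rpow_const (by fun_prop) fun q hq => Or.inl ?_
    have : (0 : ℝ) < q.2 := hq.2
    positivity
  · unfold Am
    fun_prop

theorem cont_pt : ContinuousOn (fun q : ℝ × ℝ => (tt q.1, lr q.1 q.2)) (univ ×ˢ Ioi 0) := by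
  have h1 : ContinuousOn (fun q : ℝ × ℝ => lr q.1 q.2) (univ ×ˢ Ioi 0) := by
    unfold lr
    refine ContinuousOn.div_const (ContinuousOn.sub ?_ (by fun_prop)) _
    refine ContinuousOn.log (by fun_prop) fun q hq => ?_
    have : (0 : ℝ) < q.2 := hq.2
    positivity
  have h2 : Continuous fun q : ℝ × ℝ => tt q.1 := by unfold tt; fun_prop
  exact h2.continuousOn.prodMk h1

/-- the closed part of the domain where the solution is used -/
def inn (N s₁ : ℝ) : Set (ℝ × ℝ) := (Icc 0 s₁ ×ˢ Ioi 0) ∩ {q | be N q.1 q.2 ≤ 4}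

theorem cont_comp (hN : 1 ≤ N) (hT : tt s₁ < T)
    (hreg : ∀ t ∈ Icc 0 (tt s₁), Real.log (4 * N) / 2 < RG.rh 20 (w t) (f t) 0)
    {V : ℝ → ℝ → ℝ} (hV : ContinuousOn (fun q : ℝ × ℝ => V q.1 q.2) (RG.reg 20 w f (Ico 0 T))) :
    ContinuousOn (fun q : ℝ × ℝ => V (tt q.1) (lr q.1 q.2)) (inn N s₁) := by
  refine hV.comp (f := fun q : ℝ × ℝ => (tt q.1, lr q.1 q.2)) (cont_pt.mono ?_) fun q hq => ?_
  · exact fun q hq => ⟨mem_univ _, hq.1.2⟩
  · exact in_reg hN hT hreg hq.1.1 hq.1.2 hq.2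

/-- continuity on the whole strip from continuity on the inner part -/
theorem cont_all {Φ : ℝ → ℝ → ℝ} (h1 : ContinuousOn (fun q : ℝ × ℝ => Φ q.1 q.2) (inn N s₁))
    (h2 : ∀ s z, 4 ≤ be N s z → Φ s z = 0) :
    ContinuousOn (fun q : ℝ × ℝ => Φ q.1 q.2) (Icc 0 s₁ ×ˢ Ioi 0) := by
  have hc : Continuous fun q : ℝ × ℝ => be N q.1 q.2 := by unfold be; fun_prop
  refine cont_glue (A := {q | be N q.1 q.2 ≤ 4}) (B := {q | 4 ≤ be N q.1 q.2})
    (fun q _ => (le_total (be N q.1 q.2) 4).elim Or.inl Or.inr) (isClosed_le hc continuous_const)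
    (isClosed_le continuous_const hc) h1 ?_
  refine (continuousOn_const (c := (0 : ℝ))).congr fun q hq => ?_
  exact h2 _ _ hq.2

theorem inn_sub {N s₁ : ℝ} : inn N s₁ ⊆ univ ×ˢ Ioi 0 := fun _ hq => ⟨mem_univ _, hq.1.2⟩

theorem s3_cont (hε : 0 < ε) (hd : 0 < d) (hN : 1 ≤ N)
    (hR : RG.RSol 20 w f T X U U1 U2 Z R) (hT : tt s₁ < T)
    (hreg : ∀ t ∈ Icc 0 (tt s₁), Real.log (4 * N) / 2 < RG.rh 20 (w t) (f t) 0) :
    ContinuousOn (fun q : ℝ × ℝ => HH k ε d N U q.1 q.2) (Icc 0 s₁ ×ˢ Ioi 0) ∧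
    ContinuousOn (fun q : ℝ × ℝ => H1 k ε d N U U1 q.1 q.2) (Icc 0 s₁ ×ˢ Ioi 0) ∧
    ContinuousOn (fun q : ℝ × ℝ => H2 k ε d N U U1 U2 q.1 q.2) (Icc 0 s₁ ×ˢ Ioi 0) ∧
    ContinuousOn (fun q : ℝ × ℝ => FN k ε d N U U1 U2 Z q.1 q.2) (Icc 0 s₁ ×ˢ Ioi 0) := by
  have cU := cont_comp hN hT hreg hR.cont_U
  have cU1 := cont_comp hN hT hreg hR.cont_U1
  have cU2 := cont_comp hN hT hreg hR.cont_U2
  have cZ := cont_comp hN hT hreg hR.cont_Z
  have cW := (cont_wkA (k := k) hε).mono (inn_sub (N := N) (s₁ := s₁))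
  have c0 := (cont_ch (d := d) (N := N)).continuousOn (s := inn N s₁)
  have c1 := (cont_ch1 (d := d) (N := N)).continuousOn (s := inn N s₁)
  have c2 := (cont_ch2 (d := d) (N := N)).continuousOn (s := inn N s₁)
  have c3 := (cont_chs (d := d) (N := N)).continuousOn (s := inn N s₁)
  have cz : ContinuousOn (fun q : ℝ × ℝ => q.2) (inn N s₁) := by fun_prop
  have hz : ∀ q ∈ inn N s₁, (q : ℝ × ℝ).2 ≠ 0 := fun q hq => (show (0 : ℝ) < q.2 from hq.1.2).ne'
  have cHD : ContinuousOn (fun q : ℝ × ℝ => HD k ε d N U U1 q.1 q.2) (inn N s₁) := by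
    unfold HD
    exact cW.mul ((c1.mul cU).add (c0.mul ((continuousOn_const.mul cU).add cU1)))
  have cHDD : ContinuousOn (fun q : ℝ × ℝ => HDD k ε d N U U1 U2 q.1 q.2) (inn N s₁) := by
    unfold HDD
    exact cW.mul (((c2.mul cU).add ((continuousOn_const.mul c1).mul
      ((continuousOn_const.mul cU).add cU1))).add (c0.mul (((continuousOn_const.mul cU).add
        (continuousOn_const.mul cU1)).add cU2)))
  refine ⟨cont_all ?_ fun s z h => (all_zero (k := k) (ε := ε) hd (Or.inr h) U U1 U2 Z).1,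
    cont_all ?_ fun s z h => (all_zero (k := k) (ε := ε) hd (Or.inr h) U U1 U2 Z).2.1,
    cont_all ?_ fun s z h => (all_zero (k := k) (ε := ε) hd (Or.inr h) U U1 U2 Z).2.2.1,
    cont_all ?_ fun s z h => (all_zero (k := k) (ε := ε) hd (Or.inr h) U U1 U2 Z).2.2.2⟩
  · refine ((cW.mul c0).mul cU).congr fun q _ => ?_
    unfold HH
    simp only [Pi.mul_apply]
    ring
  · unfold H1
    exact cHD.div (continuousOn_const.mul cz) fun q hq => mul_ne_zero two_ne_zero (hz q hq)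
  · unfold H2
    exact (cHDD.sub (continuousOn_const.mul cHD)).div (continuousOn_const.mul (cz.pow 2))
      fun q hq => mul_ne_zero four_ne_zero (pow_ne_zero 2 (hz q hq))
  · have c4z : ContinuousOn (fun q : ℝ × ℝ => 4 * q.2) (inn N s₁) := by fun_prop
    have h4z : ∀ q ∈ inn N s₁, 4 * (q : ℝ × ℝ).2 ≠ 0 := fun q hq =>
      mul_ne_zero four_ne_zero (hz q hq)
    have cnl : ContinuousOn (fun q : ℝ × ℝ => nl (U (tt q.1) (lr q.1 q.2))
        (U1 (tt q.1) (lr q.1 q.2)) (U2 (tt q.1) (lr q.1 q.2)) (Z (tt q.1) (lr q.1 q.2)))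
        (inn N s₁) := by
      unfold nl
      have cc : ContinuousOn (fun q : ℝ × ℝ => Real.cosh (U (tt q.1) (lr q.1 q.2))) (inn N s₁) :=
        Real.continuous_cosh.comp_continuousOn cU
      have cs : ContinuousOn (fun q : ℝ × ℝ => Real.sinh (U (tt q.1) (lr q.1 q.2))) (inn N s₁) :=
        Real.continuous_sinh.comp_continuousOn cU
      exact (((cZ.sub continuousOn_const).mul cU2).add ((continuousOn_const.mul
        (cc.sub continuousOn_const)).mul cU1)).add (continuousOn_const.mul (cs.sub cU))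
    unfold FN
    exact cW.mul (((((c0.div c4z h4z).mul cnl).sub ((continuousOn_const.div c4z h4z).mul
      (((continuousOn_const.mul c1).mul cU1).add ((c2.add (continuousOn_const.mul c1)).mul
        cU)))).add (((c1.div_const 2).add c3).mul cU)))

end main

theorem s3 : S3Statement := by
  intro k ε d N hk hε hd hN T _ w f X U U1 U2 Z R hR s₁ _ hT hreg
  obtain ⟨c0, c1, c2, c3⟩ := s3_cont (k := k) hε hd hN hR hT hreg
  have hz1 := z0_pos hd s₁
  refine ⟨fun s hs z hz => s3_d1 hε hd hN hR hT hreg hs hz,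
    fun s hs z hz => s3_d2 hε hd hN hR hT hreg hs hz,
    fun s hs z hz => s3_dt hk hε hd hN hR hT hreg hs hz, c0, c1, c2, c3,
    z0 d s₁, hz1, N * Real.exp s₁ + z0 d s₁ + 1, ?_, fun s hs z hz hzI => ?_⟩
  · have : 0 < N * Real.exp s₁ := by positivity
    linarith only [this]
  · apply all_zero hd
    rw [mem_Icc, not_and_or] at hzI
    push Not at hzI
    rcases hzI with h | h
    · left
      have h1 : z0 d s₁ ≤ z0 d s := by
        unfold z0
        have : Real.exp (-s₁ / 5) ≤ Real.exp (-s / 5) := Real.exp_le_exp.2 (by linarith only [hs, hs.2])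
        exact mul_le_mul_of_nonneg_left this (by positivity)
      linarith only [h, h1]
    · right
      unfold be
      rw [le_div_iff₀ (by linarith only [hN])]
      have h1 : N * Real.exp s₁ ≤ z := by linarith only [hz1, h]
      have h2 : Real.exp (-s₁) ≤ Real.exp (-s) := Real.exp_le_exp.2 (by linarith only [hs, hs.2])
      have h3 : Real.exp s₁ * Real.exp (-s₁) = 1 := by rw [← Real.exp_add]; simp
      calc 4 * N = 4 * (N * (Real.exp s₁ * Real.exp (-s₁))) := by rw [h3, mul_one]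
        _ = 4 * (N * Real.exp s₁) * Real.exp (-s₁) := by ring
        _ ≤ 4 * z * Real.exp (-s) := by
            gcongr

end Vale.Agent.P244.ST.SS
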