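import Vale.Agent.P244.ST.S.LagDefs

/-! P244, block S: pointwise bounds from `L^2` bounds (helper551). -/

open MeasureTheory Set Filter
open scoped Topology

namespace Vale.Agent.P244.ST.Lag

/-- the `L^2` norm of an affine function on an interval -/
theorem affine_sq_integral (a b c h z : ℝ) :
    ∫ y in c..(c + h), (a + b * (y - z)) ^ 2
      = h * (a + b * (c + h / 2 - z)) ^ 2 + b ^ 2 * h ^ 3 / 12 := by
  have hd : ∀ y ∈ uIcc c (c + h), HasDerivAt
      (fun y => (a + b * (c - z)) ^ 2 * (y - c) + (a + b * (c - z)) * b * (y - c) ^ 2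
        + b ^ 2 * (y - c) ^ 3 / 3) ((a + b * (y - z)) ^ 2) y := by
    intro y _
    have h1 : HasDerivAt (fun y : ℝ => y - c) 1 y := (hasDerivAt_id y).sub_const c
    have h2 := ((h1.const_mul ((a + b * (c - z)) ^ 2)).add
      ((h1.pow 2).const_mul ((a + b * (c - z)) * b))).add
      (((h1.pow 3).const_mul (b ^ 2)).div_const 3)
    refine (h2.congr_deriv ?_).congr_of_eventuallyEq (Eventually.of_forall fun y => ?_)
    · push_cast
      ring
    · simp only [Pi.add_apply, Pi.pow_apply]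
  rw [intervalIntegral.integral_eq_sub_of_hasDerivAt hd
    (by apply Continuous.intervalIntegrable; fun_prop)]
  ring

/-- first order Taylor bound on an interval -/
theorem taylor_one {w w1 w2 : ℝ → ℝ} {z0 z1 A : ℝ}
    (hw : ∀ z ∈ Icc z0 z1, HasDerivWithinAt w (w1 z) (Icc z0 z1) z)
    (hw1 : ∀ z ∈ Icc z0 z1, HasDerivWithinAt w1 (w2 z) (Icc z0 z1) z)
    (hA : ∀ z ∈ Icc z0 z1, |w2 z| ≤ A) {z y : ℝ} (hz : z ∈ Icc z0 z1) (hy : y ∈ Icc z0 z1) :
    |w y - (w z + w1 z * (y - z))| ≤ A * (y - z) ^ 2 := by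
  have hseg : uIcc z y ⊆ Icc z0 z1 := by
    intro t ht
    rw [mem_uIcc] at ht
    rcases ht with ht | ht
    · exact ⟨hz.1.trans ht.1, ht.2.trans hy.2⟩
    · exact ⟨hy.1.trans ht.1, ht.2.trans hz.2⟩
  have hlip : ∀ t ∈ uIcc z y, |w1 t - w1 z| ≤ A * |y - z| := by
    intro t ht
    have h1 := (convex_Icc z0 z1).norm_image_sub_le_of_norm_hasDerivWithin_le (f := w1) (f' := w2)
      (C := A) hw1 hA hz (hseg ht)
    rw [Real.norm_eq_abs, Real.norm_eq_abs] at h1
    have hA0 : 0 ≤ A := (abs_nonneg _).trans (hA z hz)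
    refine h1.trans (mul_le_mul_of_nonneg_left ?_ hA0)
    rw [mem_uIcc] at ht
    rcases ht with ht | ht
    · rw [abs_of_nonneg (by linarith only [ht]), abs_of_nonneg (by linarith only [ht])]; linarith only [ht, ht.2]
    · rw [abs_of_nonpos (by linarith only [ht]), abs_of_nonpos (by linarith only [ht])]; linarith only [ht, ht.1]
  have hd : ∀ t ∈ uIcc z y, HasDerivWithinAt (fun t => w t - w1 z * t) (w1 t - w1 z)
      (uIcc z y) t := by
    intro t ht
    have h1 := (hw t (hseg ht)).mono hseg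
    have h2 : HasDerivWithinAt (fun t : ℝ => w1 z * t) (w1 z) (uIcc z y) t := by
      simpa using (hasDerivWithinAt_id t (uIcc z y)).const_mul (w1 z)
    exact h1.sub h2
  have h3 := (convex_uIcc z y).norm_image_sub_le_of_norm_hasDerivWithin_le hd hlip
    left_mem_uIcc right_mem_uIcc
  rw [Real.norm_eq_abs, Real.norm_eq_abs] at h3
  have e1 : w y - w1 z * y - (w z - w1 z * z) = w y - (w z + w1 z * (y - z)) := by ring
  rw [e1] at h3
  refine h3.trans (le_of_eq ?_)
  rw [mul_assoc, abs_mul_abs_self]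
  ring

/-- **interpolation**: pointwise bounds for `w` and `w'` from the `L^2` norm and a bound of `w''` -/
theorem interp {w w1 w2 : ℝ → ℝ} {z0 z1 A δ h : ℝ}
    (hw : ∀ z ∈ Icc z0 z1, HasDerivWithinAt w (w1 z) (Icc z0 z1) z)
    (hw1 : ∀ z ∈ Icc z0 z1, HasDerivWithinAt w1 (w2 z) (Icc z0 z1) z)
    (hA : ∀ z ∈ Icc z0 z1, |w2 z| ≤ A) (hδ : 0 ≤ δ)
    (hint : ∫ z in z0..z1, w z ^ 2 ≤ δ ^ 2) (hh : 0 < h) (hh1 : h ≤ z1 - z0) {z : ℝ}
    (hz : z ∈ Icc z0 z1) :
    |w z| ≤ 5 * (δ / √h + A * h ^ 2) ∧ |w1 z| ≤ 5 * (δ / (h * √h) + A * h) := by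
  have hA0 : 0 ≤ A := (abs_nonneg _).trans (hA z hz)
  have hwc : ContinuousOn w (Icc z0 z1) := fun z hz => (hw z hz).continuousWithinAt
  -- the interval `[c, c+h]`
  obtain ⟨c, hc0, hc1, hcz, hzc⟩ : ∃ c, z0 ≤ c ∧ c + h ≤ z1 ∧ c ≤ z ∧ z ≤ c + h := by
    rcases le_total z (z1 - h) with h1 | h1
    · exact ⟨z, hz.1, by linarith only [h1], le_rfl, by linarith only [hh]⟩
    · exact ⟨z1 - h, by linarith only [hh1], by linarith only [], h1, by linarith only [hz, hz.2]⟩
  have hsub : Icc c (c + h) ⊆ Icc z0 z1 := Icc_subset_Icc hc0 hc1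
  -- comparison of the integrals
  have hI : ∫ y in c..(c + h), (w z + w1 z * (y - z)) ^ 2 ≤ 2 * (δ ^ 2 + A ^ 2 * h ^ 5) := by
    have hwi : IntervalIntegrable (fun y => w y ^ 2) volume c (c + h) := by
      apply ContinuousOn.intervalIntegrable
      rw [uIcc_of_le (by linarith only [hh])]
      exact (hwc.mono hsub).pow 2
    have h1 : ∫ y in c..(c + h), (w z + w1 z * (y - z)) ^ 2
        ≤ ∫ y in c..(c + h), (2 * w y ^ 2 + 2 * (A * h ^ 2) ^ 2) := by
      apply intervalIntegral.integral_mono_on (by linarith only [hh])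
        (by apply Continuous.intervalIntegrable; fun_prop)
        ((hwi.const_mul 2).add intervalIntegrable_const)
      intro y hy
      have h2 := taylor_one hw hw1 hA hz (hsub hy)
      have h3 : A * (y - z) ^ 2 ≤ A * h ^ 2 := by
        apply mul_le_mul_of_nonneg_left _ hA0
        apply sq_le_sq'
        · linarith only [hzc, hy, hy.1]
        · linarith only [hcz, hy, hy.2]
      have h4 := abs_le.1 (h2.trans h3)
      have h5 : (w z + w1 z * (y - z) - w y) ^ 2 ≤ (A * h ^ 2) ^ 2 := by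
        apply sq_le_sq'
        · linarith only [h4, h4.2]
        · linarith only [h4, h4.1]
      nlinarith only [h5, sq_nonneg (w y - (w z + w1 z * (y - z) - w y))]
    have h2 : ∫ y in c..(c + h), (2 * w y ^ 2 + 2 * (A * h ^ 2) ^ 2)
        = 2 * (∫ y in c..(c + h), w y ^ 2) + h * (2 * (A * h ^ 2) ^ 2) := by
      rw [intervalIntegral.integral_add (hwi.const_mul 2) intervalIntegrable_const,
        intervalIntegral.integral_const_mul, intervalIntegral.integral_const]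
      simp only [smul_eq_mul, add_sub_cancel_left]
    have h3 : ∫ y in c..(c + h), w y ^ 2 ≤ δ ^ 2 := by
      refine le_trans ?_ hint
      apply intervalIntegral.integral_mono_interval hc0 (by linarith only [hh]) hc1
      · exact Eventually.of_forall fun y => sq_nonneg _
      · apply ContinuousOn.intervalIntegrable
        rw [uIcc_of_le (by linarith only [hh, hh1])]
        exact hwc.pow 2
    rw [h2] at h1
    nlinarith only [h1, h3, h1, h3]
  rw [affine_sq_integral] at hI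
  have hsh : 0 < √h := Real.sqrt_pos.2 hh
  have hsq : √h ^ 2 = h := Real.sq_sqrt hh.le
  set X := δ / √h + A * h ^ 2 with hX
  have hX0 : 0 ≤ X := by positivity
  have hXX : δ ^ 2 + A ^ 2 * h ^ 5 ≤ h * X ^ 2 := by
    have e : h * X ^ 2 = δ ^ 2 + A ^ 2 * h ^ 5 + 2 * δ * √h * A * h ^ 2 := by
      rw [hX]
      have : h * (δ / √h + A * h ^ 2) ^ 2
          = √h ^ 2 * (δ / √h) ^ 2 + A ^ 2 * h ^ 5 + 2 * (√h ^ 2 * (δ / √h)) * A * h ^ 2 := by
        rw [hsq]; ring
      rw [this]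
      have h1 : √h ^ 2 * (δ / √h) ^ 2 = δ ^ 2 := by field_simp
      have h2 : √h ^ 2 * (δ / √h) = √h * δ := by field_simp
      rw [h1, h2]
      ring
    rw [e]
    have : 0 ≤ 2 * δ * √h * A * h ^ 2 := by positivity
    linarith only [this]
  have hXh : δ / (h * √h) + A * h = X / h := by
    rw [hX]
    field_simp
  have hp1 : h * (w z + w1 z * (c + h / 2 - z)) ^ 2 ≤ h * (2 * X ^ 2) := by
    have : 0 ≤ w1 z ^ 2 * h ^ 3 / 12 := by positivity
    nlinarith only [hI, hXX, this]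
  have hp1' : (w z + w1 z * (c + h / 2 - z)) ^ 2 ≤ 2 * X ^ 2 := le_of_mul_le_mul_left hp1 hh
  have hp2 : h * (w1 z ^ 2 * h ^ 2) ≤ h * (24 * X ^ 2) := by
    have : 0 ≤ h * (w z + w1 z * (c + h / 2 - z)) ^ 2 := by positivity
    nlinarith only [hI, hXX, this]
  have hp2' : w1 z ^ 2 * h ^ 2 ≤ 24 * X ^ 2 := le_of_mul_le_mul_left hp2 hh
  have hb : |w1 z| * h ≤ 5 * X := by
    apply le_of_sq_le_sq _ (by positivity)
    rw [mul_pow, sq_abs, mul_pow]
    nlinarith only [hp2', sq_nonneg X]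
  have ha1 : |w z + w1 z * (c + h / 2 - z)| ≤ 3 / 2 * X := by
    apply le_of_sq_le_sq _ (by positivity)
    rw [sq_abs, mul_pow]
    nlinarith only [hp1', sq_nonneg X]
  refine ⟨?_, ?_⟩
  · have h1 : |w1 z * (c + h / 2 - z)| ≤ 5 / 2 * X := by
      rw [abs_mul]
      have h2 : |c + h / 2 - z| ≤ h / 2 := by
        rw [abs_le]; constructor <;> linarith only [hzc, hcz]
      calc |w1 z| * |c + h / 2 - z| ≤ |w1 z| * (h / 2) :=
            mul_le_mul_of_nonneg_left h2 (abs_nonneg _)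
        _ ≤ 5 / 2 * X := by linarith only [hb]
    have h3 : w z = (w z + w1 z * (c + h / 2 - z)) - w1 z * (c + h / 2 - z) := by ring
    calc |w z| = |(w z + w1 z * (c + h / 2 - z)) - w1 z * (c + h / 2 - z)| := by rw [← h3]
      _ ≤ |w z + w1 z * (c + h / 2 - z)| + |w1 z * (c + h / 2 - z)| := abs_sub _ _
      _ ≤ 5 * X := by linarith only [hX0, ha1, h1]
  · rw [hXh, ← mul_div_assoc, le_div_iff₀ hh]
    exact hb

/-- `H^1` bound -/
theorem sup_of_h1 {w w1 : ℝ → ℝ} {z0 z1 : ℝ} (h01 : z0 < z1)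
    (hw : ∀ z ∈ Icc z0 z1, HasDerivWithinAt w (w1 z) (Icc z0 z1) z)
    (hw1 : ContinuousOn w1 (Icc z0 z1)) {z : ℝ} (hz : z ∈ Icc z0 z1) :
    w z ^ 2 ≤ 2 / (z1 - z0) * (∫ y in z0..z1, w y ^ 2)
      + 2 * (z1 - z0) * ∫ y in z0..z1, w1 y ^ 2 := by
  have hd : 0 < z1 - z0 := by linarith only [h01]
  have hwc : ContinuousOn w (Icc z0 z1) := fun z hz => (hw z hz).continuousWithinAt
  have hwi : IntervalIntegrable (fun y => w y ^ 2) volume z0 z1 := by
    apply ContinuousOn.intervalIntegrable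
    rw [uIcc_of_le h01.le]; exact hwc.pow 2
  have hw1i : IntervalIntegrable (fun y => w1 y ^ 2) volume z0 z1 := by
    apply ContinuousOn.intervalIntegrable
    rw [uIcc_of_le h01.le]; exact hw1.pow 2
  set Q := ∫ y in z0..z1, w1 y ^ 2 with hQ
  -- the increments
  have hinc : ∀ s t, s ∈ Icc z0 z1 → t ∈ Icc z0 z1 → s ≤ t → (w t - w s) ^ 2 ≤ (z1 - z0) * Q := by
    intro s t hs ht hst
    have hsub : Icc s t ⊆ Icc z0 z1 := Icc_subset_Icc hs.1 ht.2
    have h1 : ∫ y in s..t, w1 y = w t - w s := by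
      apply intervalIntegral.integral_eq_sub_of_hasDerivAt_of_le hst (hwc.mono hsub)
      · intro y hy
        have hy' : y ∈ Ioo z0 z1 := ⟨lt_of_le_of_lt hs.1 hy.1, lt_of_lt_of_le hy.2 ht.2⟩
        exact (hw y (Ioo_subset_Icc_self hy')).hasDerivAt (Icc_mem_nhds hy'.1 hy'.2)
      · apply ContinuousOn.intervalIntegrable
        rw [uIcc_of_le hst]; exact hw1.mono hsub
    have hI1 : IntervalIntegrable w1 volume s t := by
      apply ContinuousOn.intervalIntegrable
      rw [uIcc_of_le hst]; exact hw1.mono hsub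
    have hI2 : IntervalIntegrable (fun y => w1 y ^ 2) volume s t := by
      apply ContinuousOn.intervalIntegrable
      rw [uIcc_of_le hst]; exact (hw1.mono hsub).pow 2
    -- Cauchy-Schwarz through a square
    have h2 : ∀ c : ℝ, 0 ≤ (∫ y in s..t, w1 y ^ 2) - 2 * c * (w t - w s) + c ^ 2 * (t - s) := by
      intro c
      have h3 : 0 ≤ ∫ y in s..t, (w1 y - c) ^ 2 :=
        intervalIntegral.integral_nonneg hst fun y _ => sq_nonneg _
      have h4 : ∫ y in s..t, (w1 y - c) ^ 2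
          = (∫ y in s..t, w1 y ^ 2) - 2 * c * (w t - w s) + c ^ 2 * (t - s) := by
        have h5 : ∀ y, (w1 y - c) ^ 2 = w1 y ^ 2 - 2 * c * w1 y + c ^ 2 := fun y => by ring
        simp only [h5]
        rw [intervalIntegral.integral_add (hI2.sub (hI1.const_mul (2 * c)))
          intervalIntegrable_const, intervalIntegral.integral_sub hI2 (hI1.const_mul (2 * c)),
          intervalIntegral.integral_const_mul, h1, intervalIntegral.integral_const, smul_eq_mul]
        ring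
      rw [← h4]; exact h3
    have h6 : ∫ y in s..t, w1 y ^ 2 ≤ Q := by
      apply intervalIntegral.integral_mono_interval hs.1 hst ht.2
      · exact Eventually.of_forall fun y => sq_nonneg _
      · exact hw1i
    have h7 := h2 ((w t - w s) / (z1 - z0))
    have h8 : t - s ≤ z1 - z0 := by linarith only [hs, ht, hs.1, ht.2]
    have h9 : ((w t - w s) / (z1 - z0)) ^ 2 * (t - s)
        ≤ ((w t - w s) / (z1 - z0)) ^ 2 * (z1 - z0) :=
      mul_le_mul_of_nonneg_left h8 (sq_nonneg _)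
    have h10 : ((w t - w s) / (z1 - z0)) ^ 2 * (z1 - z0) = (w t - w s) ^ 2 / (z1 - z0) := by
      field_simp
    have h11 : 2 * ((w t - w s) / (z1 - z0)) * (w t - w s) = 2 * ((w t - w s) ^ 2 / (z1 - z0)) := by
      ring
    rw [h10] at h9
    rw [h11] at h7
    have h12 : (w t - w s) ^ 2 / (z1 - z0) ≤ Q := by linarith only [h6, h7, h9]
    rwa [div_le_iff₀ hd, mul_comm] at h12
  have hinc' : ∀ y ∈ Icc z0 z1, (w z - w y) ^ 2 ≤ (z1 - z0) * Q := by
    intro y hy
    rcases le_total y z with h | h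
    · exact hinc y z hy hz h
    · have := hinc z y hz hy h
      rwa [show (w z - w y) ^ 2 = (w y - w z) ^ 2 by ring]
  have hpt : ∀ y ∈ Icc z0 z1, w z ^ 2 ≤ 2 * w y ^ 2 + 2 * ((z1 - z0) * Q) := by
    intro y hy
    have := hinc' y hy
    nlinarith only [this, sq_nonneg (w z - 2 * w y)]
  have hmono : ∫ _y in z0..z1, w z ^ 2 ≤ ∫ y in z0..z1, (2 * w y ^ 2 + 2 * ((z1 - z0) * Q)) :=
    intervalIntegral.integral_mono_on h01.le intervalIntegrable_const
      ((hwi.const_mul 2).add intervalIntegrable_const) hpt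
  rw [intervalIntegral.integral_const, intervalIntegral.integral_add (hwi.const_mul 2)
    intervalIntegrable_const, intervalIntegral.integral_const_mul, intervalIntegral.integral_const,
    smul_eq_mul, smul_eq_mul] at hmono
  have h13 : w z ^ 2 ≤ (2 * (∫ y in z0..z1, w y ^ 2) + (z1 - z0) * (2 * ((z1 - z0) * Q)))
      / (z1 - z0) := by
    rw [le_div_iff₀ hd]; linarith only [hmono]
  refine h13.trans (le_of_eq ?_)
  field_simp

/-! ### with the Laguerre weight -/

/-- lower bound of the weight on `[z0, z1]` -/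
noncomputable def wlow (a z0 z1 : ℝ) : ℝ := min (z0 ^ a) (z1 ^ a) * Real.exp (-z1)

theorem wlow_pos {a z0 z1 : ℝ} (h0 : 0 < z0) (h01 : z0 ≤ z1) : 0 < wlow a z0 z1 := by
  unfold wlow
  have h1 : 0 < z1 := lt_of_lt_of_le h0 h01
  exact mul_pos (lt_min (Real.rpow_pos_of_pos h0 _) (Real.rpow_pos_of_pos h1 _)) (Real.exp_pos _)

theorem wlow_le {a z0 z1 z : ℝ} (h0 : 0 < z0) (hz : z ∈ Icc z0 z1) :
    wlow a z0 z1 ≤ z ^ a * Real.exp (-z) := by
  unfold wlow
  have hz0 : 0 < z := lt_of_lt_of_le h0 hz.1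
  have h1 : min (z0 ^ a) (z1 ^ a) ≤ z ^ a := by
    rcases le_total 0 a with ha | ha
    · exact (min_le_left _ _).trans (Real.rpow_le_rpow h0.le hz.1 ha)
    · exact (min_le_right _ _).trans (Real.rpow_le_rpow_of_nonpos hz0 hz.2 ha)
  have h2 : Real.exp (-z1) ≤ Real.exp (-z) := Real.exp_le_exp.2 (by linarith only [hz, hz.2])
  exact mul_le_mul h1 h2 (Real.exp_pos _).le (Real.rpow_pos_of_pos hz0 _).le

/-- local integrals are bounded by weighted integrals -/
theorem integral_le_mu {a z0 z1 : ℝ} (h0 : 0 < z0) (h01 : z0 ≤ z1) {g : ℝ → ℝ}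
    (hg : ContinuousOn g (Icc z0 z1)) (hg0 : ∀ z, 0 < z → 0 ≤ g z) (hi : Integrable g (mu a)) :
    ∫ z in z0..z1, g z ≤ (wlow a z0 z1)⁻¹ * ∫ z, g z ∂(mu a) := by
  have hp := wlow_pos (a := a) h0 h01
  rw [inv_mul_eq_div, le_div_iff₀ hp, integral_mu]
  have hi' := (integrable_mu a g).1 hi
  have hsub : Ioc z0 z1 ⊆ Ioi (0 : ℝ) := fun z hz => lt_trans h0 hz.1
  calc (∫ z in z0..z1, g z) * wlow a z0 z1 = ∫ z in z0..z1, g z * wlow a z0 z1 := by
        rw [intervalIntegral.integral_mul_const]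
    _ = ∫ z in Ioc z0 z1, g z * wlow a z0 z1 := intervalIntegral.integral_of_le h01
    _ ≤ ∫ z in Ioc z0 z1, g z * (z ^ a * Real.exp (-z)) := by
        apply setIntegral_mono_on
        · have h1 : IntervalIntegrable (fun z => g z * wlow a z0 z1) volume z0 z1 := by
            apply ContinuousOn.intervalIntegrable
            rw [uIcc_of_le h01]
            exact hg.mul continuousOn_const
          exact (intervalIntegrable_iff_integrableOn_Ioc_of_le h01).1 h1
        · exact hi'.mono_set hsub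
        · exact measurableSet_Ioc
        · intro z hz
          exact mul_le_mul_of_nonneg_left (wlow_le h0 ⟨hz.1.le, hz.2⟩) (hg0 z (lt_trans h0 hz.1))
    _ ≤ ∫ z in Ioi 0, g z * (z ^ a * Real.exp (-z)) := by
        apply setIntegral_mono_set hi'
        · filter_upwards [ae_restrict_mem measurableSet_Ioi] with z hz
          exact mul_nonneg (hg0 z hz) (wt_nonneg hz)
        · exact LE.le.eventuallyLE hsub

/-- **interpolation** with the weighted `L^2` norm -/
theorem interp_mu {a : ℝ} {w w1 w2 : ℝ → ℝ} {z0 z1 A δ h : ℝ} (h0 : 0 < z0)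
    (hw : ∀ z, 0 < z → HasDerivAt w (w1 z) z) (hw1 : ∀ z, 0 < z → HasDerivAt w1 (w2 z) z)
    (hA : ∀ z ∈ Icc z0 z1, |w2 z| ≤ A) (hδ : 0 ≤ δ)
    (hi : Integrable (fun z => w z ^ 2) (mu a)) (hint : ∫ z, w z ^ 2 ∂(mu a) ≤ δ ^ 2)
    (hh : 0 < h) (hh1 : h ≤ z1 - z0) {z : ℝ} (hz : z ∈ Icc z0 z1) :
    |w z| ≤ 5 * (δ / √(wlow a z0 z1) / √h + A * h ^ 2) ∧
      |w1 z| ≤ 5 * (δ / √(wlow a z0 z1) / (h * √h) + A * h) := by
  have h01 : z0 ≤ z1 := hz.1.trans hz.2
  have hp := wlow_pos (a := a) h0 h01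
  have hpos : ∀ z ∈ Icc z0 z1, 0 < z := fun z hz => lt_of_lt_of_le h0 hz.1
  refine interp (fun z hz => (hw z (hpos z hz)).hasDerivWithinAt)
    (fun z hz => (hw1 z (hpos z hz)).hasDerivWithinAt) hA (by positivity) ?_ hh hh1 hz
  have hc : ContinuousOn (fun z => w z ^ 2) (Icc z0 z1) := fun z hz =>
    ((hw z (hpos z hz)).continuousAt.pow 2).continuousWithinAt
  refine (integral_le_mu h0 h01 hc (fun z _ => sq_nonneg _) hi).trans ?_
  rw [div_pow, Real.sq_sqrt hp.le, inv_mul_eq_div]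
  exact div_le_div_of_nonneg_right hint hp.le

/-- **`H^1` bound** with the weighted norms -/
theorem sup_of_h1_mu {a : ℝ} {w w1 : ℝ → ℝ} {z0 z1 : ℝ} (h0 : 0 < z0) (h01 : z0 < z1)
    (hw : ∀ z, 0 < z → HasDerivAt w (w1 z) z) (hw1 : ContinuousOn w1 (Ioi 0))
    (hi : Integrable (fun z => w z ^ 2) (mu a)) (hi1 : Integrable (fun z => z * w1 z ^ 2) (mu a))
    {z : ℝ} (hz : z ∈ Icc z0 z1) :
    w z ^ 2 ≤ (wlow a z0 z1)⁻¹ * (2 / (z1 - z0) + 2 * (z1 - z0) / z0) *
      ((∫ z, w z ^ 2 ∂(mu a)) + ∫ z, z * w1 z ^ 2 ∂(mu a)) := by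
  have hp := wlow_pos (a := a) h0 h01.le
  have hd : 0 < z1 - z0 := by linarith only [h01]
  have hpos : ∀ z ∈ Icc z0 z1, 0 < z := fun z hz => lt_of_lt_of_le h0 hz.1
  have hsub : Icc z0 z1 ⊆ Ioi (0 : ℝ) := fun z hz => hpos z hz
  have h1 := sup_of_h1 h01 (fun z hz => (hw z (hpos z hz)).hasDerivWithinAt) (hw1.mono hsub) hz
  have hc : ContinuousOn (fun z => w z ^ 2) (Icc z0 z1) := fun z hz =>
    ((hw z (hpos z hz)).continuousAt.pow 2).continuousWithinAt
  have hc1 : ContinuousOn (fun z => z * w1 z ^ 2) (Icc z0 z1) :=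
    continuousOn_id.mul ((hw1.mono hsub).pow 2)
  have h2 := integral_le_mu h0 h01.le hc (fun z _ => sq_nonneg _) hi
  have h3 := integral_le_mu h0 h01.le hc1 (fun z hz => mul_nonneg hz.le (sq_nonneg _)) hi1
  have h4 : z0 * ∫ y in z0..z1, w1 y ^ 2 ≤ ∫ y in z0..z1, y * w1 y ^ 2 := by
    rw [← intervalIntegral.integral_const_mul]
    apply intervalIntegral.integral_mono_on h01.le
    · apply ContinuousOn.intervalIntegrable
      rw [uIcc_of_le h01.le]
      exact continuousOn_const.mul ((hw1.mono hsub).pow 2)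
    · apply ContinuousOn.intervalIntegrable
      rw [uIcc_of_le h01.le]; exact hc1
    · intro y hy
      exact mul_le_mul_of_nonneg_right hy.1 (sq_nonneg _)
  set P := ∫ z, w z ^ 2 ∂(mu a) with hP
  set R := ∫ z, z * w1 z ^ 2 ∂(mu a) with hR
  have hP0 : 0 ≤ P := integral_nonneg fun z => sq_nonneg _
  have hR0 : 0 ≤ R := by
    rw [hR]
    apply integral_nonneg_of_ae
    filter_upwards [ae_mu a] with z hz
    exact mul_nonneg hz.le (sq_nonneg _)
  have h5 : ∫ y in z0..z1, w1 y ^ 2 ≤ (wlow a z0 z1)⁻¹ * R / z0 := by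
    rw [le_div_iff₀ h0]; linarith only [h4, h3]
  have hwi : 0 < (wlow a z0 z1)⁻¹ := inv_pos.2 hp
  calc w z ^ 2 ≤ 2 / (z1 - z0) * (∫ y in z0..z1, w y ^ 2)
        + 2 * (z1 - z0) * ∫ y in z0..z1, w1 y ^ 2 := h1
    _ ≤ 2 / (z1 - z0) * ((wlow a z0 z1)⁻¹ * P)
        + 2 * (z1 - z0) * ((wlow a z0 z1)⁻¹ * R / z0) := by
        gcongr
    _ = (wlow a z0 z1)⁻¹ * (2 / (z1 - z0)) * P
        + (wlow a z0 z1)⁻¹ * (2 * (z1 - z0) / z0) * R := by ring
    _ ≤ _ := by
        have e1 : 0 ≤ (wlow a z0 z1)⁻¹ * (2 / (z1 - z0)) * R := by positivity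
        have e2 : 0 ≤ (wlow a z0 z1)⁻¹ * (2 * (z1 - z0) / z0) * P := by positivity
        nlinarith only [e1, e2]

end Vale.Agent.P244.ST.Lag
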