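import Vale.Agent.P244.ST.S.LagDefs

/-! P244, block S: integration by parts for `L f = z f'' + (a+1-z) f'` in `L²(z^a e^{-z})`
against functions with compact support in `(0,∞)` (helper57). -/

open MeasureTheory Set Filter Polynomial
open scoped Topology ENNReal

namespace Vale.Agent.P244.ST.Lag

/-- the Laguerre operator on functions -/
noncomputable def Lf (a : ℝ) (f : ℝ → ℝ) (z : ℝ) : ℝ :=
  z * deriv (deriv f) z + (a + 1 - z) * deriv f z

theorem Lf_poly (a : ℝ) (p : ℝ[X]) (z : ℝ) : Lf a (fun x => p.eval x) z = (Lp a p).eval z := by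
  unfold Lf Lp
  have h1 : deriv (fun x => p.eval x) = fun x => (derivative p).eval x := by
    ext x; exact Polynomial.deriv p
  have h2 : deriv (fun x => (derivative p).eval x) = fun x => (derivative (derivative p)).eval x := by
    ext x; exact Polynomial.deriv (derivative p)
  rw [h1, h2]
  simp only [Polynomial.eval_add, Polynomial.eval_mul, Polynomial.eval_sub, Polynomial.eval_X,
    Polynomial.eval_C]

theorem hasDerivAt_flux {a z : ℝ} (hz : 0 < z) {f1 g : ℝ → ℝ} {f2 g1 : ℝ}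
    (h2 : HasDerivAt f1 f2 z) (h3 : HasDerivAt g g1 z) :
    HasDerivAt (fun z => z ^ (a + 1) * Real.exp (-z) * (f1 z * g z))
      ((z * f2 + (a + 1 - z) * f1 z) * g z * (z ^ a * Real.exp (-z)) +
        z * f1 z * g1 * (z ^ a * Real.exp (-z))) z := by
  have h5 : HasDerivAt (fun z : ℝ => z ^ (a + 1)) ((a + 1) * z ^ a) z := by
    have := Real.hasDerivAt_rpow_const (x := z) (p := a + 1) (Or.inl hz.ne')
    simpa using this
  have h6 : HasDerivAt (fun z : ℝ => Real.exp (-z)) (-Real.exp (-z)) z := by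
    have := (hasDerivAt_neg z).exp
    simpa using this
  have h7 := (h5.mul h6).mul (h2.mul h3)
  refine h7.congr_deriv ?_
  simp only [Pi.mul_apply]
  rw [Real.rpow_add hz, Real.rpow_one]
  ring

theorem continuousOn_wt (a : ℝ) : ContinuousOn (fun z : ℝ => z ^ a * Real.exp (-z)) (Ioi 0) := by
  apply ContinuousOn.mul
  · intro z hz
    have hz' : (0 : ℝ) < z := hz
    exact (Real.continuousAt_rpow_const z a (Or.inl hz'.ne')).continuousWithinAt
  · fun_prop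

/-- reduction of a `mu`-integral to an interval integral when the integrand vanishes outside
`[z₁,z₂]`. -/
theorem integral_mu_of_supp (a : ℝ) {z₁ z₂ : ℝ} (h1 : 0 < z₁) (h12 : z₁ ≤ z₂) {h : ℝ → ℝ}
    (hh : ∀ z > 0, z ∉ Icc z₁ z₂ → h z = 0) :
    ∫ z, h z ∂(mu a) = ∫ z in z₁..z₂, h z * (z ^ a * Real.exp (-z)) := by
  rw [integral_mu, intervalIntegral.integral_of_le h12, ← integral_Icc_eq_integral_Ioc]
  exact setIntegral_eq_of_subset_of_forall_sdiff_eq_zero measurableSet_Ioi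
    (fun z hz => lt_of_lt_of_le h1 hz.1)
    (fun z hz => by rw [hh z hz.1 hz.2]; ring)

theorem integrable_mu_of_supp (a : ℝ) {z₁ z₂ : ℝ} (h1 : 0 < z₁) {h : ℝ → ℝ}
    (hc : ContinuousOn h (Ioi 0)) (hh : ∀ z > 0, z ∉ Icc z₁ z₂ → h z = 0) :
    Integrable h (mu a) := by
  rw [integrable_mu]
  have hsub : Icc z₁ z₂ ⊆ Ioi 0 := fun z hz => lt_of_lt_of_le h1 hz.1
  have hI : IntegrableOn (fun z => h z * (z ^ a * Real.exp (-z))) (Icc z₁ z₂) :=
    ((hc.mono hsub).mul ((continuousOn_wt a).mono hsub)).integrableOn_Icc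
  refine hI.of_forall_sdiff_eq_zero measurableSet_Ioi ?_
  intro z hz
  rw [hh z hz.1 hz.2]; ring

/-- The derivative of a function which vanishes (on `z > 0`) outside `[z₁,z₂]` vanishes there. -/
theorem deriv_zero_of_supp {z₁ z₂ : ℝ} {f f1 : ℝ → ℝ}
    (hf : ∀ z > 0, HasDerivAt f (f1 z) z) (hs : ∀ z > 0, z ∉ Icc z₁ z₂ → f z = 0) :
    ∀ z > 0, z ∉ Icc z₁ z₂ → f1 z = 0 := by
  intro z hz hz'
  have hopen : IsOpen (Ioi (0 : ℝ) ∩ (Icc z₁ z₂)ᶜ) := isOpen_Ioi.inter isClosed_Icc.isOpen_compl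
  have hev' : f =ᶠ[𝓝 z] fun _ => 0 := by
    filter_upwards [hopen.mem_nhds ⟨hz, hz'⟩] with x hx
    exact hs x hx.1 hx.2
  have := (hf z hz).congr_of_eventuallyEq hev'.symm
  exact this.unique (hasDerivAt_const z 0)

/-- The flux has zero total derivative. -/
theorem ibp_core (a : ℝ) {z₁ z₂ : ℝ} (h1 : 0 < z₁) (h12 : z₁ ≤ z₂)
    {f1 f2 g g1 : ℝ → ℝ} (hf1 : ∀ z > 0, HasDerivAt f1 (f2 z) z)
    (hf2 : ContinuousOn f2 (Ioi 0)) (hs : ∀ z > 0, z ∉ Icc z₁ z₂ → f1 z * g z = 0)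
    (hg : ∀ z > 0, HasDerivAt g (g1 z) z) (hg1 : ContinuousOn g1 (Ioi 0)) :
    ∫ z, ((z * f2 z + (a + 1 - z) * f1 z) * g z + z * f1 z * g1 z) ∂(mu a) = 0 := by
  -- enlarge the interval so that everything vanishes at the end points
  obtain ⟨y₁, hy₁, hy₁'⟩ : ∃ y, 0 < y ∧ y < z₁ := ⟨z₁ / 2, by linarith only [h1], by linarith only [h1]⟩
  obtain ⟨y₂, hy₂⟩ : ∃ y, z₂ < y := ⟨z₂ + 1, by linarith only []⟩
  have h0 := deriv_zero_of_supp (f := fun z => f1 z * g z)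
    (f1 := fun z => f2 z * g z + f1 z * g1 z) (fun z hz => (hf1 z hz).mul (hg z hz)) hs
  have hne : ∀ z, z ∉ Icc y₁ y₂ → z ∉ Icc z₁ z₂ := by
    intro z hz hz'
    exact hz ⟨hy₁'.le.trans hz'.1, hz'.2.trans hy₂.le⟩
  have hy12 : y₁ ≤ y₂ := by linarith only [h12, hy₁', hy₂]
  rw [integral_mu_of_supp a hy₁ hy12 (fun z hz hz' => by
      have e1 := h0 z hz (hne z hz')
      have e2 := hs z hz (hne z hz')
      linear_combination z * e1 + (a + 1 - z) * e2)]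
  have hsub : uIcc y₁ y₂ ⊆ Ioi 0 := by
    rw [uIcc_of_le hy12]; intro z hz; exact lt_of_lt_of_le hy₁ hz.1
  have hcf1 : ContinuousOn f1 (Ioi 0) := fun z hz => (hf1 z hz).continuousAt.continuousWithinAt
  have hcg : ContinuousOn g (Ioi 0) := fun z hz => (hg z hz).continuousAt.continuousWithinAt
  have hw := continuousOn_wt a
  have hi : IntervalIntegrable (fun z => ((z * f2 z + (a + 1 - z) * f1 z) * g z +
      z * f1 z * g1 z) * (z ^ a * Real.exp (-z))) volume y₁ y₂ := by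
    apply ContinuousOn.intervalIntegrable
    have : ContinuousOn (fun z => ((z * f2 z + (a + 1 - z) * f1 z) * g z +
      z * f1 z * g1 z) * (z ^ a * Real.exp (-z))) (Ioi 0) := by fun_prop
    exact this.mono hsub
  have key := intervalIntegral.integral_eq_sub_of_hasDerivAt
    (f := fun z => z ^ (a + 1) * Real.exp (-z) * (f1 z * g z))
    (f' := fun z => ((z * f2 z + (a + 1 - z) * f1 z) * g z + z * f1 z * g1 z) *
      (z ^ a * Real.exp (-z))) (a := y₁) (b := y₂)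
    (fun z hz => (hasDerivAt_flux (hsub hz) (hf1 z (hsub hz)) (hg z (hsub hz))).congr_deriv
      (by ring)) hi
  rw [key, hs y₁ hy₁ (fun h => by linarith only [hy₁', h, h.1]), hs y₂ (by linarith only [h12, hy₁, hy₁', hy₂]) (fun h => by linarith only [hy₂, h, h.2])]
  simp

/-- Integration by parts, `f` supported in `[z₁,z₂]`. -/
theorem ibp_of_hasDerivAt (a : ℝ) {z₁ z₂ : ℝ} (h1 : 0 < z₁) (h12 : z₁ ≤ z₂)
    {f f1 f2 g g1 : ℝ → ℝ}
    (hf : ∀ z > 0, HasDerivAt f (f1 z) z) (hf1 : ∀ z > 0, HasDerivAt f1 (f2 z) z)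
    (hf2 : ContinuousOn f2 (Ioi 0)) (hs : ∀ z > 0, z ∉ Icc z₁ z₂ → f z = 0)
    (hg : ∀ z > 0, HasDerivAt g (g1 z) z) (hg1 : ContinuousOn g1 (Ioi 0)) :
    ∫ z, (z * f2 z + (a + 1 - z) * f1 z) * g z ∂(mu a) = -∫ z, z * f1 z * g1 z ∂(mu a) := by
  have hs1 := deriv_zero_of_supp hf hs
  have hs2 := deriv_zero_of_supp hf1 hs1
  have hcf1 : ContinuousOn f1 (Ioi 0) := fun z hz => (hf1 z hz).continuousAt.continuousWithinAt
  have hcg : ContinuousOn g (Ioi 0) := fun z hz => (hg z hz).continuousAt.continuousWithinAt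
  have key := ibp_core a h1 h12 hf1 hf2 (g := g) (g1 := g1)
    (fun z hz hz' => by rw [hs1 z hz hz', zero_mul]) hg hg1
  rw [integral_add
    (integrable_mu_of_supp a h1 (z₂ := z₂) (by fun_prop) (fun z hz hz' => by
      rw [hs1 z hz hz', hs2 z hz hz']; ring))
    (integrable_mu_of_supp a h1 (z₂ := z₂) (by fun_prop) (fun z hz hz' => by
      rw [hs1 z hz hz']; ring))] at key
  linarith only [key]

/-- Integration by parts, `g` supported in `[z₁,z₂]`. -/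
theorem ibp_of_hasDerivAt' (a : ℝ) {z₁ z₂ : ℝ} (h1 : 0 < z₁) (h12 : z₁ ≤ z₂)
    {f1 f2 g g1 : ℝ → ℝ} (hf1 : ∀ z > 0, HasDerivAt f1 (f2 z) z)
    (hf2 : ContinuousOn f2 (Ioi 0)) (hs : ∀ z > 0, z ∉ Icc z₁ z₂ → g z = 0)
    (hg : ∀ z > 0, HasDerivAt g (g1 z) z) (hg1 : ContinuousOn g1 (Ioi 0)) :
    ∫ z, (z * f2 z + (a + 1 - z) * f1 z) * g z ∂(mu a) = -∫ z, z * f1 z * g1 z ∂(mu a) := by
  have hs1 := deriv_zero_of_supp hg hs
  have hcf1 : ContinuousOn f1 (Ioi 0) := fun z hz => (hf1 z hz).continuousAt.continuousWithinAt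
  have hcg : ContinuousOn g (Ioi 0) := fun z hz => (hg z hz).continuousAt.continuousWithinAt
  have key := ibp_core a h1 h12 hf1 hf2 (g := g) (g1 := g1)
    (fun z hz hz' => by rw [hs z hz hz', mul_zero]) hg hg1
  rw [integral_add
    (integrable_mu_of_supp a h1 (z₂ := z₂) (by fun_prop) (fun z hz hz' => by
      rw [hs z hz hz']; ring))
    (integrable_mu_of_supp a h1 (z₂ := z₂) (by fun_prop) (fun z hz hz' => by
      rw [hs1 z hz hz']; ring))] at key
  linarith only [key]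

/-- against a polynomial: `∫ (L f) p dμ = ∫ f (L p) dμ` -/
theorem ibp_poly_of_hasDerivAt (a : ℝ) {z₁ z₂ : ℝ} (h1 : 0 < z₁) (h12 : z₁ ≤ z₂)
    {f f1 f2 : ℝ → ℝ}
    (hf : ∀ z > 0, HasDerivAt f (f1 z) z) (hf1 : ∀ z > 0, HasDerivAt f1 (f2 z) z)
    (hf2 : ContinuousOn f2 (Ioi 0)) (hs : ∀ z > 0, z ∉ Icc z₁ z₂ → f z = 0) (p : ℝ[X]) :
    ∫ z, (z * f2 z + (a + 1 - z) * f1 z) * p.eval z ∂(mu a) =
      ∫ z, f z * (Lp a p).eval z ∂(mu a) := by
  have hcf1 : ContinuousOn f1 (Ioi 0) := fun z hz => (hf1 z hz).continuousAt.continuousWithinAt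
  rw [ibp_of_hasDerivAt a h1 h12 hf hf1 hf2 hs (g := fun z => p.eval z)
    (g1 := fun z => (derivative p).eval z) (fun z _ => p.hasDerivAt z) (by fun_prop)]
  have := ibp_of_hasDerivAt' a h1 h12 (f1 := fun z => (derivative p).eval z)
    (f2 := fun z => (derivative (derivative p)).eval z) (g := f) (g1 := f1)
    (fun z _ => (derivative p).hasDerivAt z) (by fun_prop) hs hf hcf1
  have e1 : ∫ z, f z * (Lp a p).eval z ∂(mu a) =
      ∫ z, (z * (derivative (derivative p)).eval z + (a + 1 - z) * (derivative p).eval z) * f z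
        ∂(mu a) := by
    congr 1; funext z; unfold Lp
    simp only [eval_add, eval_mul, eval_sub, eval_X, eval_C]; ring
  rw [e1, this]
  congr 1; congr 1; funext z; ring

/-- the energy: `∫ (L f) f dμ = -∫ z f'^2 dμ` -/
theorem ibp_self_of_hasDerivAt (a : ℝ) {z₁ z₂ : ℝ} (h1 : 0 < z₁) (h12 : z₁ ≤ z₂)
    {f f1 f2 : ℝ → ℝ}
    (hf : ∀ z > 0, HasDerivAt f (f1 z) z) (hf1 : ∀ z > 0, HasDerivAt f1 (f2 z) z)
    (hf2 : ContinuousOn f2 (Ioi 0)) (hs : ∀ z > 0, z ∉ Icc z₁ z₂ → f z = 0) :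
    ∫ z, (z * f2 z + (a + 1 - z) * f1 z) * f z ∂(mu a) = -∫ z, z * f1 z ^ 2 ∂(mu a) := by
  have hcf1 : ContinuousOn f1 (Ioi 0) := fun z hz => (hf1 z hz).continuousAt.continuousWithinAt
  rw [ibp_of_hasDerivAt a h1 h12 hf hf1 hf2 hs hf hcf1]
  congr 1; congr 1; funext z; ring

/-- mode coefficients: `∫ (L f) e_n dμ = -n ∫ f e_n dμ` -/
theorem ibp_en_of_hasDerivAt {a : ℝ} (ha : -1 < a) {z₁ z₂ : ℝ} (h1 : 0 < z₁) (h12 : z₁ ≤ z₂)
    {f f1 f2 : ℝ → ℝ}
    (hf : ∀ z > 0, HasDerivAt f (f1 z) z) (hf1 : ∀ z > 0, HasDerivAt f1 (f2 z) z)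
    (hf2 : ContinuousOn f2 (Ioi 0)) (hs : ∀ z > 0, z ∉ Icc z₁ z₂ → f z = 0) (n : ℕ) :
    ∫ z, (z * f2 z + (a + 1 - z) * f1 z) * (en a n).eval z ∂(mu a) =
      -(n : ℝ) * ∫ z, f z * (en a n).eval z ∂(mu a) := by
  rw [ibp_poly_of_hasDerivAt a h1 h12 hf hf1 hf2 hs, Lp_en ha, ← integral_const_mul]
  congr 1; funext z
  simp only [eval_mul, eval_C]; ring

/-! ### `ContDiff` versions -/

theorem exists_Icc_of_compact {K : Set ℝ} (hK : IsCompact K) (hs : K ⊆ Ioi 0) :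
    ∃ α β : ℝ, 0 < α ∧ α ≤ β ∧ K ⊆ Icc α β := by
  rcases K.eq_empty_or_nonempty with h | h
  · exact ⟨1, 2, by norm_num, by norm_num, by simp [h]⟩
  · obtain ⟨m, hm1, hm2⟩ := hK.exists_isLeast h
    obtain ⟨M, hM1, hM2⟩ := hK.exists_isGreatest h
    have hm0 : 0 < m := hs hm1
    exact ⟨m, M, hm0, hm2 hM1, fun x hx => ⟨hm2 hx, hM2 hx⟩⟩

theorem contDiff_one_deriv {f : ℝ → ℝ} (hf : ContDiff ℝ 2 f) : ContDiff ℝ 1 (deriv f) := by
  have h2 : (2 : WithTop ℕ∞) = 1 + 1 := by norm_num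
  rw [h2] at hf
  exact (contDiff_succ_iff_deriv.1 hf).2.2

theorem hasDerivAt_of_contDiff {f : ℝ → ℝ} (hf : ContDiff ℝ 2 f) (z : ℝ) :
    HasDerivAt f (deriv f z) z ∧ HasDerivAt (deriv f) (deriv (deriv f) z) z :=
  ⟨(hf.differentiable (by norm_num) z).hasDerivAt,
    ((contDiff_one_deriv hf).differentiable (by norm_num) z).hasDerivAt⟩

theorem ibp_contDiff (a : ℝ) {f g : ℝ → ℝ} (hf : ContDiff ℝ 2 f) (hc : HasCompactSupport f)
    (hs : tsupport f ⊆ Ioi 0) (hg : ContDiff ℝ 1 g) :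
    ∫ z, Lf a f z * g z ∂(mu a) = -∫ z, z * deriv f z * deriv g z ∂(mu a) := by
  obtain ⟨α, β, hα, hαβ, hK⟩ := exists_Icc_of_compact hc hs
  exact ibp_of_hasDerivAt a hα hαβ (fun z _ => (hasDerivAt_of_contDiff hf z).1)
    (fun z _ => (hasDerivAt_of_contDiff hf z).2)
    ((contDiff_one_deriv hf).continuous_deriv (by norm_num)).continuousOn
    (fun z _ hz => by by_contra h; exact hz (hK (subset_tsupport f h)))
    (fun z _ => (hg.differentiable (by norm_num) z).hasDerivAt)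
    (hg.continuous_deriv (by norm_num)).continuousOn

theorem ibp_contDiff_self (a : ℝ) {f : ℝ → ℝ} (hf : ContDiff ℝ 2 f) (hc : HasCompactSupport f)
    (hs : tsupport f ⊆ Ioi 0) :
    ∫ z, Lf a f z * f z ∂(mu a) = -∫ z, z * deriv f z ^ 2 ∂(mu a) := by
  rw [ibp_contDiff a hf hc hs (hf.of_le (by norm_num))]
  congr 1; congr 1; funext z; ring

theorem ibp_contDiff_poly (a : ℝ) {f : ℝ → ℝ} (hf : ContDiff ℝ 2 f) (hc : HasCompactSupport f)
    (hs : tsupport f ⊆ Ioi 0) (p : ℝ[X]) :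
    ∫ z, Lf a f z * p.eval z ∂(mu a) = ∫ z, f z * (Lp a p).eval z ∂(mu a) := by
  obtain ⟨α, β, hα, hαβ, hK⟩ := exists_Icc_of_compact hc hs
  exact ibp_poly_of_hasDerivAt a hα hαβ (fun z _ => (hasDerivAt_of_contDiff hf z).1)
    (fun z _ => (hasDerivAt_of_contDiff hf z).2)
    ((contDiff_one_deriv hf).continuous_deriv (by norm_num)).continuousOn
    (fun z _ hz => by by_contra h; exact hz (hK (subset_tsupport f h))) p

end Vale.Agent.P244.ST.Lag
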