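import Vale.Agent.P244.ST.S.SFin
import Vale.Agent.P244.ST.S.LagAlg
import Vale.Agent.P244.ST.S.Interp

/-!
# P244 / ST / S : closeness on compact sets
-/

open Set MeasureTheory Filter Topology Polynomial

namespace Vale.Agent.P244.ST.SS

theorem KK.neg_one_lt' {k : ℝ} (h : KK k) : -1 < aa k := by
  have := h.hi
  unfold aa
  linarith only [this]

theorem nu_pos' {k : ℝ} (h : KK k) (i : ℕ) : 0 < nu k i :=
  Real.sqrt_pos.2 (Lag.nrm_pos h.neg_one_lt' i)

/-- `l_i = ν_i e_i` -/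
theorem ell_eq_en {k : ℝ} (h : KK k) (i : ℕ) (z : ℝ) :
    (Lag.ell (aa k) i).eval z = nu k i * (Lag.en (aa k) i).eval z := by
  have hp := nu_pos' h i
  unfold Lag.en
  rw [eval_mul, eval_C]
  unfold nu at hp ⊢
  field_simp

theorem memLp_of_supp {k : ℝ} (hk : KK k) {h : ℝ → ℝ} {z₁ z₂ : ℝ} (h1 : 0 < z₁)
    (hc : ContinuousOn h (Ioi 0)) (hh : ∀ z > 0, z ∉ Icc z₁ z₂ → h z = 0) :
    MemLp h 2 (Lag.mu (aa k)) := by
  have hi := Lag.integrable_mu_of_supp (aa k) h1 hc hh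
  rw [memLp_two_iff_integrable_sq hi.aestronglyMeasurable]
  exact Lag.integrable_mu_of_supp (z₂ := z₂) (aa k) h1 (hc.pow 2)
    (fun z hz hz' => by simp [hh z hz hz'])

/-- `‖h - l₃‖²` in terms of the modes -/
theorem dist_sq {k : ℝ} (hk : KK k) {h : ℝ → ℝ} (hm : MemLp h 2 (Lag.mu (aa k))) :
    ∫ z, (h z - (Lag.ell (aa k) 3).eval z) ^ 2 ∂(Lag.mu (aa k)) =
      Ex k h + ∑ i ∈ Finset.range 3, (nu k i * gam k i h) ^ 2 +
        (nu k 3 * (gam k 3 h - 1)) ^ 2 := by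
  have ha := hk.neg_one_lt'
  have hP := Lag.poly_memLp ha (Lag.ell (aa k) 3)
  have e1 : ∀ z, (h z - (Lag.ell (aa k) 3).eval z) ^ 2 =
      h z ^ 2 - 2 * nu k 3 * (h z * (Lag.en (aa k) 3).eval z) + (Lag.ell (aa k) 3).eval z ^ 2 := by
    intro z
    have := ell_eq_en hk 3 z
    linear_combination (-2 * h z) * this
  simp_rw [e1]
  have i1 : Integrable (fun z => h z ^ 2) (Lag.mu (aa k)) := hm.integrable_sq
  have i2 : Integrable (fun z => h z * (Lag.en (aa k) 3).eval z) (Lag.mu (aa k)) :=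
    hm.integrable_mul (Lag.poly_memLp ha (Lag.en (aa k) 3))
  have i3 : Integrable (fun z => (Lag.ell (aa k) 3).eval z ^ 2) (Lag.mu (aa k)) := hP.integrable_sq
  have i12 : Integrable (fun z => h z ^ 2 - 2 * nu k 3 * (h z * (Lag.en (aa k) 3).eval z))
    (Lag.mu (aa k)) := i1.sub (i2.const_mul _)
  rw [integral_add i12 i3, integral_sub i1 (i2.const_mul _), integral_const_mul]
  have hg : ∀ i, ∫ z, h z * (Lag.en (aa k) i).eval z ∂(Lag.mu (aa k)) = nu k i * gam k i h := by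
    intro i
    unfold gam
    have := nu_pos' hk i
    field_simp
  have hn : ∫ z, (Lag.ell (aa k) 3).eval z ^ 2 ∂(Lag.mu (aa k)) = nu k 3 ^ 2 := by
    unfold nu
    rw [Real.sq_sqrt (Lag.nrm_pos ha 3).le]
    rfl
  unfold Ex
  rw [hn]
  simp_rw [hg]
  rw [Finset.sum_range_succ _ 3]
  ring

theorem s7s : S7sStatement := by
  intro k hk z₁ hz₁ z₂ hz₂ M K hM hK
  have ha := hk.neg_one_lt'
  set P : ℝ → ℝ := fun z => (Lag.ell (aa k) 3).eval z with hP
  set P' : ℝ → ℝ := fun z => (derivative (Lag.ell (aa k) 3)).eval z with hP'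
  have hPd : ∀ z, HasDerivAt P (P' z) z := fun z => (Lag.ell (aa k) 3).hasDerivAt z
  have hP'c : Continuous P' := (derivative (Lag.ell (aa k) 3)).continuous
  obtain ⟨M1, hM1⟩ := isCompact_Icc.exists_bound_of_continuousOn (s := Icc z₁ z₂)
    hP'c.continuousOn
  have hM10 : 0 ≤ M1 := (norm_nonneg _).trans (hM1 z₁ ⟨le_rfl, hz₂.le⟩)
  set M' := M + M1 with hM'
  have hM'0 : 0 ≤ M' := by positivity
  have hwl := Lag.wlow_pos (a := aa k) hz₁ hz₂.le
  set wl := Lag.wlow (aa k) z₁ z₂ with hwlow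
  set S : ℝ := 1 + ∑ i ∈ Finset.range 3, nu k i ^ 2 + nu k 3 ^ 2 with hS
  have hS0 : 0 ≤ S := by positivity
  have hd : 0 < z₂ - z₁ := by linarith only [hz₂]
  set C2 : ℝ := 2 / (z₂ - z₁) * (wl⁻¹ * (K ^ 2 * S)) + 2 * (z₂ - z₁) ^ 2 * M' ^ 2 with hC2
  have hC20 : 0 ≤ C2 := by positivity
  refine ⟨Real.sqrt C2, Real.sqrt_nonneg _, ?_⟩
  intro sg hsg hsg1 h h1 hd1 hc1 hsupp hb hlow hmain hEx z hz
  obtain ⟨c₁, hc₁, c₂, hs⟩ := hsupp
  have hhc : ContinuousOn h (Ioi 0) := fun z hz => (hd1 z hz).continuousAt.continuousWithinAt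
  have hm := memLp_of_supp hk hc₁ hhc hs
  have hwm : MemLp (fun z => h z - P z) 2 (Lag.mu (aa k)) :=
    hm.sub (Lag.poly_memLp ha (Lag.ell (aa k) 3))
  -- the global norm
  have hglob : ∫ z, (h z - P z) ^ 2 ∂(Lag.mu (aa k)) ≤ (K * sg) ^ 2 * S := by
    have e := dist_sq hk hm
    simp only [hP]
    rw [e, hS]
    have h3 : (nu k 3 * (gam k 3 h - 1)) ^ 2 ≤ (K * sg) ^ 2 * nu k 3 ^ 2 := by
      rw [mul_pow, mul_comm]
      refine mul_le_mul_of_nonneg_right ?_ (sq_nonneg _)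
      rw [← sq_abs]
      exact pow_le_pow_left₀ (abs_nonneg _) hmain 2
    have h4 : ∑ i ∈ Finset.range 3, (nu k i * gam k i h) ^ 2 ≤
        (K * sg) ^ 2 * ∑ i ∈ Finset.range 3, nu k i ^ 2 := by
      rw [Finset.mul_sum]
      refine Finset.sum_le_sum fun i hi => ?_
      rw [mul_pow, mul_comm]
      refine mul_le_mul_of_nonneg_right ?_ (sq_nonneg _)
      rw [← sq_abs]
      exact pow_le_pow_left₀ (abs_nonneg _) (hlow i (Finset.mem_range.1 hi)) 2
    linarith only [hEx, h3, h4]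
  -- the local interval
  set l : ℝ := (z₂ - z₁) * sg ^ (2 / 3 : ℝ) with hl
  have hsp : 0 < sg ^ (2 / 3 : ℝ) := Real.rpow_pos_of_pos hsg _
  have hsp1 : sg ^ (2 / 3 : ℝ) ≤ 1 := Real.rpow_le_one hsg.le hsg1 (by norm_num)
  have hl0 : 0 < l := by positivity
  have hl1 : l ≤ z₂ - z₁ := by
    rw [hl]; nlinarith only [hz₂, hsp1]
  obtain ⟨y, hy1, hy2, hzy⟩ : ∃ y, z₁ ≤ y ∧ y + l ≤ z₂ ∧ z ∈ Icc y (y + l) := by
    rcases le_total z (z₂ - l) with h5 | h5
    · exact ⟨z, hz.1, by linarith only [h5], le_rfl, by linarith only [hl0]⟩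
    · exact ⟨z₂ - l, by linarith only [hl1], by linarith only [], h5, by linarith only [hz, hz.2]⟩
  have hy0 : 0 < y := lt_of_lt_of_le hz₁ hy1
  have hsubI : Icc y (y + l) ⊆ Icc z₁ z₂ := Icc_subset_Icc hy1 hy2
  have hposI : Icc z₁ z₂ ⊆ Ioi 0 := fun x hx => lt_of_lt_of_le hz₁ hx.1
  have hwd : ∀ x ∈ Icc y (y + l), HasDerivWithinAt (fun z => h z - P z) (h1 x - P' x)
      (Icc y (y + l)) x := fun x hx =>
    ((hd1 x (hposI (hsubI hx))).sub (hPd x)).hasDerivWithinAt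
  have hw1c : ContinuousOn (fun x => h1 x - P' x) (Icc y (y + l)) :=
    (hc1.mono (hsubI.trans hposI)).sub hP'c.continuousOn
  have hsup := Lag.sup_of_h1 (z0 := y) (z1 := y + l) (by linarith only [hl0]) hwd hw1c hzy
  have hwc : ContinuousOn (fun z => (h z - P z) ^ 2) (Icc z₁ z₂) :=
    ((hhc.mono hposI).sub (fun z _ => (hPd z).continuousAt.continuousWithinAt)).pow 2
  have hI1 : ∫ x in y..(y + l), (h x - P x) ^ 2 ≤ wl⁻¹ * ((K * sg) ^ 2 * S) := by
    have h5 : ∫ x in y..(y + l), (h x - P x) ^ 2 ≤ ∫ x in z₁..z₂, (h x - P x) ^ 2 := by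
      refine intervalIntegral.integral_mono_interval hy1 (by linarith only [hl0]) hy2 ?_ ?_
      · exact Eventually.of_forall fun x => sq_nonneg _
      · apply ContinuousOn.intervalIntegrable
        rwa [uIcc_of_le hz₂.le]
    have h6 := Lag.integral_le_mu (a := aa k) hz₁ hz₂.le hwc (fun z _ => sq_nonneg _)
      hwm.integrable_sq
    refine (h5.trans h6).trans ?_
    exact mul_le_mul_of_nonneg_left hglob (inv_nonneg.2 hwl.le)
  have hI2 : ∫ x in y..(y + l), (h1 x - P' x) ^ 2 ≤ l * M' ^ 2 := by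
    have h5 : ∫ x in y..(y + l), (h1 x - P' x) ^ 2 ≤ ∫ x in y..(y + l), M' ^ 2 := by
      refine intervalIntegral.integral_mono_on (by linarith only [hl0]) ?_ ?_ ?_
      · apply ContinuousOn.intervalIntegrable
        rw [uIcc_of_le (by linarith only [hl0])]
        exact hw1c.pow 2
      · exact intervalIntegrable_const
      · intro x hx
        rw [← sq_abs]
        refine pow_le_pow_left₀ (abs_nonneg _) ?_ 2
        refine (abs_sub _ _).trans ?_
        have h7 := hb x (hsubI hx)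
        have h8 := hM1 x (hsubI hx)
        rw [Real.norm_eq_abs] at h8
        linarith only [h7, h8]
    refine h5.trans (le_of_eq ?_)
    rw [intervalIntegral.integral_const, smul_eq_mul]
    ring
  have hfin : (h z - P z) ^ 2 ≤ C2 * (sg ^ (2 / 3 : ℝ)) ^ 2 := by
    have e0 : y + l - y = l := by ring
    rw [e0] at hsup
    have h5 : (h z - P z) ^ 2 ≤ 2 / l * (wl⁻¹ * ((K * sg) ^ 2 * S)) + 2 * l * (l * M' ^ 2) := by
      refine hsup.trans (add_le_add ?_ ?_)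
      · exact mul_le_mul_of_nonneg_left hI1 (by positivity)
      · exact mul_le_mul_of_nonneg_left hI2 (by positivity)
    refine h5.trans (le_of_eq ?_)
    have h6 : sg ^ 2 = (sg ^ (2 / 3 : ℝ)) ^ 3 := by
      rw [← Real.rpow_natCast (sg ^ (2 / 3 : ℝ)) 3, ← Real.rpow_mul hsg.le,
        ← Real.rpow_natCast sg 2]
      norm_num
    rw [hl, hC2, mul_pow K sg, h6]
    field_simp
  have h9 : |h z - P z| ≤ Real.sqrt (C2 * (sg ^ (2 / 3 : ℝ)) ^ 2) := by
    rw [← Real.sqrt_sq_eq_abs]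
    exact Real.sqrt_le_sqrt hfin
  rwa [Real.sqrt_mul hC20, Real.sqrt_sq hsp.le] at h9

end Vale.Agent.P244.ST.SS
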