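import Vale.Agent.P244.ST.S.SFin
import Vale.Agent.P244.ST.M.Skel

/-!
# P244 / ST / S : the boundary value at `y = ρ₀` (statement)

Order of the argument (no circularity): `Boot` gives the boundary value of `u` at `y = ρ₀`
(`BdStatement`, from (b4), (b6) and `Z ≥ c (ρ - ρ₀)` for `y ≥ ρ₀`), hence `M.FT`, hence
(module M2) the facts `M.FI`, `M.FO`, hence `PtStatement`, hence `S7Statement`.
-/

open Set
open scoped ContDiff

namespace Vale.Agent.P244.ST.SS

/-- **Bd**: the boundary value of `u` at `y = ρ₀`. -/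
def BdStatement : Prop :=
  ∀ g : ℝ → ℝ, IsBub g → Ev fun q => ∀ w f : Fn, ∀ T > 0, T ≤ 1 →
    ConfSol 20 w f T → Qual w f T → ∀ t₁ ∈ Ico 0 T, Boot q g w f t₁ →
    ∀ t ∈ Icc 0 t₁, ∀ x ∈ Ioo (0 : ℝ) 1, yv w f t x = q.rho0 →
      9 / 10 * q.T0 t ≤ Real.tanh (uu w f t x) ∧ Real.tanh (uu w f t x) ≤ 11 / 10 * q.T0 t

/-- `RR = scal` (identities block). -/
def ScalStatement : Prop :=
  ∀ w f : Fn, ∀ T > 0, ConfSol 20 w f T → ∀ t ∈ Ico 0 T, ∀ x ∈ Ioo (0 : ℝ) 1,
    RR w f t x = scal 20 (w t) (f t) x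

/-- `Pt` from the facts of block M. -/
def PtOfStatement : Prop := M.M2Statement → BdStatement → ScalStatement → PtStatement

end Vale.Agent.P244.ST.SS
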