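import Vale.Agent.P244.ST.S.CV
import Vale.Agent.P244.ST.S.S3
import Vale.Agent.P244.ST.S.S7
import Vale.Agent.P244.ST.S.RGauge
import Vale.Agent.P244.ST.S.SBd
import Vale.Agent.P244.ST.S.EvS

/-!
# P244 / ST / S : tools for the boundary value at `y = ρ₀`
-/

open Set MeasureTheory Filter Topology
open scoped ContDiff

namespace Vale.Agent.P244.ST.SS

/-- lower bound for `Z` to the right of a point -/
theorem Z_low {Z U U1 E : ℝ → ℝ} {a : ℝ}
    (hZ : ∀ r ∈ Icc a (a + 1 / 40), HasDerivAt Z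
      (39 * (Real.cosh (U r) - Z r) - Z r * U1 r ^ 2 / 4 - E r) r)
    (hZ0 : ∀ r ∈ Icc a (a + 1 / 40), 0 ≤ Z r)
    (hU1 : ∀ r ∈ Icc a (a + 1 / 40), |U1 r| ≤ 2)
    (hE : ∀ r ∈ Icc a (a + 1 / 40), E r ≤ 1) {r : ℝ} (hr : r ∈ Icc a (a + 1 / 40)) :
    r - a ≤ Z r := by
  set W : ℝ → ℝ := fun r => Real.exp (40 * (r - a)) * Z r - 38 / 40 * Real.exp (40 * (r - a))
    with hW
  have hWd : ∀ r ∈ Icc a (a + 1 / 40), HasDerivAt W
      (Real.exp (40 * (r - a)) * (40 * Z r +
        (39 * (Real.cosh (U r) - Z r) - Z r * U1 r ^ 2 / 4 - E r) - 38)) r := by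
    intro r hr
    have h1 : HasDerivAt (fun r => Real.exp (40 * (r - a))) (Real.exp (40 * (r - a)) * (40 * 1)) r :=
      (((hasDerivAt_id r).sub_const a).const_mul 40).exp
    have h2 := (h1.mul (hZ r hr)).sub (h1.const_mul (38 / 40))
    refine h2.congr_deriv ?_
    ring
  have hmono : MonotoneOn W (Icc a (a + 1 / 40)) := by
    refine monotoneOn_of_deriv_nonneg (convex_Icc _ _)
      (fun r hr => (hWd r hr).continuousAt.continuousWithinAt)
      (fun r hr => (hWd r (interior_subset hr)).differentiableAt.differentiableWithinAt) ?_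
    intro r hr
    have hr' := interior_subset hr
    rw [(hWd r hr').deriv]
    refine mul_nonneg (Real.exp_pos _).le ?_
    have h1 := hZ0 r hr'
    have h2 := hU1 r hr'
    have h3 := hE r hr'
    have h4 : (1 : ℝ) ≤ Real.cosh (U r) := Real.one_le_cosh _
    have h5 : U1 r ^ 2 ≤ 4 := by
      rw [← sq_abs]
      nlinarith only [h2, abs_nonneg (U1 r)]
    nlinarith only [h1, h3, h4, h5]
  have ha : a ∈ Icc a (a + 1 / 40) := ⟨le_rfl, by linarith only []⟩
  have h1 := hmono ha hr hr.1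
  simp only [hW, sub_self, mul_zero, Real.exp_zero, one_mul, mul_one] at h1
  have h2 := hZ0 a ha
  set x := 40 * (r - a) with hx
  have hx0 : 0 ≤ x := by rw [hx]; linarith only [hr, hr.1]
  have hx1 : x ≤ 1 := by rw [hx]; linarith only [hr, hr.2]
  have hex := Real.add_one_le_exp x
  have hep := Real.exp_pos x
  -- `Z r * e ≥ 38/40 (e - 1)`
  have h3 : 38 / 40 * (Real.exp x - 1) ≤ Real.exp x * Z r := by linarith only [h2, h1]
  have h4 : x / 2 * Real.exp x ≤ Real.exp x - 1 := by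
    nlinarith only [hx0, hx1, hex, mul_nonneg hx0 (sub_nonneg.2 hx1), mul_nonneg (sub_nonneg.2 hex) hx0,
      mul_nonneg (sub_nonneg.2 hex) (sub_nonneg.2 hx1)]
  have h5 : 38 / 40 * (x / 2) * Real.exp x ≤ Z r * Real.exp x := by nlinarith only [h2, h1, h4]
  have h6 := le_of_mul_le_mul_right h5 hep
  rw [hx] at h6
  linarith only [hx0, h6, hr.1]

/-- oscillation of a function whose derivative is `O((ρ-a)^{-1/2})` -/
theorem U_osc {U U1 : ℝ → ℝ} {a b K : ℝ} (hK : 0 ≤ K)
    (hU : ∀ r ∈ Icc a b, HasDerivAt U (U1 r) r)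
    (hb : ∀ r ∈ Ioc a b, |U1 r| * Real.sqrt (r - a) ≤ K) {r : ℝ} (hr : r ∈ Icc a b) :
    |U r - U a| ≤ 2 * K * Real.sqrt (r - a) := by
  have hsq : ∀ r ∈ Ioo a b, HasDerivAt (fun r => 2 * K * Real.sqrt (r - a))
      (K / Real.sqrt (r - a)) r := by
    intro r hr
    have h0 : r - a ≠ 0 := by linarith only [hr, hr.1]
    have h1 := (((hasDerivAt_id r).sub_const a).sqrt h0).const_mul (2 * K)
    refine h1.congr_deriv ?_
    have : Real.sqrt (r - a) ≠ 0 := (Real.sqrt_pos.2 (by linarith only [hr, hr.1])).ne'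
    simp only [id]
    field_simp
  have hc1 : ContinuousOn (fun r => 2 * K * Real.sqrt (r - a)) (Icc a b) := by fun_prop
  have hcU : ContinuousOn U (Icc a b) := fun r hr => (hU r hr).continuousAt.continuousWithinAt
  have hbd : ∀ r ∈ Ioo a b, |U1 r| ≤ K / Real.sqrt (r - a) := by
    intro r hr
    rw [le_div_iff₀ (Real.sqrt_pos.2 (by linarith only [hr, hr.1]))]
    exact hb r ⟨hr.1, hr.2.le⟩
  have m1 : MonotoneOn (fun r => 2 * K * Real.sqrt (r - a) - U r) (Icc a b) := by
    refine monotoneOn_of_deriv_nonneg (convex_Icc _ _) (hc1.sub hcU) ?_ ?_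
    · intro r hr
      rw [interior_Icc] at hr ⊢
      exact ((hsq r hr).sub (hU r (Ioo_subset_Icc_self hr))).differentiableAt.differentiableWithinAt
    · intro r hr
      rw [interior_Icc] at hr
      have h1 := ((hsq r hr).sub (hU r (Ioo_subset_Icc_self hr))).deriv
      have h2 : deriv (fun r => 2 * K * Real.sqrt (r - a) - U r) r =
        K / Real.sqrt (r - a) - U1 r := h1
      rw [h2]
      linarith only [hbd, hr, le_abs_self (U1 r), hbd r hr]
  have m2 : MonotoneOn (fun r => 2 * K * Real.sqrt (r - a) + U r) (Icc a b) := by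
    refine monotoneOn_of_deriv_nonneg (convex_Icc _ _) (hc1.add hcU) ?_ ?_
    · intro r hr
      rw [interior_Icc] at hr ⊢
      exact ((hsq r hr).add (hU r (Ioo_subset_Icc_self hr))).differentiableAt.differentiableWithinAt
    · intro r hr
      rw [interior_Icc] at hr
      have h1 := ((hsq r hr).add (hU r (Ioo_subset_Icc_self hr))).deriv
      have h2 : deriv (fun r => 2 * K * Real.sqrt (r - a) + U r) r =
        K / Real.sqrt (r - a) + U1 r := h1
      rw [h2]
      linarith only [hbd, hr, neg_abs_le (U1 r), hbd r hr]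
  have hab : a ≤ b := hr.1.trans hr.2
  have h1 := m1 ⟨le_rfl, hab⟩ hr hr.1
  have h2 := m2 ⟨le_rfl, hab⟩ hr hr.1
  simp only [sub_self, Real.sqrt_zero, mul_zero] at h1 h2
  rw [abs_le]
  constructor <;> linarith only [h2, h1]

/-- `tanh u` versus `u` -/
theorem tanh_bounds {u T₀ : ℝ} (hT : 0 < T₀) (hT1 : T₀ ≤ 1 / 10) (h1 : 98 / 100 * T₀ ≤ u)
    (h2 : u ≤ 102 / 100 * T₀) :
    9 / 10 * T₀ ≤ Real.tanh u ∧ Real.tanh u ≤ 11 / 10 * T₀ := by
  have hu : 0 < u := by nlinarith only [hT, h1]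
  have hu1 : u ≤ 1 / 5 := by linarith only [hT, hT1, h2]
  have hc := Real.cosh_pos u
  have hs : u ≤ Real.sinh u := Real.self_le_sinh_iff.2 hu.le
  have hexp : Real.cosh u ≤ 103 / 100 := by
    have h3 := Real.cosh_le_exp_half_sq u
    have h4 : u ^ 2 / 2 ≤ 1 / 50 := by nlinarith only [hT, hT1, h1, h2]
    have h5 : Real.exp (u ^ 2 / 2) ≤ Real.exp (1 / 50) := Real.exp_le_exp.2 h4
    have h6 : Real.exp (1 / 50 : ℝ) ≤ 103 / 100 := by
      have h7 := Real.add_one_le_exp (-(1 / 50) : ℝ)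
      have h8 : Real.exp (1 / 50 : ℝ) * Real.exp (-(1 / 50) : ℝ) = 1 := by
        rw [← Real.exp_add]; norm_num
      have h9 := Real.exp_pos (1 / 50 : ℝ)
      nlinarith only [hu, hc, h3, h4, h5, h7, h8]
    linarith only [h3, h5, h6]
  constructor
  · rw [Real.tanh_eq_sinh_div_cosh, le_div_iff₀ hc]
    nlinarith only [hT, h1, hs, hexp]
  · have h3 : Real.tanh u ≤ u := by
      rw [Real.tanh_eq_sinh_div_cosh, div_le_iff₀ hc]
      have hm : MonotoneOn (fun x => x * Real.cosh x - Real.sinh x) (Ici 0) := by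
        refine monotoneOn_of_deriv_nonneg (convex_Ici _) (by fun_prop) (by fun_prop) ?_
        intro x hx
        rw [interior_Ici] at hx
        have h5 : HasDerivAt (fun x => x * Real.cosh x - Real.sinh x)
            ((1 * Real.cosh x + x * Real.sinh x) - Real.cosh x) x :=
          ((hasDerivAt_id x).mul (Real.hasDerivAt_cosh x)).sub (Real.hasDerivAt_sinh x)
        rw [h5.deriv]
        have h6 : 0 ≤ Real.sinh x := Real.sinh_nonneg_iff.2 (le_of_lt hx)
        have h7 : 0 ≤ x * Real.sinh x := mul_nonneg (le_of_lt hx) h6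
        linarith only [h7]
      have h4 := hm (mem_Ici.2 le_rfl) (mem_Ici.2 hu.le) hu.le
      simp only [Real.cosh_zero, Real.sinh_zero, mul_one, sub_self] at h4
      linarith only [h4]
    linarith only [hT, h2, h3]

end Vale.Agent.P244.ST.SS
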