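import Vale.Agent.P244.ST.S.CV
import Vale.Agent.P244.ST.S.RGauge

/-!
# P244 / ST / S : dictionary between the r-gauge package and `Geo.lean`
-/

open Set MeasureTheory Filter Topology
open scoped ContDiff

namespace Vale.Agent.P244.ST.SS

open Vale.Agent.P244.ST.Apr

variable {w f : Fn} {T t : ℝ}

theorem deriv_uu (h : ConfSol 20 w f T) (ht : t ∈ Ico 0 T) {x : ℝ} (hx : x ∈ Ioo (-1 : ℝ) 1) :
    HasDerivAt (uu w f t) (RG.ux (w t) (f t) x) x :=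
  RG.uu_deriv (slice (h := w) h.smooth_w ht) (slice (h := f) h.smooth_f ht) hx

theorem deriv_rho (h : ConfSol 20 w f T) (ht : t ∈ Ico 0 T) {x : ℝ} (hx : x ∈ Ioo (-1 : ℝ) 1) :
    HasDerivAt (rho w f t) (RG.rhx (w t) (f t) x) x := by
  have h1 := RG.rh_deriv h ht hx
  have h2 : RG.rh 20 (w t) (f t) = rho w f t := by
    funext y
    exact CV.rh_eq y
  rwa [h2] at h1

theorem PP_eq_ux (h : ConfSol 20 w f T) (ht : t ∈ Ico 0 T) {x : ℝ} (hx : x ∈ Ioo (-1 : ℝ) 1) :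
    PP w f t x = -(sx x * Real.exp (-w t x)) * RG.ux (w t) (f t) x := by
  unfold PP Ds Dx
  rw [(deriv_uu h ht hx).deriv]

theorem rs_eq_rhx (h : ConfSol 20 w f T) (ht : t ∈ Ico 0 T) {x : ℝ} (hx : x ∈ Ioo (-1 : ℝ) 1) :
    rs w f t x = -(sx x * Real.exp (-w t x)) * RG.rhx (w t) (f t) x := by
  unfold rs Ds Dx
  rw [(deriv_rho h ht hx).deriv]

theorem sx_pos {x : ℝ} (hx : x ∈ Ioo (-1 : ℝ) 1) : 0 < sx x :=
  Real.sqrt_pos.2 (RG.one_sub_sq_pos hx)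

theorem rhx_neg (h : ConfSol 20 w f T) (hq : Qual w f T) :
    ∀ t ∈ Ico 0 T, ∀ x ∈ Ioo (0 : ℝ) 1, RG.rhx (w t) (f t) x < 0 := by
  intro t ht x hx
  have hx' : x ∈ Ioo (-1 : ℝ) 1 := ⟨by linarith only [hx, hx.1], hx.2⟩
  have h1 := hq.rs_pos t ht x hx
  rw [rs_eq_rhx h ht hx'] at h1
  have h2 : 0 < sx x * Real.exp (-w t x) := mul_pos (sx_pos hx') (Real.exp_pos _)
  by_contra hc
  push Not at hc
  nlinarith only [h1, h2, hc, mul_nonneg h2.le hc]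

/-- the r-gauge package of a solution -/
theorem exists_rsol (h : ConfSol 20 w f T) (hq : Qual w f T) (hT : 0 < T) :
    ∃ X U U1 U2 Z R : ℝ → ℝ → ℝ, RG.RSol 20 w f T X U U1 U2 Z R :=
  RG.s8 20 (by norm_num) T hT w f h (rhx_neg h hq)

theorem ux_div_rhx (h : ConfSol 20 w f T) (ht : t ∈ Ico 0 T) {x : ℝ} (hx : x ∈ Ioo (-1 : ℝ) 1) :
    RG.ux (w t) (f t) x / RG.rhx (w t) (f t) x = PP w f t x / rs w f t x := by
  rw [PP_eq_ux h ht hx, rs_eq_rhx h ht hx]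
  have h2 : -(sx x * Real.exp (-w t x)) ≠ 0 :=
    neg_ne_zero.2 (mul_pos (sx_pos hx) (Real.exp_pos _)).ne'
  rw [mul_div_mul_left _ _ h2]

theorem rgZZ_eq (h : ConfSol 20 w f T) (ht : t ∈ Ico 0 T) {x : ℝ} (hx : x ∈ Ioo (-1 : ℝ) 1) :
    RG.ZZ 20 (w t) (f t) x = ZZ w f t x := by
  have h1 := RG.one_sub_sq_pos hx
  unfold ZZ
  rw [rs_eq_rhx h ht hx]
  have h2 : rr w f t x ^ 2 = Real.exp (f t x + w t x) * Real.sqrt (1 - x ^ 2) / RG.ze 20 := by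
    have h3 := RG.exp_rh (p := 20) (w := w t) (f := f t) hx (by norm_num)
    rw [CV.rh_eq] at h3
    rw [← h3]
    unfold rr
    rw [← Real.exp_nat_mul]
    norm_num
  rw [h2]
  unfold RG.ZZ sx
  have hs : Real.sqrt (1 - x ^ 2) ^ 2 = 1 - x ^ 2 := Real.sq_sqrt h1.le
  have he : Real.exp (f t x - w t x) = Real.exp (f t x + w t x) * Real.exp (-w t x) ^ 2 := by
    rw [← Real.exp_nat_mul, ← Real.exp_add]
    congr 1
    push_cast
    ring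
  rw [he]
  have hz : RG.ze 20 ≠ 0 := (RG.ze_pos (by norm_num)).ne'
  field_simp

variable {X U U1 U2 Z R : ℝ → ℝ → ℝ}

theorem rho_lt (hR : RG.RSol 20 w f T X U U1 U2 Z R) (ht : t ∈ Ico 0 T) {x : ℝ}
    (hx : x ∈ Ioo (0 : ℝ) 1) : (t, rho w f t x) ∈ RG.reg 20 w f (Ico 0 T) := by
  obtain ⟨h1, h2⟩ := hR.X_inv t ht x hx
  rw [CV.rh_eq] at h1
  exact ⟨ht, h1⟩

theorem X_rho (hR : RG.RSol 20 w f T X U U1 U2 Z R) (ht : t ∈ Ico 0 T) {x : ℝ}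
    (hx : x ∈ Ioo (0 : ℝ) 1) : X t (rho w f t x) = x := by
  obtain ⟨h1, h2⟩ := hR.X_inv t ht x hx
  rwa [CV.rh_eq] at h2

/-- inverse direction: the point with `log r = ρ` -/
theorem X_spec (hR : RG.RSol 20 w f T X U U1 U2 Z R) (ht : t ∈ Ico 0 T) {ρ : ℝ}
    (hρ : ρ < rho w f t 0) : X t ρ ∈ Ioo (0 : ℝ) 1 ∧ rho w f t (X t ρ) = ρ := by
  have h1 : (t, ρ) ∈ RG.reg 20 w f (Ico 0 T) := ⟨ht, by rw [CV.rh_eq]; exact hρ⟩
  have h2 := hR.X_mem _ h1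
  simp only at h2
  rw [CV.rh_eq] at h2
  exact h2

theorem mem_reg (ht : t ∈ Ico 0 T) {ρ : ℝ} (hρ : ρ < rho w f t 0) :
    (t, ρ) ∈ RG.reg 20 w f (Ico 0 T) := ⟨ht, by rw [CV.rh_eq]; exact hρ⟩

theorem U1_rho (h : ConfSol 20 w f T) (hR : RG.RSol 20 w f T X U U1 U2 Z R) (ht : t ∈ Ico 0 T)
    {x : ℝ} (hx : x ∈ Ioo (0 : ℝ) 1) : U1 t (rho w f t x) = PP w f t x / rs w f t x := by
  have h1 := hR.U1_eq _ (rho_lt hR ht hx)
  simp only at h1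
  rw [X_rho hR ht hx] at h1
  rw [h1, ux_div_rhx h ht ⟨by linarith only [hx, hx.1], hx.2⟩]

theorem Z_rho (h : ConfSol 20 w f T) (hR : RG.RSol 20 w f T X U U1 U2 Z R) (ht : t ∈ Ico 0 T)
    {x : ℝ} (hx : x ∈ Ioo (0 : ℝ) 1) : Z t (rho w f t x) = ZZ w f t x := by
  have h1 := hR.Z_eq _ (rho_lt hR ht hx)
  simp only at h1
  rw [X_rho hR ht hx] at h1
  rw [h1, rgZZ_eq h ht ⟨by linarith [hx.1], hx.2⟩]

theorem R_rho (hR : RG.RSol 20 w f T X U U1 U2 Z R) (ht : t ∈ Ico 0 T)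
    {x : ℝ} (hx : x ∈ Ioo (0 : ℝ) 1) : R t (rho w f t x) = scal 20 (w t) (f t) x := by
  have h1 := hR.R_eq _ (rho_lt hR ht hx)
  simp only at h1
  rw [X_rho hR ht hx] at h1
  exact h1

/-- `κ` satisfies the standing assumption -/
theorem kkap : KK kap := by
  have h : Real.sqrt 1209 ^ 2 = 1209 := Real.sq_sqrt (by norm_num)
  have h1 : Real.sqrt 1209 < 34.7708 := by
    rw [Real.sqrt_lt' (by norm_num)]; norm_num
  have h2 : 34.7706 < Real.sqrt 1209 := by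
    rw [Real.lt_sqrt (by norm_num)]; norm_num
  refine ⟨?_, ?_, ?_⟩
  · unfold kap
    linear_combination (1 / 4) * h
  · unfold kap; linarith only [h1, h2]
  · unfold kap; linarith only [h1, h2]

/-- extension of a lower bound of the equator radius to slightly later times -/
theorem region_ext (h : ConfSol 20 w f T) {t₁ c : ℝ} (ht₁ : t₁ ∈ Ico 0 T)
    (hc : ∀ t ∈ Icc 0 t₁, c < rr w f t 0) :
    ∃ t' ∈ Ioo t₁ T, ∀ t ∈ Icc 0 t', c < rr w f t 0 := by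
  have hcont : ContinuousOn (fun t => rr w f t 0) (Ico 0 T) := by
    have h1 : ContinuousOn (fun t => w t 0) (Ico 0 T) :=
      h.smooth_w.continuousOn.comp (f := fun t : ℝ => ((t, 0) : ℝ × ℝ)) (by fun_prop)
        (fun t ht => ⟨ht, by norm_num⟩)
    have h2 : ContinuousOn (fun t => f t 0) (Ico 0 T) :=
      h.smooth_f.continuousOn.comp (f := fun t : ℝ => ((t, 0) : ℝ × ℝ)) (by fun_prop)
        (fun t ht => ⟨ht, by norm_num⟩)
    unfold rr rho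
    fun_prop
  have h1 := hcont t₁ ht₁
  have h2 : ∀ᶠ t in 𝓝[Ico 0 T] t₁, c < rr w f t 0 :=
    h1.eventually_const_lt (hc t₁ ⟨ht₁.1, le_rfl⟩)
  rw [eventually_nhdsWithin_iff, Metric.eventually_nhds_iff] at h2
  obtain ⟨e, he, h2⟩ := h2
  refine ⟨min (t₁ + e / 2) ((t₁ + T) / 2), ⟨lt_min (by linarith only [he]) (by linarith only [ht₁, ht₁.2]),
    lt_of_le_of_lt (min_le_right _ _) (by linarith only [ht₁, ht₁.2])⟩, ?_⟩
  intro t ht
  rcases le_or_gt t t₁ with h3 | h3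
  · exact hc t ⟨ht.1, h3⟩
  · refine h2 ?_ ⟨ht.1, lt_of_le_of_lt ht.2 (lt_of_le_of_lt (min_le_right _ _)
      (by linarith only [ht₁, ht₁.2]))⟩
    rw [Real.dist_eq, abs_of_pos (by linarith only [h3])]
    have := ht.2.trans (min_le_left _ _)
    linarith only [h3, this]

end Vale.Agent.P244.ST.SS
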