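import Vale.Agent.P244.ST.S.Bd1
import Vale.Agent.P244.ST.S.Dic

/-!
# P244 / ST / S : the boundary value at `y = ρ₀`, oscillation near `y = ρ₀`
-/

open Set MeasureTheory Filter Topology
open scoped ContDiff

namespace Vale.Agent.P244.ST.SS

/-- smallness conditions used for `Bd` -/
structure BdPar (q : Par) : Prop where
  rho0 : 0 < q.rho0
  rho0' : q.rho0 ≤ 1 / 2
  MU : 0 < q.MU
  MP : 0 < q.MP
  GR : 0 < q.GR
  sg : 0 < q.sg
  sg' : q.sg ≤ 1 / 40
  d0 : 0 < q.d0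
  d0' : q.d0 ≤ q.rho0 / 2
  N : 100 ≤ q.N
  eps : 0 < q.eps
  eps1 : q.eps ≤ 1
  epsMU : q.eps * q.MU ≤ 1
  epsGR : q.eps * (q.GR * q.MU ^ 2) ≤ 1
  epsT : q.eps * q.rho0 ^ (-kap) ≤ 1 / 10

theorem lam3_pos : 0 < lam 3 := by
  have := kkap.hi
  unfold lam
  push_cast
  linarith only [this]

theorem A_le_eps {q : Par} (he : 0 < q.eps) {t : ℝ} (h0 : 0 ≤ t) (h1 : t < 1) :
    q.A t ≤ q.eps := by
  unfold Par.A
  have h2 : tau t ^ lam 3 ≤ 1 := by
    apply Real.rpow_le_one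
    · unfold tau; linarith only [h1]
    · unfold tau; linarith only [h0]
    · exact lam3_pos.le
  nlinarith only [he, h2]

theorem cosh_sub_one_le {u : ℝ} (hu : |u| ≤ 1) : Real.cosh u - 1 ≤ u ^ 2 := by
  have h1 := Real.cosh_le_exp_half_sq u
  have h2 : u ^ 2 ≤ 1 := by
    rw [← sq_abs]
    nlinarith only [hu, abs_nonneg u]
  have h3 : Real.exp (u ^ 2 / 2) ≤ 1 + u ^ 2 := by
    have h4 : |u ^ 2 / 2| ≤ 1 := by
      rw [abs_of_nonneg (by positivity)]
      linarith only [h2]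
    have h5 := Real.abs_exp_sub_one_sub_id_le h4
    have h6 := (abs_le.1 h5).2
    nlinarith only [h2, h6, sq_nonneg u]
  linarith only [h1, h3]

/-- the barrier `RB` near `y = ρ₀` -/
theorem RB_small {q : Par} (P : BdPar q) {t : ℝ} (h0 : 0 ≤ t) (h1 : t < 1) {r u : ℝ}
    (hr0 : 0 ≤ r) (hr : r ^ 2 ≤ 1) (hu : |u| ≤ q.MU * q.A t) :
    r ^ 2 * q.RB t r u ≤ 40 := by
  have hτ : 0 < tau t := by unfold tau; linarith only [h1]
  have hτ1 : tau t ≤ 1 := by unfold tau; linarith only [h0]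
  have hA := A_le_eps P.eps h0 h1
  have hA0 := CV.A_pos P.eps hτ
  have hu1 : |u| ≤ 1 := by
    refine hu.trans ?_
    have := P.epsMU
    nlinarith only [P, hA, this, P.MU]
  have hcosh := cosh_sub_one_le hu1
  have hcosh0 : 0 ≤ Real.cosh u - 1 := sub_nonneg.2 (Real.one_le_cosh u)
  have hk := kkap
  have hgam : 0 < ST.gam := by
    unfold ST.gam ST.aa
    have := lam3_pos
    linarith only [this]
  -- powers of tau
  have h2 : (tau t + r ^ 2 / 100) ^ (-ST.gam) ≤ tau t ^ (-ST.gam) := by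
    apply Real.rpow_le_rpow_of_nonpos hτ
    · linarith only [sq_nonneg r]
    · linarith only [hgam]
  have h20 : 0 ≤ (tau t + r ^ 2 / 100) ^ (-ST.gam) := Real.rpow_nonneg (by positivity) _
  have h3 : u ^ 2 ≤ q.MU ^ 2 * (q.eps ^ 2 * tau t ^ (2 * lam 3)) := by
    rw [← sq_abs]
    refine (pow_le_pow_left₀ (abs_nonneg _) hu 2).trans (le_of_eq ?_)
    unfold Par.A
    rw [mul_pow, mul_pow, ← Real.rpow_natCast (tau t ^ lam 3) 2, ← Real.rpow_mul hτ.le]
    rw [mul_comm (lam 3)]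
    norm_num
  have h4 : tau t ^ (2 * lam 3) * tau t ^ (-ST.gam) ≤ 1 := by
    rw [← Real.rpow_add hτ]
    apply Real.rpow_le_one hτ.le hτ1
    unfold ST.gam ST.aa lam
    have := hk.hi
    push_cast
    linarith only [this]
  have h5 : q.eps ^ 2 * q.eps ^ (-(2 * ST.aa)) ≤ q.eps := by
    rw [← Real.rpow_natCast q.eps 2, ← Real.rpow_add P.eps]
    calc q.eps ^ (((2 : ℕ) : ℝ) + -(2 * ST.aa)) ≤ q.eps ^ (1 : ℝ) := by
          apply Real.rpow_le_rpow_of_exponent_ge P.eps P.eps1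
          unfold ST.aa
          norm_num
      _ = q.eps := Real.rpow_one _
  have h50 : 0 ≤ q.eps ^ (-(2 * ST.aa)) := Real.rpow_nonneg P.eps.le _
  have hterm : q.GR * r ^ 2 * (Real.cosh u - 1) * q.eps ^ (-(2 * ST.aa)) *
      (tau t + r ^ 2 / 100) ^ (-ST.gam) ≤ 1 := by
    have hGR := P.GR.le
    have hτg : 0 ≤ tau t ^ (-ST.gam) := Real.rpow_nonneg hτ.le _
    have hτl : 0 ≤ tau t ^ (2 * lam 3) := Real.rpow_nonneg hτ.le _
    calc q.GR * r ^ 2 * (Real.cosh u - 1) * q.eps ^ (-(2 * ST.aa)) *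
          (tau t + r ^ 2 / 100) ^ (-ST.gam)
        ≤ q.GR * 1 * (q.MU ^ 2 * (q.eps ^ 2 * tau t ^ (2 * lam 3))) * q.eps ^ (-(2 * ST.aa)) *
          tau t ^ (-ST.gam) := by
          have : Real.cosh u - 1 ≤ q.MU ^ 2 * (q.eps ^ 2 * tau t ^ (2 * lam 3)) :=
            hcosh.trans h3
          gcongr
      _ = (q.GR * q.MU ^ 2) * (q.eps ^ 2 * q.eps ^ (-(2 * ST.aa))) *
          (tau t ^ (2 * lam 3) * tau t ^ (-ST.gam)) := by ring
      _ ≤ (q.GR * q.MU ^ 2) * q.eps * 1 := by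
          have : 0 ≤ q.GR * q.MU ^ 2 := by positivity
          have := P.eps.le
          have : 0 ≤ q.GR * q.MU ^ 2 * q.eps := by positivity
          gcongr
      _ ≤ 1 := by
          have := P.epsGR
          linarith only [this]
  have heta : q.eta ≤ 1 := by
    unfold Par.eta
    rw [div_le_one (by have := P.N; positivity)]
    have := P.N
    nlinarith only [this]
  have heta0 : 0 ≤ q.eta := by unfold Par.eta; positivity
  have hRB : q.RB t r u ≤ 3 := by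
    unfold Par.RB
    nlinarith only [h0, h1, hterm, heta]
  nlinarith only [hr, hRB, sq_nonneg r]

variable {q : Par} {g : ℝ → ℝ} {w f : Fn} {T t : ℝ} {X U U1 U2 Z R : ℝ → ℝ → ℝ}

/-- oscillation of `U` to the right of the point `y = ρ₀` -/
theorem bd_osc (P : BdPar q) (h : ConfSol 20 w f T) (hq : Qual w f T) (hT1 : T ≤ 1)
    (ht : t ∈ Ico 0 T) (hR : RG.RSol 20 w f T X U U1 U2 Z R)
    (hb : ∀ x ∈ Ico (0 : ℝ) 1, BootAt q g w f t x) (h0 : q.N / 4 ≤ rr w f t 0)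
    (hsc : ∀ x ∈ Ioo (0 : ℝ) 1, RR w f t x = scal 20 (w t) (f t) x)
    {x₀ : ℝ} (hy₀ : yv w f t x₀ = q.rho0) {ρ : ℝ}
    (hρ : ρ ∈ Icc (rho w f t x₀) (rho w f t x₀ + 1 / 40)) :
    ρ < rho w f t 0 ∧ |U t ρ| ≤ q.MU * q.A t ∧
    |U t ρ - U t (rho w f t x₀)| ≤ 2 * (2 * q.rho0 * q.MP * q.A t) *
      Real.sqrt (ρ - rho w f t x₀) := by
  set a := rho w f t x₀ with ha
  have hτ : 0 < tau t := CV.tau_pos hT1 ht
  have hτ1 : tau t ≤ 1 := by unfold tau; linarith only [ht, ht.1]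
  have hsτ : 0 < Real.sqrt (tau t) := Real.sqrt_pos.2 hτ
  have hsτ1 : Real.sqrt (tau t) ≤ 1 := by
    rw [Real.sqrt_le_left (by norm_num)]; linarith only [hτ1]
  have hA0 := CV.A_pos P.eps hτ
  have hR0 := P.rho0
  have hR1 := P.rho0'
  have hexp40 : Real.exp (1 / 40 : ℝ) ≤ 2 := by
    have h7 := Real.add_one_le_exp (-(1 / 40) : ℝ)
    have h8 : Real.exp (1 / 40 : ℝ) * Real.exp (-(1 / 40) : ℝ) = 1 := by
      rw [← Real.exp_add]; norm_num
    have h9 := Real.exp_pos (1 / 40 : ℝ)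
    nlinarith only [hR0, hR1, h7, h8, h9]
  -- the radius at `x₀`
  have hra : Real.exp a = q.rho0 * Real.sqrt (tau t) := by
    have : yv w f t x₀ = Real.exp a / Real.sqrt (tau t) := rfl
    rw [hy₀] at this
    rw [this, div_mul_cancel₀ _ hsτ.ne']
  have hexpρ : ∀ r ∈ Icc a (a + 1 / 40), Real.exp r ≤ 2 * q.rho0 * Real.sqrt (tau t) := by
    intro r hr
    have h1 : Real.exp r ≤ Real.exp a * Real.exp (1 / 40) := by
      rw [← Real.exp_add]
      exact Real.exp_le_exp.2 hr.2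
    rw [hra] at h1
    have : 0 ≤ q.rho0 * Real.sqrt (tau t) := by positivity
    nlinarith only [hR0, hR1, hexp40, h1, this]
  have hlt : ∀ r ∈ Icc a (a + 1 / 40), r < rho w f t 0 := by
    intro r hr
    rw [← Real.exp_lt_exp]
    have h1 := hexpρ r hr
    have h2 : Real.exp (rho w f t 0) = rr w f t 0 := rfl
    rw [h2]
    have := P.N
    have h3 : 2 * q.rho0 * Real.sqrt (tau t) ≤ 1 := by nlinarith only [hsτ, hsτ1, hR1]
    linarith only [h0, hR0, hR1, h1, this, h3]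
  -- the points
  have hpt : ∀ r ∈ Icc a (a + 1 / 40), X t r ∈ Ioo (0 : ℝ) 1 ∧ rho w f t (X t r) = r :=
    fun r hr => X_spec hR ht (hlt r hr)
  have hyv : ∀ r ∈ Icc a (a + 1 / 40), q.rho0 ≤ yv w f t (X t r) ∧
      yv w f t (X t r) ≤ 2 * q.rho0 := by
    intro r hr
    have h1 : yv w f t (X t r) = Real.exp r / Real.sqrt (tau t) := by
      unfold yv rr
      rw [(hpt r hr).2]
    rw [h1]
    constructor
    · rw [le_div_iff₀ hsτ, ← hra]
      exact Real.exp_le_exp.2 hr.1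
    · rw [div_le_iff₀ hsτ]
      exact hexpρ r hr
  have hb4 : ∀ r ∈ Icc a (a + 1 / 40), |uu w f t (X t r)| ≤ q.MU * q.A t ∧
      |PP w f t (X t r)| ≤ q.MP * q.A t / Real.sqrt (tau t) := by
    intro r hr
    have hx := (hpt r hr).1
    obtain ⟨h1, h2⟩ := hyv r hr
    obtain ⟨h3, h4, -⟩ := (hb _ ⟨hx.1.le, hx.2⟩).b4 h1 (by linarith only [hR0, hR1, h2])
    exact ⟨h3, h4⟩
  have hU : ∀ r ∈ Icc a (a + 1 / 40), U t r = uu w f t (X t r) := fun r hr => by
    have := CV.U_zt hR ht (hpt r hr).1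
    rwa [(hpt r hr).2] at this
  have hU1 : ∀ r ∈ Icc a (a + 1 / 40), U1 t r = PP w f t (X t r) / rs w f t (X t r) :=
    fun r hr => by
      have := U1_rho h hR ht (hpt r hr).1
      rwa [(hpt r hr).2] at this
  have hZ : ∀ r ∈ Icc a (a + 1 / 40), Z t r = ZZ w f t (X t r) := fun r hr => by
    have := Z_rho h hR ht (hpt r hr).1
    rwa [(hpt r hr).2] at this
  have hRr : ∀ r ∈ Icc a (a + 1 / 40), R t r = RR w f t (X t r) := fun r hr => by
    have := R_rho hR ht (hpt r hr).1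
    rw [(hpt r hr).2] at this
    rw [this, hsc _ (hpt r hr).1]
  have hU1' : ∀ r ∈ Icc a (a + 1 / 40), |U1 t r| ≤ 2 := by
    intro r hr
    have h1 := hq.G_le t ht _ (hpt r hr).1
    unfold GG at h1
    rw [abs_neg] at h1
    rw [hU1 r hr]
    exact h1
  have hZd : ∀ r ∈ Icc a (a + 1 / 40), HasDerivAt (Z t)
      (39 * (Real.cosh (U t r) - Z t r) - Z t r * U1 t r ^ 2 / 4 -
        Real.exp (2 * r) * R t r / 40) r := by
    intro r hr
    have h1 := hR.dZ (t, r) (mem_reg ht (hlt r hr))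
    refine h1.congr_deriv ?_
    push_cast
    ring
  have hE : ∀ r ∈ Icc a (a + 1 / 40), Real.exp (2 * r) * R t r / 40 ≤ 1 := by
    intro r hr
    have hx := (hpt r hr).1
    have h3 := (hb _ ⟨hx.1.le, hx.2⟩).b3
    have h4 : rr w f t (X t r) = Real.exp r := by
      unfold rr
      rw [(hpt r hr).2]
    have h5 := hexpρ r hr
    have h6 : Real.exp r ≤ 1 := by nlinarith only [hsτ, hsτ1, hR1, h5]
    have h7 : Real.exp r ^ 2 ≤ 1 := by nlinarith only [hsτ, hsτ1, hR0, hR1, h5, h6, Real.exp_pos r]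
    have h8 := RB_small P ht.1 (lt_of_lt_of_le ht.2 hT1) (Real.exp_pos r).le h7 (hb4 r hr).1
    rw [hRr r hr]
    rw [h4] at h3
    have h9 : Real.exp (2 * r) = Real.exp r ^ 2 := by
      rw [← Real.exp_nat_mul]; norm_num
    rw [h9]
    have h10 : Real.exp r ^ 2 * RR w f t (X t r) ≤ Real.exp r ^ 2 *
      q.RB t (Real.exp r) (uu w f t (X t r)) := by gcongr
    linarith only [h8, h10]
  have hZ0 : ∀ r ∈ Icc a (a + 1 / 40), 0 ≤ Z t r := fun r hr =>
    (hR.Z_pos (t, r) (mem_reg ht (hlt r hr))).le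
  have hZlow : ∀ r ∈ Icc a (a + 1 / 40), r - a ≤ Z t r := fun r hr =>
    Z_low hZd hZ0 hU1' hE hr
  have hder : ∀ r ∈ Icc a (a + 1 / 40), HasDerivAt (U t) (U1 t r) r := fun r hr =>
    hR.d1 (t, r) (mem_reg ht (hlt r hr))
  have hK0 : 0 ≤ 2 * q.rho0 * q.MP * q.A t := by
    have := P.MP
    positivity
  have hbd : ∀ r ∈ Ioc a (a + 1 / 40), |U1 t r| * Real.sqrt (r - a) ≤
      2 * q.rho0 * q.MP * q.A t := by
    intro r hr
    have hr' := Ioc_subset_Icc_self hr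
    have h1 : Real.sqrt (r - a) ≤ Real.sqrt (Z t r) := Real.sqrt_le_sqrt (hZlow r hr')
    have hrs := hq.rs_pos t ht _ (hpt r hr').1
    have hrr : 0 < rr w f t (X t r) := Real.exp_pos _
    have h2 : |U1 t r| * Real.sqrt (Z t r) = rr w f t (X t r) * |PP w f t (X t r)| := by
      rw [hU1 r hr', hZ r hr', abs_div, abs_of_pos hrs]
      have : ZZ w f t (X t r) = (rr w f t (X t r) * rs w f t (X t r)) ^ 2 := by
        unfold ZZ
        ring
      rw [this, Real.sqrt_sq (by positivity)]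
      field_simp
    have h3 : |U1 t r| * Real.sqrt (r - a) ≤ |U1 t r| * Real.sqrt (Z t r) := by gcongr
    refine h3.trans ?_
    rw [h2]
    have h4 : rr w f t (X t r) ≤ 2 * q.rho0 * Real.sqrt (tau t) := by
      have : rr w f t (X t r) = Real.exp r := by
        unfold rr
        rw [(hpt r hr').2]
      rw [this]
      exact hexpρ r hr'
    have h5 := (hb4 r hr').2
    calc rr w f t (X t r) * |PP w f t (X t r)|
        ≤ (2 * q.rho0 * Real.sqrt (tau t)) * (q.MP * q.A t / Real.sqrt (tau t)) := by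
          gcongr
      _ = 2 * q.rho0 * q.MP * q.A t := by
          field_simp
  refine ⟨hlt ρ hρ, ?_, U_osc hK0 hder hbd hρ⟩
  rw [hU ρ hρ]
  exact (hb4 ρ hρ).1

end Vale.Agent.P244.ST.SS
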