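import Vale.Agent.P244.ST.S.SFin

/-! P244, block S, CV (helper861): the `x`-integrals of `Geo.lean` are the `z`-integrals. -/

open Set MeasureTheory Polynomial
open scoped Topology ContDiff

namespace Vale.Agent.P244.ST.SS.CV

theorem aa_pos : 0 < SS.aa kap := by
  unfold SS.aa kap
  have : 0 < Real.sqrt 1209 := Real.sqrt_pos.mpr (by norm_num)
  linarith only [this]

theorem aa_gt : -1 < SS.aa kap := by linarith only [aa_pos]

/-- the weights -/
theorem weight {y : ℝ} (hy : 0 < y) :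
    y ^ (-kap) * y ^ (-kap) * Wt y =
      (4 : ℝ) ^ (20 - kap) * ((y ^ 2 / 4) ^ SS.aa kap * Real.exp (-(y ^ 2 / 4))) * (y / 2) := by
  have h1 : (y ^ 2 / 4 : ℝ) ^ SS.aa kap = y ^ (2 * SS.aa kap) / 4 ^ SS.aa kap := by
    rw [Real.div_rpow (by positivity) (by norm_num), ← Real.rpow_natCast y 2, ← Real.rpow_mul hy.le]
    norm_num
  have h2 : (4 : ℝ) ^ (20 - kap) = 2 * 4 ^ SS.aa kap := by
    have : (20 - kap : ℝ) = SS.aa kap + 1 / 2 := by unfold SS.aa; ring
    rw [this, Real.rpow_add (by norm_num), mul_comm]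
    congr 1
    rw [show (4 : ℝ) = 2 ^ (2 : ℝ) by norm_num, ← Real.rpow_mul (by norm_num)]
    norm_num
  have h3 : y ^ (-kap) * y ^ (-kap) * y ^ 40 = y ^ (2 * SS.aa kap) * y := by
    rw [← Real.rpow_natCast y 40, ← Real.rpow_add hy, ← Real.rpow_add hy,
      ← Real.rpow_add_one hy.ne']
    congr 1
    unfold SS.aa
    push_cast
    ring
  have h4 : (0 : ℝ) < 4 ^ SS.aa kap := Real.rpow_pos_of_pos (by norm_num) _
  unfold Wt
  rw [h1, h2, show (-y ^ 2 / 4 : ℝ) = -(y ^ 2 / 4) by ring]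
  calc y ^ (-kap) * y ^ (-kap) * (y ^ 40 * Real.exp (-(y ^ 2 / 4)))
      = (y ^ (-kap) * y ^ (-kap) * y ^ 40) * Real.exp (-(y ^ 2 / 4)) := by ring
    _ = (y ^ (2 * SS.aa kap) * y) * Real.exp (-(y ^ 2 / 4)) := by rw [h3]
    _ = _ := by field_simp

theorem ll_eq (i : ℕ) (z : ℝ) : ll i z = (Lag.ell (SS.aa kap) i).eval z := by
  unfold ll Lag.ell
  rw [eval_finsetSum]
  refine Finset.sum_congr rfl fun j _ => ?_
  rw [eval_monomial]
  unfold Lag.cf
  have : ∏ l ∈ Finset.range j, (DD / 2 + (l : ℝ)) = ∏ l ∈ Finset.range j, (SS.aa kap + 1 + (l : ℝ)) := by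
    refine Finset.prod_congr rfl fun l _ => ?_
    unfold DD SS.aa
    ring
  rw [this]

theorem xi_stp (x : ℝ) : xi x = stp (Real.sqrt x) := rfl

section

variable {w f : Fn} {T t : ℝ}

theorem slice_smooth (hw : ContDiffOn ℝ ∞ (fun z : ℝ × ℝ => w z.1 z.2) (Ico 0 T ×ˢ Icc (-1) 1))
    (ht : t ∈ Ico 0 T) : ContDiffOn ℝ ∞ (w t) (Icc (-1) 1) :=
  hw.comp (f := fun x : ℝ => (t, x)) (by fun_prop) fun _ hx => ⟨ht, hx⟩

theorem slice_diff (hw : ContDiffOn ℝ ∞ (fun z : ℝ × ℝ => w z.1 z.2) (Ico 0 T ×ˢ Icc (-1) 1))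
    (ht : t ∈ Ico 0 T) {x : ℝ} (hx : x ∈ Ioo (0 : ℝ) 1) : DifferentiableAt ℝ (w t) x :=
  ((slice_smooth hw ht).contDiffAt (Icc_mem_nhds (by linarith only [hx, hx.1]) hx.2)).differentiableAt
    (by simp)

theorem rho_diff (h : ConfSol 20 w f T) (ht : t ∈ Ico 0 T) {x : ℝ} (hx : x ∈ Ioo (0 : ℝ) 1) :
    DifferentiableAt ℝ (rho w f t) x := by
  have h1 := slice_diff h.smooth_w ht hx
  have h2 := slice_diff h.smooth_f ht hx
  have h3 : DifferentiableAt ℝ (fun x : ℝ => Real.log (1 - x ^ 2)) x := by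
    apply DifferentiableAt.log (by fun_prop)
    have := hx.1
    have := hx.2
    nlinarith
  unfold rho
  exact ((((h2.add h1).add (h3.div_const 2)).sub_const _).div_const 2)

theorem rho_deriv_neg (hq : Qual w f T) (ht : t ∈ Ico 0 T) {x : ℝ} (hx : x ∈ Ioo (0 : ℝ) 1) :
    deriv (rho w f t) x < 0 := by
  have h := hq.rs_pos t ht x hx
  unfold rs Ds Dx at h
  have h1 : 0 < sx x * Real.exp (-w t x) := by
    refine mul_pos (Real.sqrt_pos.mpr ?_) (Real.exp_pos _)
    have := hx.1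
    have := hx.2
    nlinarith
  by_contra hc
  rw [not_lt] at hc
  nlinarith only [h, h1, hc, mul_nonneg h1.le hc]

theorem yv_hasDeriv (h : ConfSol 20 w f T) (ht : t ∈ Ico 0 T) {x : ℝ} (hx : x ∈ Ioo (0 : ℝ) 1) :
    HasDerivAt (yv w f t) (deriv (yv w f t) x) x := by
  refine DifferentiableAt.hasDerivAt ?_
  unfold yv rr
  exact ((rho_diff h ht hx).exp).div_const _

theorem yv_deriv_nonpos (h : ConfSol 20 w f T) (hq : Qual w f T) (ht : t ∈ Ico 0 T) {x : ℝ}
    (hx : x ∈ Ioo (0 : ℝ) 1) : deriv (yv w f t) x ≤ 0 := by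
  have h1 : HasDerivAt (yv w f t)
      (Real.exp (rho w f t x) * deriv (rho w f t) x / Real.sqrt (tau t)) x :=
    ((rho_diff h ht hx).hasDerivAt.exp).div_const _
  rw [h1.deriv]
  have h2 := rho_deriv_neg hq ht hx
  have h3 := Real.sqrt_nonneg (tau t)
  apply div_nonpos_of_nonpos_of_nonneg _ h3
  exact mul_nonpos_of_nonneg_of_nonpos (Real.exp_pos _).le h2.le

theorem ze_eq : RG.ze 20 = zeta0 := by
  unfold RG.ze zeta0
  norm_num

theorem rh_eq (x : ℝ) : RG.rh 20 (w t) (f t) x = rho w f t x := by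
  unfold RG.rh rho
  rw [ze_eq]

variable {X U U1 U2 Z R : ℝ → ℝ → ℝ}

theorem tau_pos (hT1 : T ≤ 1) (ht : t ∈ Ico 0 T) : 0 < tau t := by
  unfold tau
  linarith only [hT1, ht, ht.2]

theorem log_four (hτ : 0 < tau t) (x : ℝ) :
    Real.log (yv w f t x ^ 2) = 2 * rho w f t x - Real.log (tau t) := by
  have hy : yv w f t x ^ 2 = Real.exp (2 * rho w f t x) / tau t := by
    unfold yv rr
    rw [div_pow, Real.sq_sqrt hτ.le, ← Real.exp_nat_mul]
    push_cast
    rfl
  rw [hy, Real.log_div (Real.exp_pos _).ne' hτ.ne', Real.log_exp]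

theorem yv_pos (hτ : 0 < tau t) (x : ℝ) : 0 < yv w f t x :=
  div_pos (Real.exp_pos _) (Real.sqrt_pos.mpr hτ)

/-- the map `x ↦ z` -/
noncomputable def zt (w f : Fn) (t x : ℝ) : ℝ := yv w f t x ^ 2 / 4

theorem zt_inj (hτ : 0 < tau t) (hR : RG.RSol 20 w f T X U U1 U2 Z R) (ht : t ∈ Ico 0 T) :
    InjOn (zt w f t) (Ioo 0 1) := by
  intro x hx x' hx' he
  have h1 : yv w f t x ^ 2 = yv w f t x' ^ 2 := by
    unfold zt at he
    linarith only [he]
  have h2 : rho w f t x = rho w f t x' := by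
    have := congrArg Real.log h1
    rw [log_four hτ, log_four hτ] at this
    linarith only [this]
  have h3 := (hR.X_inv t ht x hx).2
  have h4 := (hR.X_inv t ht x' hx').2
  rw [rh_eq] at h3 h4
  rw [← h3, ← h4, h2]

theorem zt_image (hτ : 0 < tau t) (hR : RG.RSol 20 w f T X U U1 U2 Z R) (ht : t ∈ Ico 0 T) :
    zt w f t '' Ioo 0 1 = Ioo 0 (zt w f t 0) := by
  ext z
  constructor
  · rintro ⟨x, hx, rfl⟩
    have h1 := (hR.X_inv t ht x hx).1
    rw [rh_eq, rh_eq] at h1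
    have h2 := yv_pos (w := w) (f := f) hτ x
    refine ⟨by unfold zt; positivity, ?_⟩
    unfold zt
    have h3 : yv w f t x < yv w f t 0 := by
      unfold yv rr
      exact div_lt_div_of_pos_right (Real.exp_lt_exp.mpr h1) (Real.sqrt_pos.mpr hτ)
    have h4 := pow_lt_pow_left₀ h3 h2.le (two_ne_zero)
    linarith only [h4]
  · rintro ⟨hz0, hz1⟩
    set ρ := (Real.log (4 * z) + Real.log (tau t)) / 2 with hρ
    have hy0 := yv_pos (w := w) (f := f) hτ 0
    have h1 : ρ < rho w f t 0 := by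
      have h2 : Real.log (4 * z) < Real.log (yv w f t 0 ^ 2) := by
        apply Real.log_lt_log (by linarith only [hz0])
        unfold zt at hz1
        linarith only [hz1]
      rw [log_four hτ] at h2
      rw [hρ]
      linarith only [h2]
    have h3 : (t, ρ) ∈ RG.reg 20 w f (Ico 0 T) := ⟨ht, by rw [rh_eq]; exact h1⟩
    obtain ⟨h4, h5⟩ := hR.X_mem (t, ρ) h3
    rw [rh_eq] at h5
    refine ⟨X t ρ, h4, ?_⟩
    have h6 := log_four (w := w) (f := f) hτ (X t ρ)
    have h5' : rho w f t (X t ρ) = ρ := h5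
    rw [h5', hρ] at h6
    have h7 : Real.log (yv w f t (X t ρ) ^ 2) = Real.log (4 * z) := by
      rw [h6]; ring
    have h8 := Real.log_injOn_pos (x₁ := yv w f t (X t ρ) ^ 2)
      (by have := yv_pos (w := w) (f := f) hτ (X t ρ); exact pow_pos this 2)
      (show (4 * z) ∈ Ioi (0 : ℝ) by rw [mem_Ioi]; linarith only [hz0]) h7
    unfold zt
    linarith only [h8]

/-- general change of variables -/
theorem cv_gen (h : ConfSol 20 w f T) (hq : Qual w f T) (hT1 : T ≤ 1)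
    (hR : RG.RSol 20 w f T X U U1 U2 Z R) (ht : t ∈ Ico 0 T) (G : ℝ → ℝ)
    (hG : ∀ z, zt w f t 0 ≤ z → G z = 0) (F : ℝ → ℝ)
    (hF : ∀ x ∈ Ioo (0 : ℝ) 1, F x = yv w f t x ^ (-kap) * yv w f t x ^ (-kap) *
      G (zt w f t x) * Wt (yv w f t x) * (-(deriv (yv w f t) x))) :
    ∫ x in (0 : ℝ)..1, F x = (4 : ℝ) ^ (20 - kap) * ∫ z, G z ∂(Lag.mu (SS.aa kap)) := by
  have hτ := tau_pos hT1 ht
  rw [intervalIntegral.integral_of_le zero_le_one, integral_Ioc_eq_integral_Ioo, Lag.integral_mu]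
  have e1 : ∫ z in Ioi 0, G z * (z ^ SS.aa kap * Real.exp (-z)) =
      ∫ z in Ioo 0 (zt w f t 0), G z * (z ^ SS.aa kap * Real.exp (-z)) := by
    refine setIntegral_eq_of_subset_of_forall_sdiff_eq_zero measurableSet_Ioi
      (fun z hz => hz.1) ?_
    rintro z ⟨hz0, hz1⟩
    rw [hG z, zero_mul]
    by_contra hc
    exact hz1 ⟨hz0, not_le.mp hc⟩
  have e2 : ∀ x ∈ Ioo (0 : ℝ) 1, HasDerivWithinAt (zt w f t)
      (yv w f t x * deriv (yv w f t) x / 2) (Ioo 0 1) x := by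
    intro x hx
    have h1 := ((yv_hasDeriv h ht hx).pow 2).div_const 4
    refine (h1.congr_deriv ?_).hasDerivWithinAt
    rw [show (2 - 1 : ℕ) = 1 from rfl, pow_one]
    push_cast
    ring
  rw [e1, ← zt_image hτ hR ht, integral_image_eq_integral_abs_deriv_smul measurableSet_Ioo e2
    (zt_inj hτ hR ht), ← integral_const_mul]
  refine setIntegral_congr_fun measurableSet_Ioo fun x hx => ?_
  simp only [smul_eq_mul]
  have hy := yv_pos (w := w) (f := f) hτ x
  have hd := yv_deriv_nonpos h hq ht hx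
  rw [hF x hx, abs_of_nonpos (by nlinarith only [hy, hd])]
  have hw := weight hy
  unfold zt
  calc yv w f t x ^ (-kap) * yv w f t x ^ (-kap) * G (yv w f t x ^ 2 / 4) * Wt (yv w f t x) *
        (-(deriv (yv w f t) x))
      = (yv w f t x ^ (-kap) * yv w f t x ^ (-kap) * Wt (yv w f t x)) *
          G (yv w f t x ^ 2 / 4) * (-(deriv (yv w f t) x)) := by ring
    _ = _ := by rw [hw]; ring

theorem tt_st (hτ : 0 < tau t) : tt (st t) = t := by
  unfold tt st
  rw [neg_neg, Real.exp_log (by unfold tau at hτ; exact hτ)]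
  ring

theorem exp_st (hτ : 0 < tau t) (c : ℝ) : Real.exp (-(c * st t)) = tau t ^ c := by
  unfold st
  rw [Real.rpow_def_of_pos hτ]
  congr 1
  unfold tau
  ring

theorem lr_zt (hτ : 0 < tau t) (x : ℝ) : lr (st t) (zt w f t x) = rho w f t x := by
  unfold lr st zt
  have h := log_four (w := w) (f := f) hτ x
  rw [show (4 * (yv w f t x ^ 2 / 4) : ℝ) = yv w f t x ^ 2 by ring, h]
  unfold tau
  ring

theorem Am_eq (hτ : 0 < tau t) (q : Par) : Am kap q.eps (st t) = q.A t := by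
  unfold Am Par.A lam
  rw [neg_mul, exp_st hτ]
  norm_num

theorem ch_eq (hτ : 0 < tau t) (q : Par) (hd : 0 < q.d0) (x : ℝ) :
    ch q.d0 q.N (st t) (zt w f t x) = chi q t (yv w f t x) := by
  have hy := yv_pos (w := w) (f := f) hτ x
  unfold ch chi
  rw [xi_stp, xi_stp]
  have h1 : Real.sqrt (zt w f t x / z0 q.d0 (st t)) =
      yv w f t x / (q.d0 * tau t ^ ((1 : ℝ) / 10)) := by
    have hz0 : z0 q.d0 (st t) = (q.d0 * tau t ^ ((1 : ℝ) / 10)) ^ 2 / 4 := by
      unfold z0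
      rw [show (-st t / 5 : ℝ) = -(1 / 5 * st t) by ring, exp_st hτ, mul_pow,
        ← Real.rpow_natCast (tau t ^ ((1 : ℝ) / 10)) 2, ← Real.rpow_mul hτ.le]
      norm_num
      ring
    have hp : 0 < q.d0 * tau t ^ ((1 : ℝ) / 10) := mul_pos hd (Real.rpow_pos_of_pos hτ _)
    rw [hz0]
    unfold zt
    rw [show yv w f t x ^ 2 / 4 / ((q.d0 * tau t ^ ((1 : ℝ) / 10)) ^ 2 / 4) =
      (yv w f t x / (q.d0 * tau t ^ ((1 : ℝ) / 10))) ^ 2 by field_simp]
    exact Real.sqrt_sq (by positivity)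
  have h2 : Real.sqrt (be q.N (st t) (zt w f t x)) =
      Real.sqrt (tau t) * yv w f t x / Real.sqrt q.N := by
    unfold be zt
    have e := exp_st (t := t) hτ 1
    rw [one_mul, Real.rpow_one] at e
    rw [e, show 4 * (yv w f t x ^ 2 / 4) * tau t / q.N = (tau t * yv w f t x ^ 2) / q.N by ring,
      Real.sqrt_div (by positivity), Real.sqrt_mul hτ.le, Real.sqrt_sq hy.le]
  rw [h1, h2]

theorem wk_eq (hτ : 0 < tau t) (x : ℝ) : wk kap (zt w f t x) = yv w f t x ^ kap := by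
  have hy := yv_pos (w := w) (f := f) hτ x
  unfold wk zt
  rw [show (4 * (yv w f t x ^ 2 / 4) : ℝ) = yv w f t x ^ 2 by ring,
    ← Real.rpow_natCast (yv w f t x) 2, ← Real.rpow_mul hy.le]
  congr 1
  push_cast
  ring

theorem U_zt (hR : RG.RSol 20 w f T X U U1 U2 Z R) (ht : t ∈ Ico 0 T) {x : ℝ}
    (hx : x ∈ Ioo (0 : ℝ) 1) : U t (rho w f t x) = uu w f t x := by
  obtain ⟨h1, h2⟩ := hR.X_inv t ht x hx
  rw [rh_eq] at h2
  rw [rh_eq] at h1
  have h3 := hR.U_eq (t, rho w f t x) ⟨ht, h1⟩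
  simp only at h3
  rw [h3, h2]
  rfl

/-- the value of `hh` -/
theorem hh_eq (hτ : 0 < tau t) (hR : RG.RSol 20 w f T X U U1 U2 Z R) (ht : t ∈ Ico 0 T) (q : Par)
    (hd : 0 < q.d0) {x : ℝ} (hx : x ∈ Ioo (0 : ℝ) 1) :
    hh q U t (zt w f t x) =
      chi q t (yv w f t x) * yv w f t x ^ kap * uu w f t x / q.A t := by
  unfold hh HH
  rw [ch_eq hτ q hd, wk_eq hτ, tt_st hτ, lr_zt hτ, U_zt hR ht hx, Am_eq hτ]

theorem hh_zero (hτ : 0 < tau t) (q : Par) (hN : 0 < q.N)
    (h0 : 2 * Real.sqrt q.N < rr w f t 0) (z : ℝ) (hz : zt w f t 0 ≤ z) : hh q U t z = 0 := by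
  have hbe : 4 ≤ be q.N (st t) z := by
    unfold be
    have e := exp_st (t := t) hτ 1
    rw [one_mul, Real.rpow_one] at e
    rw [e, le_div_iff₀ hN]
    have h1 : rr w f t 0 ^ 2 = 4 * zt w f t 0 * tau t := by
      unfold zt yv
      rw [div_pow, Real.sq_sqrt hτ.le]
      field_simp
    have h2 : (2 * Real.sqrt q.N) ^ 2 < rr w f t 0 ^ 2 :=
      pow_lt_pow_left₀ h0 (by positivity) two_ne_zero
    rw [mul_pow, Real.sq_sqrt hN.le, h1] at h2
    have h3 : 4 * zt w f t 0 * tau t ≤ 4 * z * tau t := by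
      apply mul_le_mul_of_nonneg_right _ hτ.le
      linarith only [hz]
    linarith only [h2, h3]
  have hxi : xi (be q.N (st t) z) = 1 := by
    unfold xi
    refine Real.smoothTransition.one_of_one_le ?_
    have : 2 ≤ Real.sqrt (be q.N (st t) z) := Real.le_sqrt_of_sq_le (by linarith only [hbe])
    linarith only [this]
  unfold hh HH ch
  rw [hxi, sub_self, mul_zero, zero_mul, zero_mul, zero_div]

end

theorem A_pos {q : Par} (he : 0 < q.eps) {t : ℝ} (hτ : 0 < tau t) : 0 < q.A t :=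
  mul_pos he (Real.rpow_pos_of_pos hτ _)

theorem nph_eq (i : ℕ) : nph i = (4 : ℝ) ^ (20 - kap) * Lag.nrm (SS.aa kap) i := by
  unfold nph Lag.nrm
  rw [Lag.integral_mu]
  have himg : (fun y : ℝ => y ^ 2 / 4) '' Ioi 0 = Ioi 0 := by
    ext z
    constructor
    · rintro ⟨y, hy, rfl⟩
      have : (0 : ℝ) < y := hy
      show (0 : ℝ) < y ^ 2 / 4
      positivity
    · intro hz
      have hz' : (0 : ℝ) < z := hz
      refine ⟨2 * Real.sqrt z, by show (0 : ℝ) < 2 * Real.sqrt z; positivity, ?_⟩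
      show (2 * Real.sqrt z) ^ 2 / 4 = z
      rw [mul_pow, Real.sq_sqrt hz'.le]
      ring
  have hinj : InjOn (fun y : ℝ => y ^ 2 / 4) (Ioi 0) := by
    intro y hy y' hy' he
    have h1 : (0 : ℝ) < y := hy
    have h2 : (0 : ℝ) < y' := hy'
    simp only at he
    nlinarith only [he, h1, h2, mul_pos h1 h2]
  have hder : ∀ y ∈ Ioi (0 : ℝ), HasDerivWithinAt (fun y : ℝ => y ^ 2 / 4) (y / 2) (Ioi 0) y := by
    intro y _
    have h1 := (((hasDerivAt_id y).pow 2).div_const 4)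
    refine (h1.congr_deriv ?_).hasDerivWithinAt
    simp
    ring
  have key := integral_image_eq_integral_abs_deriv_smul measurableSet_Ioi hder hinj
    (fun z => (Lag.ell (SS.aa kap) i).eval z ^ 2 * (z ^ SS.aa kap * Real.exp (-z)))
  rw [himg] at key
  rw [key, ← integral_const_mul]
  refine setIntegral_congr_fun measurableSet_Ioi fun y hy => ?_
  have hy' : (0 : ℝ) < y := hy
  simp only [smul_eq_mul]
  rw [abs_of_pos (by positivity)]
  have hw := weight hy'
  unfold ph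
  rw [ll_eq]
  calc (y ^ (-kap) * (Lag.ell (SS.aa kap) i).eval (y ^ 2 / 4)) ^ 2 * Wt y
      = (y ^ (-kap) * y ^ (-kap) * Wt y) * (Lag.ell (SS.aa kap) i).eval (y ^ 2 / 4) ^ 2 := by ring
    _ = _ := by rw [hw]; ring

theorem gam_eq (i : ℕ) (h : ℝ → ℝ) :
    SS.gam kap i h = (∫ z, h z * (Lag.ell (SS.aa kap) i).eval z ∂(Lag.mu (SS.aa kap))) /
      Lag.nrm (SS.aa kap) i := by
  have h0 := Lag.nrm_pos aa_gt i
  have hnu : 0 < nu kap i := Real.sqrt_pos.2 h0
  have hnu2 : nu kap i * nu kap i = Lag.nrm (SS.aa kap) i := Real.mul_self_sqrt h0.le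
  unfold SS.gam Lag.en
  have e : ∀ z, h z * (C (1 / √(Lag.nrm (SS.aa kap) i)) * Lag.ell (SS.aa kap) i).eval z =
      (1 / nu kap i) * (h z * (Lag.ell (SS.aa kap) i).eval z) := by
    intro z
    rw [eval_mul, eval_C]
    unfold nu
    ring
  simp_rw [e]
  rw [integral_const_mul, ← hnu2]
  field_simp

theorem gam_sq (i : ℕ) (h : ℝ → ℝ) :
    (∫ z, h z * (Lag.en (SS.aa kap) i).eval z ∂(Lag.mu (SS.aa kap))) ^ 2 =
      SS.gam kap i h ^ 2 * Lag.nrm (SS.aa kap) i := by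
  have h0 := Lag.nrm_pos aa_gt i
  have hnu : 0 < nu kap i := Real.sqrt_pos.2 h0
  have hnu2 : nu kap i * nu kap i = Lag.nrm (SS.aa kap) i := Real.mul_self_sqrt h0.le
  unfold SS.gam
  rw [← hnu2]
  field_simp

/-- **CV** -/
theorem cv : CVStatement := by
  intro q hd hN he w f T hT hT1 h hq X U U1 U2 Z R hR t ht h0
  have hτ := tau_pos hT1 ht
  have hA := A_pos he hτ
  have hA0 := hA.ne'
  have h4 : (0 : ℝ) < (4 : ℝ) ^ (20 - kap) := Real.rpow_pos_of_pos (by norm_num) _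
  have hyy : ∀ x, yv w f t x ^ (-kap) * yv w f t x ^ kap = 1 := by
    intro x
    rw [← Real.rpow_add (yv_pos hτ x)]
    simp
  -- modes
  have hmode : ∀ i : ℕ, gami q w f i t = SS.gam kap i (hh q U t) := by
    intro i
    have h1 := cv_gen h hq hT1 hR ht
      (fun z => q.A t * (hh q U t z * (Lag.ell (SS.aa kap) i).eval z))
      (fun z hz => by rw [hh_zero hτ q hN h0 z hz, zero_mul, mul_zero])
      (fun x => chi q t (yv w f t x) * uu w f t x * ph i (yv w f t x) *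
        Wt (yv w f t x) * (-(deriv (yv w f t) x))) (by
        intro x hx
        rw [hh_eq hτ hR ht q hd hx]
        unfold ph
        rw [ll_eq]
        have e1 := hyy x
        unfold zt
        set a := yv w f t x ^ (-kap)
        set b := yv w f t x ^ kap
        calc chi q t (yv w f t x) * uu w f t x *
              (a * (Lag.ell (SS.aa kap) i).eval (yv w f t x ^ 2 / 4)) *
              Wt (yv w f t x) * (-(deriv (yv w f t) x))
            = chi q t (yv w f t x) * uu w f t x *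
              (a * (Lag.ell (SS.aa kap) i).eval (yv w f t x ^ 2 / 4)) *
              Wt (yv w f t x) * (-(deriv (yv w f t) x)) * (a * b) := by rw [e1, mul_one]
          _ = _ := by field_simp)
    unfold gami
    rw [h1, gam_eq, nph_eq, integral_const_mul]
    have := (Lag.nrm_pos aa_gt i).ne'
    field_simp
  refine ⟨hmode, ?_⟩
  have h2 := cv_gen h hq hT1 hR ht
    (fun z => q.A t ^ 2 * hh q U t z ^ 2)
    (fun z hz => by rw [hh_zero hτ q hN h0 z hz]; ring)
    (fun x => (chi q t (yv w f t x) * uu w f t x) ^ 2 *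
      Wt (yv w f t x) * (-(deriv (yv w f t) x))) (by
      intro x hx
      rw [hh_eq hτ hR ht q hd hx]
      have e1 := hyy x
      set a := yv w f t x ^ (-kap)
      set b := yv w f t x ^ kap
      calc (chi q t (yv w f t x) * uu w f t x) ^ 2 * Wt (yv w f t x) * (-(deriv (yv w f t) x))
          = (chi q t (yv w f t x) * uu w f t x) ^ 2 * Wt (yv w f t x) *
            (-(deriv (yv w f t) x)) * (a * b) ^ 2 := by rw [e1, one_pow, mul_one]
        _ = _ := by field_simp)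
  unfold enU nrmU
  rw [h2, integral_const_mul]
  unfold Ex
  have e3 : ∑ i ∈ Finset.range 4, gami q w f i t ^ 2 * nph i =
      (4 : ℝ) ^ (20 - kap) * ∑ i ∈ Finset.range 4,
        (∫ z, hh q U t z * (Lag.en (SS.aa kap) i).eval z ∂(Lag.mu (SS.aa kap))) ^ 2 := by
    rw [Finset.mul_sum]
    refine Finset.sum_congr rfl fun i _ => ?_
    rw [hmode i, gam_sq, nph_eq]
    ring
  rw [e3]
  field_simp

end Vale.Agent.P244.ST.SS.CV
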