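import Vale.Agent.P244.ST.LagDense
import Vale.Agent.P244.ST.S.LagDefs

/-! P244, block S: completeness of the Laguerre polynomials and Parseval (helper558). -/

open MeasureTheory Set Filter Polynomial
open scoped Topology ENNReal

namespace Vale.Agent.P244.ST.Lag

/-- exponential moment -/
theorem exp_moment {a : ℝ} (ha : -1 < a) :
    Integrable (fun z : ℝ => Real.exp (1 / 2 * |z|)) (mu a) := by
  rw [integrable_mu]
  have h := integrableOn_rpow_mul_exp_neg_mul_rpow (p := 1) (s := a) (b := 1 / 2) ha zero_lt_one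
    (by norm_num)
  refine h.congr_fun ?_ measurableSet_Ioi
  intro z hz
  change z ^ a * Real.exp (-(1 / 2) * z ^ (1 : ℝ))
    = Real.exp (1 / 2 * |z|) * (z ^ a * Real.exp (-z))
  rw [Real.rpow_one, abs_of_pos hz, mul_left_comm, ← Real.exp_add]
  congr 2
  ring

/-- **completeness** -/
theorem complete (a : ℝ) (ha : -1 < a) (f : ℝ → ℝ) (hf : MemLp f 2 (mu a))
    (h : ∀ k : ℕ, ∫ z, f z * z ^ k ∂(mu a) = 0) : f =ᵐ[mu a] 0 := by
  have := finite_mu ha
  exact ae_zero_of_moments (by norm_num) (exp_moment ha) hf h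

theorem natDegree_ell {a : ℝ} (ha : -1 < a) (n : ℕ) : (ell a n).natDegree = n := by
  apply Polynomial.natDegree_eq_of_le_of_coeff_ne_zero
  · unfold ell
    refine Polynomial.natDegree_sum_le_of_forall_le _ _ fun k hk => ?_
    exact (Polynomial.natDegree_monomial_le _).trans (by
      have := Finset.mem_range.1 hk
      omega)
  · rw [coeff_ell]
    exact cf_ne ha n

theorem natDegree_en {a : ℝ} (ha : -1 < a) (n : ℕ) : (en a n).natDegree = n := by
  unfold en
  rw [Polynomial.natDegree_C_mul, natDegree_ell ha]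
  have := Real.sqrt_pos.2 (nrm_pos ha n)
  positivity

/-- **Parseval** for the Laguerre polynomials -/
theorem parseval_en {a : ℝ} (ha : -1 < a) {f g : ℝ → ℝ} (hf : MemLp f 2 (mu a))
    (hg : MemLp g 2 (mu a)) :
    HasSum (fun i => (∫ z, f z * (en a i).eval z ∂(mu a)) * ∫ z, g z * (en a i).eval z ∂(mu a))
      (∫ z, f z * g z ∂(mu a)) := by
  have := finite_mu ha
  exact parseval (by norm_num) (exp_moment ha) (natDegree_en ha) (en_orth ha) hf hg

/-- Parseval for one function -/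
theorem parseval_sq {a : ℝ} (ha : -1 < a) {f : ℝ → ℝ} (hf : MemLp f 2 (mu a)) :
    HasSum (fun i => (∫ z, f z * (en a i).eval z ∂(mu a)) ^ 2) (∫ z, f z ^ 2 ∂(mu a)) := by
  have h := parseval_en ha hf hf
  simp_rw [← pow_two] at h
  exact h

/-- Bessel -/
theorem bessel {a : ℝ} (ha : -1 < a) {f : ℝ → ℝ} (hf : MemLp f 2 (mu a)) (s : Finset ℕ) :
    ∑ i ∈ s, (∫ z, f z * (en a i).eval z ∂(mu a)) ^ 2 ≤ ∫ z, f z ^ 2 ∂(mu a) :=
  sum_le_hasSum s (fun _ _ => sq_nonneg _) (parseval_sq ha hf)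

/-- if `g_i = λ_i f_i` for the Laguerre coefficients with `λ_i ≥ i`-type lower bounds, then the
form `∫ g f` is bounded below: first `N` modes exactly, the rest by `K`. -/
theorem form_lower {a : ℝ} (ha : -1 < a) {f g : ℝ → ℝ} (hf : MemLp f 2 (mu a))
    (hg : MemLp g 2 (mu a)) {lam : ℕ → ℝ}
    (hfg : ∀ i, ∫ z, g z * (en a i).eval z ∂(mu a) = lam i * ∫ z, f z * (en a i).eval z ∂(mu a))
    (N : ℕ) {K : ℝ} (hK : ∀ i, N ≤ i → K ≤ lam i) :
    ∑ i ∈ Finset.range N, lam i * (∫ z, f z * (en a i).eval z ∂(mu a)) ^ 2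
      + K * (∫ z, f z ^ 2 ∂(mu a)
        - ∑ i ∈ Finset.range N, (∫ z, f z * (en a i).eval z ∂(mu a)) ^ 2)
      ≤ ∫ z, g z * f z ∂(mu a) := by
  set c : ℕ → ℝ := fun i => ∫ z, f z * (en a i).eval z ∂(mu a) with hc
  have h1 : HasSum (fun i => lam i * c i ^ 2) (∫ z, g z * f z ∂(mu a)) := by
    have h := parseval_en ha hg hf
    have e : ∀ i, (∫ z, g z * (en a i).eval z ∂(mu a)) * (∫ z, f z * (en a i).eval z ∂(mu a))
        = lam i * c i ^ 2 := by
      intro i
      rw [hfg i, hc]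
      ring
    simp_rw [e] at h
    exact h
  have h2 : HasSum (fun i => K * c i ^ 2) (K * ∫ z, f z ^ 2 ∂(mu a)) :=
    (parseval_sq ha hf).mul_left K
  have h3 := h1.sub h2
  have h4 : ∑ i ∈ Finset.range N, (lam i * c i ^ 2 - K * c i ^ 2)
      ≤ ∫ z, g z * f z ∂(mu a) - K * ∫ z, f z ^ 2 ∂(mu a) := by
    refine sum_le_hasSum _ (fun i hi => ?_) h3
    have := hK i (by simpa using hi)
    nlinarith only [this, sq_nonneg (c i)]
  rw [Finset.sum_sub_distrib, ← Finset.mul_sum] at h4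
  rw [mul_sub]
  linarith only [h4]

end Vale.Agent.P244.ST.Lag
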