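import Vale.Agent.P244.ST.S.LagComp

/-! P244, block S: evolution of the Laguerre modes and of the remainder (helper155).

`f_s = L f + λ f + g` on `[s0,s1] × (0,∞)`, everything supported in `[z1,z2]`, `0 < z1`. -/

open MeasureTheory Set Filter Polynomial
open scoped Topology ENNReal

namespace Vale.Agent.P244.ST.Lag

/-! ### general facts on integrals of functions supported in `[z1,z2]` -/

section General

variable {a s0 s1 z1 z2 : ℝ}

theorem aesm_of_continuousOn {h : ℝ → ℝ} (hc : ContinuousOn h (Ioi 0)) :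
    AEStronglyMeasurable h (mu a) := by
  unfold mu
  exact (hc.aestronglyMeasurable measurableSet_Ioi).mono_ac (withDensity_absolutelyContinuous _ _)

theorem slice_cont {G : ℝ → ℝ → ℝ}
    (cG : ContinuousOn (fun p : ℝ × ℝ => G p.1 p.2) (Icc s0 s1 ×ˢ Ioi 0)) {s : ℝ}
    (hs : s ∈ Icc s0 s1) : ContinuousOn (G s) (Ioi 0) :=
  cG.comp (f := fun z : ℝ => (s, z)) (by fun_prop) fun z hz => ⟨hs, hz⟩

theorem slice_cont' {G : ℝ → ℝ → ℝ}
    (cG : ContinuousOn (fun p : ℝ × ℝ => G p.1 p.2) (Icc s0 s1 ×ˢ Ioi 0)) {z : ℝ}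
    (hz : 0 < z) : ContinuousOn (fun s => G s z) (Icc s0 s1) :=
  cG.comp (f := fun s : ℝ => (s, z)) (by fun_prop) fun s hs => ⟨hs, hz⟩

theorem exists_bound (hz1 : 0 < z1) {G : ℝ → ℝ → ℝ}
    (cG : ContinuousOn (fun p : ℝ × ℝ => G p.1 p.2) (Icc s0 s1 ×ˢ Ioi 0))
    (supp : ∀ s ∈ Icc s0 s1, ∀ z, 0 < z → z ∉ Icc z1 z2 → G s z = 0) :
    ∃ C : ℝ, 0 ≤ C ∧ ∀ s ∈ Icc s0 s1, ∀ z, 0 < z → |G s z| ≤ C := by
  have hcomp : IsCompact (Icc s0 s1 ×ˢ Icc z1 z2) := isCompact_Icc.prod isCompact_Icc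
  have hsub : Icc s0 s1 ×ˢ Icc z1 z2 ⊆ Icc s0 s1 ×ˢ Ioi (0 : ℝ) := by
    intro p hp
    exact ⟨hp.1, lt_of_lt_of_le hz1 hp.2.1⟩
  obtain ⟨C, hC⟩ := hcomp.exists_bound_of_continuousOn (cG.mono hsub)
  refine ⟨|C|, abs_nonneg _, fun s hs z hz => ?_⟩
  by_cases h : z ∈ Icc z1 z2
  · have := hC (s, z) ⟨hs, h⟩
    rw [Real.norm_eq_abs] at this
    exact this.trans (le_abs_self _)
  · rw [supp s hs z hz h, abs_zero]
    exact abs_nonneg _

theorem memLp_slice (ha : -1 < a) (hz1 : 0 < z1) {G : ℝ → ℝ → ℝ}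
    (cG : ContinuousOn (fun p : ℝ × ℝ => G p.1 p.2) (Icc s0 s1 ×ˢ Ioi 0))
    (supp : ∀ s ∈ Icc s0 s1, ∀ z, 0 < z → z ∉ Icc z1 z2 → G s z = 0) {s : ℝ}
    (hs : s ∈ Icc s0 s1) : MemLp (G s) 2 (mu a) := by
  have := finite_mu ha
  obtain ⟨C, -, hC⟩ := exists_bound hz1 cG supp
  refine MemLp.of_bound (aesm_of_continuousOn (slice_cont cG hs)) C ?_
  filter_upwards [ae_mu a] with z hz
  exact hC s hs z hz

theorem integrable_slice (ha : -1 < a) (hz1 : 0 < z1) {G : ℝ → ℝ → ℝ}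
    (cG : ContinuousOn (fun p : ℝ × ℝ => G p.1 p.2) (Icc s0 s1 ×ˢ Ioi 0))
    (supp : ∀ s ∈ Icc s0 s1, ∀ z, 0 < z → z ∉ Icc z1 z2 → G s z = 0) {s : ℝ}
    (hs : s ∈ Icc s0 s1) : Integrable (G s) (mu a) := by
  have := finite_mu ha
  exact (memLp_slice ha hz1 cG supp hs).integrable (by norm_num)

theorem continuousOn_int (ha : -1 < a) (hz1 : 0 < z1) {G : ℝ → ℝ → ℝ}
    (cG : ContinuousOn (fun p : ℝ × ℝ => G p.1 p.2) (Icc s0 s1 ×ˢ Ioi 0))
    (supp : ∀ s ∈ Icc s0 s1, ∀ z, 0 < z → z ∉ Icc z1 z2 → G s z = 0) :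
    ContinuousOn (fun s => ∫ z, G s z ∂(mu a)) (Icc s0 s1) := by
  have := finite_mu ha
  obtain ⟨C, -, hC⟩ := exists_bound hz1 cG supp
  refine continuousOn_of_dominated (bound := fun _ => C) (fun s hs => ?_) (fun s hs => ?_)
    (integrable_const _) ?_
  · exact aesm_of_continuousOn (slice_cont cG hs)
  · filter_upwards [ae_mu a] with z hz
    exact hC s hs z hz
  · filter_upwards [ae_mu a] with z hz
    exact slice_cont' cG hz

theorem hasDerivAt_int (ha : -1 < a) (hz1 : 0 < z1) {G G' : ℝ → ℝ → ℝ}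
    (cG : ContinuousOn (fun p : ℝ × ℝ => G p.1 p.2) (Icc s0 s1 ×ˢ Ioi 0))
    (cG' : ContinuousOn (fun p : ℝ × ℝ => G' p.1 p.2) (Icc s0 s1 ×ˢ Ioi 0))
    (d : ∀ s ∈ Ioo s0 s1, ∀ z, 0 < z → HasDerivAt (fun s => G s z) (G' s z) s)
    (supp : ∀ s ∈ Icc s0 s1, ∀ z, 0 < z → z ∉ Icc z1 z2 → G s z = 0)
    (supp' : ∀ s ∈ Icc s0 s1, ∀ z, 0 < z → z ∉ Icc z1 z2 → G' s z = 0) {s : ℝ}
    (hs : s ∈ Ioo s0 s1) :
    HasDerivAt (fun s => ∫ z, G s z ∂(mu a)) (∫ z, G' s z ∂(mu a)) s := by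
  have := finite_mu ha
  obtain ⟨C, -, hC⟩ := exists_bound hz1 cG' supp'
  have hn : Ioo s0 s1 ∈ 𝓝 s := Ioo_mem_nhds hs.1 hs.2
  have hsI : s ∈ Icc s0 s1 := Ioo_subset_Icc_self hs
  refine (hasDerivAt_integral_of_dominated_loc_of_deriv_le (μ := mu a) (F := G) (F' := G')
    (bound := fun _ => C) (s := Ioo s0 s1) hn ?_ ?_ ?_ ?_ (integrable_const _) ?_).2
  · filter_upwards [hn] with t ht
    exact aesm_of_continuousOn (slice_cont cG (Ioo_subset_Icc_self ht))
  · exact integrable_slice ha hz1 cG supp hsI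
  · exact aesm_of_continuousOn (slice_cont cG' hsI)
  · filter_upwards [ae_mu a] with z hz t ht
    exact hC t (Ioo_subset_Icc_self ht) z hz
  · filter_upwards [ae_mu a] with z hz t ht
    exact d t ht z hz

/-- an integral against `mu a` of a function supported in `[z1,z2]` as an interval integral -/
theorem int_mu_eq (hz1 : 0 < z1) (hz : z1 ≤ z2) {h : ℝ → ℝ}
    (supp : ∀ z, 0 < z → z ∉ Icc z1 z2 → h z = 0) :
    ∫ z, h z ∂(mu a) = ∫ z in (z1 / 2)..(z2 + 1), h z * (z ^ a * Real.exp (-z)) := by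
  rw [integral_mu, intervalIntegral.integral_of_le (by linarith only [hz1, hz])]
  apply setIntegral_eq_of_subset_of_forall_sdiff_eq_zero measurableSet_Ioi
  · intro z hz'
    exact lt_trans (by linarith only [hz1]) hz'.1
  · intro z hz'
    rw [supp z hz'.1, zero_mul]
    intro h1
    exact hz'.2 ⟨by linarith only [hz1, h1, h1.1], by linarith only [h1, h1.2]⟩

theorem int3 {u v w : ℝ → ℝ} (hu : Integrable u (mu a)) (hv : Integrable v (mu a))
    (hw : Integrable w (mu a)) :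
    ∫ z, (u z + (v z + w z)) ∂(mu a)
      = ∫ z, u z ∂(mu a) + (∫ z, v z ∂(mu a) + ∫ z, w z ∂(mu a)) := by
  have h : Integrable (fun z => v z + w z) (mu a) := hv.add hw
  rw [integral_add hu h, integral_add hv hw]

/-- integration by parts against a polynomial -/
theorem ibp_Lp (hz1 : 0 < z1) (hz : z1 ≤ z2) {φ φ1 φ2 : ℝ → ℝ}
    (d1 : ∀ z, 0 < z → HasDerivAt φ (φ1 z) z) (d2 : ∀ z, 0 < z → HasDerivAt φ1 (φ2 z) z)
    (c2 : ContinuousOn φ2 (Ioi 0)) (supp : ∀ z, 0 < z → z ∉ Icc z1 z2 → φ z = 0)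
    (supp1 : ∀ z, 0 < z → z ∉ Icc z1 z2 → φ1 z = 0)
    (supp2 : ∀ z, 0 < z → z ∉ Icc z1 z2 → φ2 z = 0) (p : ℝ[X]) :
    ∫ z, (z * φ2 z + (a + 1 - z) * φ1 z) * p.eval z ∂(mu a)
      = ∫ z, φ z * (Lp a p).eval z ∂(mu a) := by
  have c1 : ContinuousOn φ1 (Ioi 0) := fun z hz => (d2 z hz).continuousAt.continuousWithinAt
  have c0 : ContinuousOn φ (Ioi 0) := fun z hz => (d1 z hz).continuousAt.continuousWithinAt
  rw [int_mu_eq hz1 hz (h := fun z => (z * φ2 z + (a + 1 - z) * φ1 z) * p.eval z)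
    (fun z h0 h => by rw [supp1 z h0 h, supp2 z h0 h]; ring),
    int_mu_eq hz1 hz (h := fun z => φ z * (Lp a p).eval z)
    (fun z h0 h => by rw [supp z h0 h]; ring)]
  have hpos : ∀ z ∈ Set.uIcc (z1 / 2) (z2 + 1), 0 < z := by
    intro z h
    rw [Set.uIcc_of_le (by linarith only [hz1, hz])] at h
    linarith only [hz1, h, h.1]
  have hsub : Set.uIcc (z1 / 2) (z2 + 1) ⊆ Ioi 0 := hpos
  have cw : ContinuousOn (fun z : ℝ => z ^ a * Real.exp (-z)) (Ioi 0) := by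
    refine ContinuousOn.mul ?_ (by fun_prop)
    exact ContinuousOn.rpow_const continuousOn_id fun z hz => Or.inl (ne_of_gt hz)
  have cp : ∀ q : ℝ[X], ContinuousOn (fun z => q.eval z) (Ioi 0) := fun q => by fun_prop
  have i1 : IntervalIntegrable (fun z => (z * φ2 z + (a + 1 - z) * φ1 z) * p.eval z
      * (z ^ a * Real.exp (-z))) volume (z1 / 2) (z2 + 1) := by
    apply ContinuousOn.intervalIntegrable
    refine ContinuousOn.mono ?_ hsub
    exact ((((continuousOn_id).mul c2).add ((by fun_prop : ContinuousOn (fun z : ℝ => a + 1 - z)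
      (Ioi 0)).mul c1)).mul (cp p)).mul cw
  have i2 : IntervalIntegrable (fun z => φ z * (Lp a p).eval z
      * (z ^ a * Real.exp (-z))) volume (z1 / 2) (z2 + 1) := by
    apply ContinuousOn.intervalIntegrable
    refine ContinuousOn.mono ?_ hsub
    exact (c0.mul (cp _)).mul cw
  rw [← sub_eq_zero, ← intervalIntegral.integral_sub i1 i2]
  set W : ℝ → ℝ := fun z => z ^ (a + 1) * Real.exp (-z)
    * (φ1 z * p.eval z - φ z * (derivative p).eval z) with hW
  have hder : ∀ z ∈ Set.uIcc (z1 / 2) (z2 + 1), HasDerivAt W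
      ((z * φ2 z + (a + 1 - z) * φ1 z) * p.eval z * (z ^ a * Real.exp (-z))
        - φ z * (Lp a p).eval z * (z ^ a * Real.exp (-z))) z := by
    intro z hzm
    have h0 := hpos z hzm
    have e1 : HasDerivAt (fun z : ℝ => z ^ (a + 1)) ((a + 1) * z ^ (a + 1 - 1)) z :=
      Real.hasDerivAt_rpow_const (Or.inl h0.ne')
    have e2 : HasDerivAt (fun z : ℝ => Real.exp (-z)) (Real.exp (-z) * (-1)) z :=
      (hasDerivAt_neg z).exp
    have e3 := (e1.mul e2).mul (((d2 z h0).mul (p.hasDerivAt z)).sub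
      ((d1 z h0).mul ((derivative p).hasDerivAt z)))
    refine e3.congr_deriv ?_
    have e4 : z ^ (a + 1) = z * z ^ a := by
      rw [Real.rpow_add_one h0.ne']; ring
    have e5 : z ^ (a + 1 - 1) = z ^ a := by rw [add_sub_cancel_right]
    simp only [Lp, eval_add, eval_mul, eval_sub, eval_X, eval_C, e4, e5, Pi.mul_apply,
      Pi.sub_apply]
    ring
  rw [intervalIntegral.integral_eq_sub_of_hasDerivAt hder (i1.sub i2)]
  have hb1 : z1 / 2 ∉ Icc z1 z2 := fun h => by linarith only [hz1, h, h.1]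
  have hb2 : z2 + 1 ∉ Icc z1 z2 := fun h => by linarith [h.2]
  simp only [hW]
  rw [supp _ (by linarith only [hz1]) hb1, supp1 _ (by linarith only [hz1]) hb1, supp _ (by linarith only [hz1, hz]) hb2,
    supp1 _ (by linarith only [hz1, hz]) hb2]
  ring

end General

/-! ### the evolution lemma -/

/-- `f_s = L f + lam f + g` on `[s0,s1] × (0,∞)`, `L = z ∂² + (a+1-z) ∂`, supports in `[z1,z2]`. -/
structure Evo (a lam s0 s1 z1 z2 : ℝ) (f fs fz fzz g : ℝ → ℝ → ℝ) : Prop where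
  ha : -1 < a
  hs : s0 < s1
  hz1 : 0 < z1
  hz : z1 ≤ z2
  cf : ContinuousOn (fun p : ℝ × ℝ => f p.1 p.2) (Icc s0 s1 ×ˢ Ioi 0)
  cfs : ContinuousOn (fun p : ℝ × ℝ => fs p.1 p.2) (Icc s0 s1 ×ˢ Ioi 0)
  cfz : ContinuousOn (fun p : ℝ × ℝ => fz p.1 p.2) (Icc s0 s1 ×ˢ Ioi 0)
  cfzz : ContinuousOn (fun p : ℝ × ℝ => fzz p.1 p.2) (Icc s0 s1 ×ˢ Ioi 0)
  cg : ContinuousOn (fun p : ℝ × ℝ => g p.1 p.2) (Icc s0 s1 ×ˢ Ioi 0)
  ds : ∀ s ∈ Ioo s0 s1, ∀ z, 0 < z → HasDerivAt (fun s => f s z) (fs s z) s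
  dz : ∀ s ∈ Ioo s0 s1, ∀ z, 0 < z → HasDerivAt (fun z => f s z) (fz s z) z
  dzz : ∀ s ∈ Ioo s0 s1, ∀ z, 0 < z → HasDerivAt (fun z => fz s z) (fzz s z) z
  supp : ∀ s ∈ Icc s0 s1, ∀ z, 0 < z → z ∉ Icc z1 z2 → f s z = 0
  eq : ∀ s ∈ Ioo s0 s1, ∀ z, 0 < z →
    fs s z = z * fzz s z + (a + 1 - z) * fz s z + lam * f s z + g s z

theorem zero_of_Ioo {s0 s1 : ℝ} (hs01 : s0 < s1) {h : ℝ → ℝ} (hc : ContinuousOn h (Icc s0 s1))
    (h0 : ∀ s ∈ Ioo s0 s1, h s = 0) : ∀ s ∈ Icc s0 s1, h s = 0 := by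
  intro s hs
  have h1 : s ∈ closure (Ioo s0 s1) := by rwa [closure_Ioo hs01.ne]
  have h2 : Set.EqOn h (fun _ => 0) (Icc s0 s1) := by
    have h3 : Set.EqOn h (fun _ => 0) (Ioo s0 s1) := h0
    exact h3.of_subset_closure hc continuousOn_const Ioo_subset_Icc_self
      (by rw [closure_Ioo hs01.ne])
  exact h2 hs

namespace Evo

variable {a lam s0 s1 z1 z2 : ℝ} {f fs fz fzz g : ℝ → ℝ → ℝ}
  (E : Evo a lam s0 s1 z1 z2 f fs fz fzz g)
include E

omit E in
theorem nbhd {z : ℝ} (h0 : 0 < z) (h : z ∉ Icc z1 z2) : ∀ᶠ w in 𝓝 z, 0 < w ∧ w ∉ Icc z1 z2 :=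
  (lt_mem_nhds h0).and (isClosed_Icc.isOpen_compl.mem_nhds h)

theorem supp_fs : ∀ s ∈ Icc s0 s1, ∀ z, 0 < z → z ∉ Icc z1 z2 → fs s z = 0 := by
  intro s hs z h0 h
  refine zero_of_Ioo E.hs (h := fun s => fs s z) (slice_cont' E.cfs h0) (fun t ht => ?_) s hs
  have h1 : HasDerivAt (fun s => f s z) 0 t := by
    refine (hasDerivAt_const t (0 : ℝ)).congr_of_eventuallyEq ?_
    filter_upwards [Ioo_mem_nhds ht.1 ht.2] with u hu
    exact E.supp u (Ioo_subset_Icc_self hu) z h0 h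
  exact (E.ds t ht z h0).unique h1

theorem supp_fz : ∀ s ∈ Icc s0 s1, ∀ z, 0 < z → z ∉ Icc z1 z2 → fz s z = 0 := by
  intro s hs z h0 h
  refine zero_of_Ioo E.hs (h := fun s => fz s z) (slice_cont' E.cfz h0) (fun t ht => ?_) s hs
  have h1 : HasDerivAt (fun z => f t z) 0 z := by
    refine (hasDerivAt_const z (0 : ℝ)).congr_of_eventuallyEq ?_
    filter_upwards [Evo.nbhd h0 h] with w hw
    exact E.supp t (Ioo_subset_Icc_self ht) w hw.1 hw.2
  exact (E.dz t ht z h0).unique h1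

theorem supp_fzz : ∀ s ∈ Icc s0 s1, ∀ z, 0 < z → z ∉ Icc z1 z2 → fzz s z = 0 := by
  intro s hs z h0 h
  refine zero_of_Ioo E.hs (h := fun s => fzz s z) (slice_cont' E.cfzz h0) (fun t ht => ?_) s hs
  have h1 : HasDerivAt (fun z => fz t z) 0 z := by
    refine (hasDerivAt_const z (0 : ℝ)).congr_of_eventuallyEq ?_
    filter_upwards [Evo.nbhd h0 h] with w hw
    exact E.supp_fz t (Ioo_subset_Icc_self ht) w hw.1 hw.2
  exact (E.dzz t ht z h0).unique h1

theorem supp_g : ∀ s ∈ Icc s0 s1, ∀ z, 0 < z → z ∉ Icc z1 z2 → g s z = 0 := by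
  intro s hs z h0 h
  refine zero_of_Ioo E.hs (h := fun s => g s z) (slice_cont' E.cg h0) (fun t ht => ?_) s hs
  have ht' := Ioo_subset_Icc_self ht
  have h1 := E.eq t ht z h0
  rw [E.supp_fs t ht' z h0 h, E.supp_fz t ht' z h0 h, E.supp_fzz t ht' z h0 h,
    E.supp t ht' z h0 h] at h1
  show g t z = 0
  linarith only [h1]

/-- the coefficient of `f s` -/
theorem cont_coef (i : ℕ) :
    ContinuousOn (fun s => ∫ z, f s z * (en a i).eval z ∂(mu a)) (Icc s0 s1) := by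
  refine continuousOn_int (z2 := z2) E.ha E.hz1 (G := fun s z => f s z * (en a i).eval z) ?_ ?_
  · exact E.cf.mul (by fun_prop)
  · intro s hs z h0 h
    rw [E.supp s hs z h0 h, zero_mul]

theorem cont_gcoef (i : ℕ) :
    ContinuousOn (fun s => ∫ z, g s z * (en a i).eval z ∂(mu a)) (Icc s0 s1) := by
  refine continuousOn_int (z2 := z2) E.ha E.hz1 (G := fun s z => g s z * (en a i).eval z) ?_ ?_
  · exact E.cg.mul (by fun_prop)
  · intro s hs z h0 h
    rw [E.supp_g s hs z h0 h, zero_mul]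

theorem cont_sq : ContinuousOn (fun s => ∫ z, f s z ^ 2 ∂(mu a)) (Icc s0 s1) := by
  refine continuousOn_int (z2 := z2) E.ha E.hz1 (G := fun s z => f s z ^ 2) (E.cf.pow 2) ?_
  intro s hs z h0 h
  rw [E.supp s hs z h0 h]
  norm_num

theorem cont_gsq : ContinuousOn (fun s => ∫ z, g s z ^ 2 ∂(mu a)) (Icc s0 s1) := by
  refine continuousOn_int (z2 := z2) E.ha E.hz1 (G := fun s z => g s z ^ 2) (E.cg.pow 2) ?_
  intro s hs z h0 h
  rw [E.supp_g s hs z h0 h]
  norm_num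

theorem memLp_f {s : ℝ} (hs : s ∈ Icc s0 s1) : MemLp (f s) 2 (mu a) :=
  memLp_slice E.ha E.hz1 E.cf E.supp hs

theorem memLp_g {s : ℝ} (hs : s ∈ Icc s0 s1) : MemLp (g s) 2 (mu a) :=
  memLp_slice E.ha E.hz1 E.cg E.supp_g hs

/-- the function `-L f` -/
theorem cont_L : ContinuousOn
    (fun p : ℝ × ℝ => p.2 * fzz p.1 p.2 + (a + 1 - p.2) * fz p.1 p.2) (Icc s0 s1 ×ˢ Ioi 0) :=
  ((by fun_prop : ContinuousOn (fun p : ℝ × ℝ => p.2) (Icc s0 s1 ×ˢ Ioi 0)).mul E.cfzz).add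
    ((by fun_prop : ContinuousOn (fun p : ℝ × ℝ => a + 1 - p.2) (Icc s0 s1 ×ˢ Ioi 0)).mul E.cfz)

theorem supp_L : ∀ s ∈ Icc s0 s1, ∀ z, 0 < z → z ∉ Icc z1 z2 →
    z * fzz s z + (a + 1 - z) * fz s z = 0 := by
  intro s hs z h0 h
  rw [E.supp_fz s hs z h0 h, E.supp_fzz s hs z h0 h]
  ring

theorem memLp_L {s : ℝ} (hs : s ∈ Icc s0 s1) :
    MemLp (fun z => z * fzz s z + (a + 1 - z) * fz s z) 2 (mu a) :=
  memLp_slice (G := fun s z => z * fzz s z + (a + 1 - z) * fz s z) E.ha E.hz1 E.cont_L E.supp_L hs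

/-- `∫ (L f) e_i = -i ∫ f e_i` -/
theorem L_coef {s : ℝ} (hs : s ∈ Ioo s0 s1) (i : ℕ) :
    ∫ z, (z * fzz s z + (a + 1 - z) * fz s z) * (en a i).eval z ∂(mu a)
      = -(i : ℝ) * ∫ z, f s z * (en a i).eval z ∂(mu a) := by
  have hs' := Ioo_subset_Icc_self hs
  rw [ibp_Lp E.hz1 E.hz (E.dz s hs) (E.dzz s hs) (slice_cont E.cfzz hs') (E.supp s hs')
    (E.supp_fz s hs') (E.supp_fzz s hs') (en a i), Lp_en E.ha, ← integral_const_mul]
  congr 1
  funext z
  rw [eval_mul, eval_C]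
  ring

/-- **the modes**: `c_i' = (lam - i) c_i + g_i` -/
theorem hasDerivAt_coef {s : ℝ} (hs : s ∈ Ioo s0 s1) (i : ℕ) :
    HasDerivAt (fun s => ∫ z, f s z * (en a i).eval z ∂(mu a))
      ((lam - i) * (∫ z, f s z * (en a i).eval z ∂(mu a))
        + ∫ z, g s z * (en a i).eval z ∂(mu a)) s := by
  have hs' := Ioo_subset_Icc_self hs
  have h := hasDerivAt_int E.ha E.hz1 (G := fun s z => f s z * (en a i).eval z)
    (G' := fun s z => fs s z * (en a i).eval z) (E.cf.mul (by fun_prop)) (E.cfs.mul (by fun_prop))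
    (fun t ht z hz => (E.ds t ht z hz).mul_const _)
    (fun t ht z h0 h => by rw [E.supp t ht z h0 h, zero_mul])
    (fun t ht z h0 h => by rw [E.supp_fs t ht z h0 h, zero_mul]) hs
  refine h.congr_deriv ?_
  have e1 : ∫ z, fs s z * (en a i).eval z ∂(mu a)
      = ∫ z, ((z * fzz s z + (a + 1 - z) * fz s z) * (en a i).eval z
        + (lam * (f s z * (en a i).eval z) + g s z * (en a i).eval z)) ∂(mu a) := by
    apply integral_congr_ae
    filter_upwards [ae_mu a] with z hz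
    rw [E.eq s hs z hz]
    ring
  have m := poly_memLp E.ha (en a i)
  have i1 := (E.memLp_L hs').integrable_mul m
  have i2 := (E.memLp_f hs').integrable_mul m
  have i3 := (E.memLp_g hs').integrable_mul m
  simp only [Pi.mul_def] at i1 i2 i3
  rw [e1, int3 i1 (i2.const_mul lam) i3, integral_const_mul, E.L_coef hs i]
  ring

/-- derivative of the `L²` norm -/
theorem hasDerivAt_sq {s : ℝ} (hs : s ∈ Ioo s0 s1) :
    HasDerivAt (fun s => ∫ z, f s z ^ 2 ∂(mu a))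
      (2 * (∫ z, (z * fzz s z + (a + 1 - z) * fz s z) * f s z ∂(mu a))
        + 2 * lam * (∫ z, f s z ^ 2 ∂(mu a)) + 2 * ∫ z, f s z * g s z ∂(mu a)) s := by
  have hs' := Ioo_subset_Icc_self hs
  have h := hasDerivAt_int E.ha E.hz1 (G := fun s z => f s z ^ 2)
    (G' := fun s z => 2 * (f s z * fs s z)) (E.cf.pow 2)
    (continuousOn_const.mul (E.cf.mul E.cfs))
    (fun t ht z hz => ((E.ds t ht z hz).pow 2).congr_deriv (by norm_num; ring))
    (fun t ht z h0 h => by rw [E.supp t ht z h0 h]; norm_num)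
    (fun t ht z h0 h => by rw [E.supp t ht z h0 h]; ring) hs
  refine h.congr_deriv ?_
  have e1 : ∫ z, 2 * (f s z * fs s z) ∂(mu a)
      = ∫ z, (2 * ((z * fzz s z + (a + 1 - z) * fz s z) * f s z)
        + (2 * lam * (f s z ^ 2) + 2 * (f s z * g s z))) ∂(mu a) := by
    apply integral_congr_ae
    filter_upwards [ae_mu a] with z hz
    rw [E.eq s hs z hz]
    ring
  have i1 := (E.memLp_L hs').integrable_mul (E.memLp_f hs')
  have i2 := (E.memLp_f hs').integrable_sq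
  have i3 := (E.memLp_f hs').integrable_mul (E.memLp_g hs')
  simp only [Pi.mul_def] at i1 i3
  rw [e1, int3 (i1.const_mul 2) (i2.const_mul (2 * lam)) (i3.const_mul 2),
    integral_const_mul, integral_const_mul, integral_const_mul]
  ring

end Evo

/-! ### the remainder -/

/-- the part of `∫ f²` above the first `N` modes -/
noncomputable def rem (a : ℝ) (N : ℕ) (f : ℝ → ℝ) : ℝ :=
  ∫ z, f z ^ 2 ∂(mu a) - ∑ i ∈ Finset.range N, (∫ z, f z * (en a i).eval z ∂(mu a)) ^ 2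

/-- the polar form of `rem` -/
noncomputable def remB (a : ℝ) (N : ℕ) (f g : ℝ → ℝ) : ℝ :=
  ∫ z, f z * g z ∂(mu a) - ∑ i ∈ Finset.range N,
    (∫ z, f z * (en a i).eval z ∂(mu a)) * ∫ z, g z * (en a i).eval z ∂(mu a)

theorem rem_nonneg {a : ℝ} (ha : -1 < a) (N : ℕ) {f : ℝ → ℝ} (hf : MemLp f 2 (mu a)) :
    0 ≤ rem a N f := sub_nonneg.2 (bessel ha hf _)

theorem rem_le {a : ℝ} (N : ℕ) (f : ℝ → ℝ) : rem a N f ≤ ∫ z, f z ^ 2 ∂(mu a) := by
  unfold rem
  have := Finset.sum_nonneg (s := Finset.range N)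
    (f := fun i => (∫ z, f z * (en a i).eval z ∂(mu a)) ^ 2) fun _ _ => sq_nonneg _
  linarith only [this]

theorem rem_add_smul {a : ℝ} (ha : -1 < a) (N : ℕ) {f g : ℝ → ℝ} (hf : MemLp f 2 (mu a))
    (hg : MemLp g 2 (mu a)) (t : ℝ) :
    rem a N (fun z => f z + t * g z) = rem a N g * (t * t) + 2 * remB a N f g * t + rem a N f := by
  have i1 := hf.integrable_sq
  have i2 := hg.integrable_sq
  have i3 := hf.integrable_mul hg
  simp only [Pi.mul_def] at i3
  have e1 : ∫ z, (f z + t * g z) ^ 2 ∂(mu a)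
      = ∫ z, f z ^ 2 ∂(mu a) + (2 * t * (∫ z, f z * g z ∂(mu a)) + t * t * ∫ z, g z ^ 2 ∂(mu a)) := by
    have e : ∀ z, (f z + t * g z) ^ 2 = f z ^ 2 + (2 * t * (f z * g z) + t * t * g z ^ 2) := by
      intro z; ring
    simp_rw [e]
    rw [int3 i1 (i3.const_mul _) (i2.const_mul _), integral_const_mul, integral_const_mul]
  have e2 : ∀ i, ∫ z, (f z + t * g z) * (en a i).eval z ∂(mu a)
      = (∫ z, f z * (en a i).eval z ∂(mu a)) + t * ∫ z, g z * (en a i).eval z ∂(mu a) := by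
    intro i
    have m := poly_memLp ha (en a i)
    have j1 := hf.integrable_mul m
    have j2 := hg.integrable_mul m
    simp only [Pi.mul_def] at j1 j2
    have e : ∀ z, (f z + t * g z) * (en a i).eval z
        = f z * (en a i).eval z + t * (g z * (en a i).eval z) := by intro z; ring
    simp_rw [e]
    rw [integral_add j1 (j2.const_mul _), integral_const_mul]
  unfold rem remB
  rw [e1]
  simp_rw [e2]
  have e3 : ∀ i, ((∫ z, f z * (en a i).eval z ∂(mu a)) + t * ∫ z, g z * (en a i).eval z ∂(mu a)) ^ 2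
      = (∫ z, f z * (en a i).eval z ∂(mu a)) ^ 2
        + (2 * t * ((∫ z, f z * (en a i).eval z ∂(mu a)) * ∫ z, g z * (en a i).eval z ∂(mu a))
        + t * t * (∫ z, g z * (en a i).eval z ∂(mu a)) ^ 2) := by intro i; ring
  simp_rw [e3, Finset.sum_add_distrib, ← Finset.mul_sum]
  ring

/-- Cauchy-Schwarz for the remainder -/
theorem remB_sq_le {a : ℝ} (ha : -1 < a) (N : ℕ) {f g : ℝ → ℝ} (hf : MemLp f 2 (mu a))
    (hg : MemLp g 2 (mu a)) : remB a N f g ^ 2 ≤ rem a N f * rem a N g := by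
  have h : ∀ t : ℝ, 0 ≤ rem a N g * (t * t) + 2 * remB a N f g * t + rem a N f := by
    intro t
    rw [← rem_add_smul ha N hf hg t]
    exact rem_nonneg ha N (hf.add (hg.const_mul t))
  have h1 := discrim_le_zero h
  unfold discrim at h1
  nlinarith only [h1]

theorem remB_le {a : ℝ} (ha : -1 < a) (N : ℕ) {f g : ℝ → ℝ} (hf : MemLp f 2 (mu a))
    (hg : MemLp g 2 (mu a)) :
    remB a N f g ≤ √(rem a N f) * √(∫ z, g z ^ 2 ∂(mu a)) := by
  rw [← Real.sqrt_mul (rem_nonneg ha N hf)]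
  apply Real.le_sqrt_of_sq_le
  exact (remB_sq_le ha N hf hg).trans
    (mul_le_mul_of_nonneg_left (rem_le N g) (rem_nonneg ha N hf))

namespace Evo

variable {a lam s0 s1 z1 z2 : ℝ} {f fs fz fzz g : ℝ → ℝ → ℝ}
  (E : Evo a lam s0 s1 z1 z2 f fs fz fzz g)
include E

theorem cont_rem (N : ℕ) : ContinuousOn (fun s => rem a N (f s)) (Icc s0 s1) := by
  unfold rem
  exact E.cont_sq.sub (continuousOn_finsetSum _ fun i _ => (E.cont_coef i).pow 2)

/-- **differential inequality for the remainder** -/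
theorem hasDerivAt_rem {s : ℝ} (hs : s ∈ Ioo s0 s1) (N : ℕ) :
    ∃ R' : ℝ, HasDerivAt (fun s => rem a N (f s)) R' s ∧
      R' ≤ 2 * (lam - N) * rem a N (f s) + 2 * (√(rem a N (f s)) * √(∫ z, g s z ^ 2 ∂(mu a))) := by
  have hs' := Ioo_subset_Icc_self hs
  have h1 := E.hasDerivAt_sq hs
  have h2 : HasDerivAt (fun s => ∑ i ∈ Finset.range N,
      (∫ z, f s z * (en a i).eval z ∂(mu a)) ^ 2)
      (∑ i ∈ Finset.range N, 2 * (∫ z, f s z * (en a i).eval z ∂(mu a)) *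
        ((lam - i) * (∫ z, f s z * (en a i).eval z ∂(mu a))
          + ∫ z, g s z * (en a i).eval z ∂(mu a))) s := by
    refine HasDerivAt.fun_sum fun i _ => ?_
    exact ((E.hasDerivAt_coef hs i).pow 2).congr_deriv (by norm_num)
  refine ⟨_, h1.sub h2, ?_⟩
  -- the form inequality for `-L f`
  have h3 := form_lower E.ha (f := f s)
    (g := fun z => -(z * fzz s z + (a + 1 - z) * fz s z)) (lam := fun i => (i : ℝ))
    (E.memLp_f hs') (E.memLp_L hs').neg (fun i => by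
      have h4 := E.L_coef hs i
      simp only [neg_mul, integral_neg] at h4 ⊢
      linarith only [h4]) N (K := N) (fun i hi => by exact_mod_cast hi)
  simp only [neg_mul, integral_neg] at h3
  have h5 := remB_le E.ha N (E.memLp_f hs') (E.memLp_g hs')
  unfold remB at h5
  set c : ℕ → ℝ := fun i => ∫ z, f s z * (en a i).eval z ∂(mu a) with hc
  set γ : ℕ → ℝ := fun i => ∫ z, g s z * (en a i).eval z ∂(mu a) with hγ
  have h6 : rem a N (f s) = ∫ z, f s z ^ 2 ∂(mu a) - ∑ i ∈ Finset.range N, c i ^ 2 := rfl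
  have h7 : ∑ i ∈ Finset.range N, 2 * c i * ((lam - i) * c i + γ i)
      = 2 * lam * ∑ i ∈ Finset.range N, c i ^ 2 - 2 * ∑ i ∈ Finset.range N, (i : ℝ) * c i ^ 2
        + 2 * ∑ i ∈ Finset.range N, c i * γ i := by
    rw [Finset.mul_sum, Finset.mul_sum, Finset.mul_sum, ← Finset.sum_sub_distrib,
      ← Finset.sum_add_distrib]
    refine Finset.sum_congr rfl fun i _ => ?_
    ring
  have h8 : ∑ i ∈ Finset.range N, (i : ℝ) * c i ^ 2 + N * rem a N (f s)
      ≤ -∫ z, (z * fzz s z + (a + 1 - z) * fz s z) * f s z ∂(mu a) := h3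
  rw [h7]
  have h9 : ∫ z, f s z ^ 2 ∂(mu a) = rem a N (f s) + ∑ i ∈ Finset.range N, c i ^ 2 := by
    rw [h6]; ring
  rw [h9]
  linarith only [h5, h8, h5, h8]

end Evo

/-! ### integrated forms -/

theorem prim_deriv {s0 s1 : ℝ} {h : ℝ → ℝ} (hc : ContinuousOn h (Icc s0 s1)) {s : ℝ}
    (hs : s ∈ Ioo s0 s1) : HasDerivAt (fun s => ∫ t in s0..s, h t) (h s) s := by
  have hi : IntervalIntegrable h volume s0 s := by
    apply ContinuousOn.intervalIntegrable
    rw [Set.uIcc_of_le hs.1.le]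
    exact hc.mono (Icc_subset_Icc le_rfl hs.2.le)
  refine intervalIntegral.integral_hasDerivAt_right hi ?_
    (hc.continuousAt (Icc_mem_nhds hs.1 hs.2))
  exact ContinuousOn.stronglyMeasurableAtFilter isOpen_Ioo (hc.mono Ioo_subset_Icc_self) s hs

theorem prim_cont {s0 s1 : ℝ} (h01 : s0 ≤ s1) {h : ℝ → ℝ} (hc : ContinuousOn h (Icc s0 s1)) :
    ContinuousOn (fun s => ∫ t in s0..s, h t) (Icc s0 s1) := by
  have h1 : IntegrableOn h (Set.uIcc s0 s1) volume := by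
    rw [Set.uIcc_of_le h01]
    exact hc.integrableOn_Icc
  have h2 := intervalIntegral.continuousOn_primitive_interval h1
  rwa [Set.uIcc_of_le h01] at h2

/-- Gronwall for square roots -/
theorem sqrt_gronwall {s0 s1 κ : ℝ} {R γ : ℝ → ℝ} (cR : ContinuousOn R (Icc s0 s1))
    (hR : ∀ s ∈ Icc s0 s1, 0 ≤ R s) (cγ : ContinuousOn γ (Icc s0 s1))
    (hγ : ∀ s ∈ Icc s0 s1, 0 ≤ γ s)
    (hd : ∀ s ∈ Ioo s0 s1, ∃ R' : ℝ, HasDerivAt R R' s ∧
      R' ≤ 2 * κ * R s + 2 * (√(R s) * γ s)) {s : ℝ} (hs : s ∈ Icc s0 s1) :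
    √(R s) ≤ Real.exp (κ * (s - s0)) * √(R s0)
      + ∫ σ in s0..s, Real.exp (κ * (s - σ)) * γ σ := by
  have h01 : s0 ≤ s1 := hs.1.trans hs.2
  set Y : ℝ → ℝ := fun σ => Real.exp (-(2 * κ * (σ - s0))) * R σ with hY
  set h : ℝ → ℝ := fun σ => Real.exp (-(κ * (σ - s0))) * γ σ with hh
  have ch : ContinuousOn h (Icc s0 s1) :=
    (by fun_prop : ContinuousOn (fun σ : ℝ => Real.exp (-(κ * (σ - s0)))) (Icc s0 s1)).mul cγ
  have cY : ContinuousOn Y (Icc s0 s1) :=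
    (by fun_prop : ContinuousOn (fun σ : ℝ => Real.exp (-(2 * κ * (σ - s0)))) (Icc s0 s1)).mul cR
  have hYn : ∀ σ ∈ Icc s0 s1, 0 ≤ Y σ := fun σ hσ => mul_nonneg (Real.exp_pos _).le (hR σ hσ)
  have key : ∀ δ : ℝ, 0 < δ → √(Y s + δ) ≤ √(Y s0 + δ) + ∫ σ in s0..s, h σ := by
    intro δ hδ
    have hanti : AntitoneOn (fun σ => √(Y σ + δ) - ∫ t in s0..σ, h t) (Icc s0 s1) := by
      apply antitoneOn_of_deriv_nonpos (convex_Icc _ _)
      · exact ((cY.add continuousOn_const).sqrt).sub (prim_cont h01 ch)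
      · intro σ hσ
        rw [interior_Icc] at hσ
        obtain ⟨R', hR', -⟩ := hd σ hσ
        have hpos : Y σ + δ ≠ 0 := by
          have := hYn σ (Ioo_subset_Icc_self hσ)
          linarith only [hδ, this]
        have e : DifferentiableAt ℝ (fun σ : ℝ => Real.exp (-(2 * κ * (σ - s0)))) σ := by
          fun_prop
        exact (((e.mul hR'.differentiableAt).add_const δ).sqrt hpos |>.sub
          (prim_deriv ch hσ).differentiableAt).differentiableWithinAt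
      · intro σ hσ
        rw [interior_Icc] at hσ
        have hσ' := Ioo_subset_Icc_self hσ
        obtain ⟨R', hR', hle⟩ := hd σ hσ
        have hY0 := hYn σ hσ'
        have hpos : Y σ + δ ≠ 0 := by linarith only [hδ, hY0]
        have e : HasDerivAt (fun σ : ℝ => Real.exp (-(2 * κ * (σ - s0))))
            (Real.exp (-(2 * κ * (σ - s0))) * (-(2 * κ))) σ := by
          have e1 : HasDerivAt (fun σ : ℝ => -(2 * κ * (σ - s0))) (-(2 * κ)) σ :=
            (((hasDerivAt_id σ).sub_const s0).const_mul (2 * κ)).fun_neg.congr_deriv (by ring)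
          exact e1.exp
        have e2 : HasDerivAt (fun σ => √(Y σ + δ) - ∫ t in s0..σ, h t)
            ((Real.exp (-(2 * κ * (σ - s0))) * -(2 * κ) * R σ
              + Real.exp (-(2 * κ * (σ - s0))) * R') / (2 * √(Y σ + δ)) - h σ) σ :=
          (((e.mul hR').add_const δ).sqrt hpos).sub (prim_deriv ch hσ)
        rw [e2.deriv]
        have hsq : 0 < √(Y σ + δ) := Real.sqrt_pos.2 (by linarith only [hδ, hY0])
        rw [sub_nonpos, div_le_iff₀ (by positivity)]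
        set E1 := Real.exp (-(κ * (σ - s0))) with hE1
        have hE : Real.exp (-(2 * κ * (σ - s0))) = E1 * E1 := by
          rw [hE1, ← Real.exp_add]; congr 1; ring
        have hE0 : 0 < E1 := Real.exp_pos _
        have hsY : √(Y σ) = E1 * √(R σ) := by
          simp only [hY]
          rw [hE, Real.sqrt_mul (mul_self_nonneg E1), Real.sqrt_mul_self hE0.le]
        have h1 : √(Y σ) ≤ √(Y σ + δ) := Real.sqrt_le_sqrt (by linarith only [hδ])
        have h2 : E1 * √(R σ) ≤ √(Y σ + δ) := by rw [← hsY]; exact h1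
        have h3 : 0 ≤ E1 * γ σ := mul_nonneg hE0.le (hγ σ hσ')
        have h4 := mul_le_mul_of_nonneg_left h2 h3
        have h5 : E1 * E1 * R' ≤ E1 * E1 * (2 * κ * R σ + 2 * (√(R σ) * γ σ)) :=
          mul_le_mul_of_nonneg_left hle (mul_nonneg hE0.le hE0.le)
        simp only [hh]
        rw [hE, ← hE1]
        nlinarith only [h4, h5, h4, h5]
    have := hanti (left_mem_Icc.2 h01) hs hs.1
    simp only [intervalIntegral.integral_same, sub_zero] at this
    linarith only [this]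
  have hY0 : Y s0 = R s0 := by simp [hY]
  have hR0 := hR s0 (left_mem_Icc.2 h01)
  have h1 : √(Y s) ≤ √(R s0) + ∫ σ in s0..s, h σ := by
    apply le_of_forall_pos_le_add
    intro ε hε
    have h2 := key (ε ^ 2) (by positivity)
    rw [hY0] at h2
    have h3 : √(Y s) ≤ √(Y s + ε ^ 2) := Real.sqrt_le_sqrt (by nlinarith only [])
    have h4 : √(R s0 + ε ^ 2) ≤ √(R s0) + ε := by
      rw [Real.sqrt_le_left (by positivity)]
      nlinarith only [hR0, hε, Real.sq_sqrt hR0, Real.sqrt_nonneg (R s0)]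
    linarith only [h2, h3, h4]
  have hE0 : 0 < Real.exp (κ * (s - s0)) := Real.exp_pos _
  have h5 := mul_le_mul_of_nonneg_left h1 hE0.le
  have h6 : Real.exp (κ * (s - s0)) * √(Y s) = √(R s) := by
    have h7 : Real.exp (-(2 * κ * (s - s0)))
        = Real.exp (-(κ * (s - s0))) * Real.exp (-(κ * (s - s0))) := by
      rw [← Real.exp_add]; congr 1; ring
    simp only [hY]
    rw [h7, Real.sqrt_mul (mul_self_nonneg _), Real.sqrt_mul_self (Real.exp_pos _).le,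
      ← mul_assoc, ← Real.exp_add]
    rw [add_neg_cancel, Real.exp_zero, one_mul]
  rw [h6, mul_add] at h5
  refine h5.trans (le_of_eq ?_)
  congr 1
  rw [← intervalIntegral.integral_const_mul]
  congr 1
  funext σ
  simp only [hh]
  rw [← mul_assoc, ← Real.exp_add]
  congr 2
  ring

/-- variation of constants -/
theorem ode_formula {s0 s1 κ : ℝ} {c γ : ℝ → ℝ} (cc : ContinuousOn c (Icc s0 s1))
    (cγ : ContinuousOn γ (Icc s0 s1))
    (hd : ∀ s ∈ Ioo s0 s1, HasDerivAt c (κ * c s + γ s) s) {s : ℝ} (hs : s ∈ Icc s0 s1) :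
    c s = Real.exp (κ * (s - s0)) * c s0 + ∫ σ in s0..s, Real.exp (κ * (s - σ)) * γ σ := by
  have h01 : s0 ≤ s1 := hs.1.trans hs.2
  set h : ℝ → ℝ := fun σ => Real.exp (-(κ * (σ - s0))) * γ σ with hh
  have ch : ContinuousOn h (Icc s0 s1) :=
    (by fun_prop : ContinuousOn (fun σ : ℝ => Real.exp (-(κ * (σ - s0)))) (Icc s0 s1)).mul cγ
  have h1 : ∫ σ in s0..s, h σ = Real.exp (-(κ * (s - s0))) * c s - c s0 := by
    have h2 := intervalIntegral.integral_eq_sub_of_hasDerivAt_of_le hs.1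
      (f := fun σ => Real.exp (-(κ * (σ - s0))) * c σ) (f' := h) ?_ ?_ ?_
    · rw [h2]
      simp
    · exact ContinuousOn.mono ((by fun_prop : ContinuousOn
        (fun σ : ℝ => Real.exp (-(κ * (σ - s0)))) (Icc s0 s1)).mul cc)
        (Icc_subset_Icc le_rfl hs.2)
    · intro σ hσ
      have e1 : HasDerivAt (fun σ : ℝ => -(κ * (σ - s0))) (-κ) σ :=
        (((hasDerivAt_id σ).sub_const s0).const_mul κ).fun_neg.congr_deriv (by ring)
      refine (e1.exp.mul (hd σ ⟨hσ.1, hσ.2.trans_le hs.2⟩)).congr_deriv ?_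
      simp only [hh]
      ring
    · apply ContinuousOn.intervalIntegrable
      rw [Set.uIcc_of_le hs.1]
      exact ch.mono (Icc_subset_Icc le_rfl hs.2)
  have h3 : ∫ σ in s0..s, Real.exp (κ * (s - σ)) * γ σ
      = Real.exp (κ * (s - s0)) * (∫ σ in s0..s, h σ) := by
    rw [← intervalIntegral.integral_const_mul]
    congr 1
    funext σ
    simp only [hh]
    rw [← mul_assoc, ← Real.exp_add]
    congr 2
    ring
  have h4 : Real.exp (κ * (s - s0)) * Real.exp (-(κ * (s - s0))) = 1 := by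
    rw [← Real.exp_add, add_neg_cancel, Real.exp_zero]
  rw [h3, h1]
  linear_combination (-c s) * h4

namespace Evo

variable {a lam s0 s1 z1 z2 : ℝ} {f fs fz fzz g : ℝ → ℝ → ℝ}
  (E : Evo a lam s0 s1 z1 z2 f fs fz fzz g)
include E

/-- **the remainder, integrated** (`N = 4` in the application) -/
theorem sqrt_rem_le (N : ℕ) {s : ℝ} (hs : s ∈ Icc s0 s1) :
    √(rem a N (f s)) ≤ Real.exp ((lam - N) * (s - s0)) * √(rem a N (f s0))
      + ∫ σ in s0..s, Real.exp ((lam - N) * (s - σ)) * √(∫ z, g σ z ^ 2 ∂(mu a)) :=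
  sqrt_gronwall (R := fun s => rem a N (f s)) (γ := fun s => √(∫ z, g s z ^ 2 ∂(mu a)))
    (E.cont_rem N) (fun _ ht => rem_nonneg E.ha N (E.memLp_f ht)) E.cont_gsq.sqrt
    (fun _ _ => Real.sqrt_nonneg _) (fun _ ht => E.hasDerivAt_rem ht N) hs

/-- **the modes, integrated** -/
theorem coef_eq (i : ℕ) {s : ℝ} (hs : s ∈ Icc s0 s1) :
    ∫ z, f s z * (en a i).eval z ∂(mu a)
      = Real.exp ((lam - i) * (s - s0)) * (∫ z, f s0 z * (en a i).eval z ∂(mu a))
      + ∫ σ in s0..s, Real.exp ((lam - i) * (s - σ)) * ∫ z, g σ z * (en a i).eval z ∂(mu a) :=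
  ode_formula (c := fun s => ∫ z, f s z * (en a i).eval z ∂(mu a))
    (γ := fun s => ∫ z, g s z * (en a i).eval z ∂(mu a))
    (E.cont_coef i) (E.cont_gcoef i) (fun _ ht => E.hasDerivAt_coef ht i) hs

theorem abs_gcoef_le (i : ℕ) {s : ℝ} (hs : s ∈ Icc s0 s1) :
    |∫ z, g s z * (en a i).eval z ∂(mu a)| ≤ √(∫ z, g s z ^ 2 ∂(mu a)) := by
  apply Real.abs_le_sqrt
  have := bessel E.ha (E.memLp_g hs) {i}
  simpa using this

omit E in
/-- the `L²` norm is controlled by the modes and the remainder -/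
theorem sq_eq (N : ℕ) (s : ℝ) :
    ∫ z, f s z ^ 2 ∂(mu a) = ∑ i ∈ Finset.range N, (∫ z, f s z * (en a i).eval z ∂(mu a)) ^ 2
      + rem a N (f s) := by
  unfold rem
  ring

end Evo

end Vale.Agent.P244.ST.Lag
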