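import Vale.Agent.P244.ST.S.PtPure
import Vale.Agent.P244.ST.M.Skel

/-!
# P244 / ST / S : the inner region and the outer region for `PtStatement`
-/

open Set Filter
open scoped ContDiff Topology

namespace Vale.Agent.P244.ST.SS.Pt

open Vale.Agent.P244.ST.M2

variable {w f : Fn} {t x : ℝ} {q : Par} {g : ℝ → ℝ}

/-- everything needed for `core` at one point, with size `m` -/
structure Pin (w f : Fn) (t x m c h : ℝ) : Prop where
  m0 : 0 ≤ m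
  m1 : m ≤ 1
  u : |uu w f t x| ≤ m
  G : |GG w f t x| ≤ 11 / 5 * m
  V : |(rr w f t x) ^ 2 * VV w f t x| ≤ c * m
  Z : |ZZ w f t x - 1| ≤ 4 * (m ^ 2 + h)
  Z1 : 1 / 2 ≤ ZZ w f t x
  Z2 : ZZ w f t x ≤ 6
  E : |39 * (Real.cosh (uu w f t x) - ZZ w f t x)
      - (rr w f t x) ^ 2 * (PP w f t x) ^ 2 / 4 - (rr w f t x) ^ 2 * RR w f t x / 40| ≤ 300

theorem rr_sq (hτ : 0 < tau t) (x : ℝ) : rr w f t x ^ 2 = yv w f t x ^ 2 * tau t := by
  unfold yv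
  rw [div_pow, Real.sq_sqrt hτ.le]
  field_simp

/-- the outer region -/
theorem outer (hFO : M.FO q w f t x) (hrs : 0 < rs w f t x) {h : ℝ}
    (hh : h = rr w f t x ^ 2 * (3 * q.eta)) (hh0 : 0 ≤ h) (hh1 : h ≤ 1)
    (hxi0 : 0 ≤ M.xi q (rr w f t x)) :
    Pin w f t x (M.xi q (rr w f t x)) 1 h := by
  set m := M.xi q (rr w f t x) with hm
  have hm6 := hFO.xi_le
  have hr := rr_pos (w := w) (f := f) (t := t) x
  have hm2 : m ^ 2 ≤ 1 / 10 ^ 12 := by nlinarith only [hxi0, hm6]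
  have hZge := hFO.Z_ge
  have hZle := hFO.Z_le
  have e0 : rr w f t x ^ 2 * (3 * q.eta) / 1640 = h / 1640 := by rw [hh]
  rw [e0] at hZge
  have hZ1 : 1 / 2 ≤ ZZ w f t x := by nlinarith only [hh1, hm2, hZge]
  have hZ2 : ZZ w f t x ≤ 6 := by nlinarith only [hm2, hZle]
  have hPsq : (rr w f t x) ^ 2 * (PP w f t x) ^ 2 ≤ m ^ 2 := by
    have h1 := hFO.P_le
    have h2 : (rr w f t x * |PP w f t x|) ^ 2 ≤ m ^ 2 :=
      pow_le_pow_left₀ (by positivity) h1 2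
    calc _ = (rr w f t x * |PP w f t x|) ^ 2 := by rw [mul_pow, sq_abs]
      _ ≤ _ := h2
  have hZG := ZG (w := w) (f := f) (t := t) x hrs.ne'
  have hG2 : GG w f t x ^ 2 ≤ (11 / 5 * m) ^ 2 := by
    have h1 : 1 / 2 * GG w f t x ^ 2 ≤ ZZ w f t x * GG w f t x ^ 2 :=
      mul_le_mul_of_nonneg_right hZ1 (sq_nonneg _)
    nlinarith only [hPsq, hZG, h1, sq_nonneg m]
  have hG : |GG w f t x| ≤ 11 / 5 * m := abs_le_of_sq_le_sq hG2 (by positivity)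
  have hu1 : |uu w f t x| ≤ 1 := hFO.u_le.trans (by linarith only [hm6])
  have hc2 := cosh_le_two hu1
  have hc1 := Real.one_le_cosh (uu w f t x)
  refine ⟨hxi0, by linarith only [hm6], hFO.u_le, hG, ?_, ?_, hZ1, hZ2, ?_⟩
  · rw [abs_mul, abs_of_pos (by positivity : 0 < (rr w f t x) ^ 2), one_mul]
    exact hFO.V_le
  · rw [abs_le]; constructor <;> nlinarith only [hh0, hZge, hZle]
  · have hR0 := hFO.R_nonneg
    have hR1 := hFO.R_le
    have h1 : 0 ≤ (rr w f t x) ^ 2 * RR w f t x := by positivity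
    have h2 : (rr w f t x) ^ 2 * RR w f t x ≤ h := by
      rw [hh]; exact mul_le_mul_of_nonneg_left hR1 (by positivity)
    have h3 : 0 ≤ (rr w f t x) ^ 2 * (PP w f t x) ^ 2 := by positivity
    rw [abs_le]; constructor <;> linarith only [hh1, hm2, hZle, hPsq, hc1, h2, hZge, hc2, h1, h3]

theorem kapp_le : M.kapp ≤ 11 / 5 := by
  unfold M.kapp; linarith only [kap_lt, kap_gt]

theorem kap_le_kapp : kap ≤ M.kapp := by
  unfold M.kapp; linarith only [kap_gt]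

/-- `T₀ (ρ₀/y)^{κ'} ≤ A y^{-11/5}` -/
theorem T0_le (hρ0 : 0 < q.rho0) (hρ1 : q.rho0 ≤ 1) {y : ℝ} (hy : 0 < y) (hy1 : y ≤ q.rho0)
    (hA : 0 ≤ q.A t) : q.T0 t * (q.rho0 / y) ^ M.kapp ≤ q.A t * y ^ (-(11 / 5 : ℝ)) := by
  unfold Par.T0
  rw [mul_assoc]
  apply mul_le_mul_of_nonneg_left _ hA
  rw [Real.div_rpow hρ0.le hy.le, ← mul_div_assoc, ← Real.rpow_add hρ0, div_eq_mul_inv,
    ← Real.rpow_neg hy.le]
  have h1 : q.rho0 ^ (-kap + M.kapp) ≤ 1 :=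
    Real.rpow_le_one hρ0.le hρ1 (by linarith only [kap_le_kapp])
  have h2 : y ^ (-M.kapp) ≤ y ^ (-(11 / 5 : ℝ)) :=
    Real.rpow_le_rpow_of_exponent_ge hy (hy1.trans hρ1) (by linarith only [kapp_le])
  calc _ ≤ 1 * y ^ (-M.kapp) := mul_le_mul_of_nonneg_right h1 (Real.rpow_nonneg hy.le _)
    _ ≤ _ := by rw [one_mul]; exact h2

theorem pureZ {zs th m h zz : ℝ} (h1 : 1 ≤ zs) (h3 : zs ≤ 41 / 19) (hm : zs - 1 ≤ 11 / 10 * m ^ 2)
    (th0 : th ≤ 0) (thm : -th ≤ m ^ 2 / 10 ^ 4 + h / 1640) (m2 : m ^ 2 ≤ 1) (_hh0 : 0 ≤ h)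
    (hh1 : h ≤ 1) (hzz : zz = zs * (1 + th)) :
    1 / 2 ≤ zz ∧ zz ≤ 6 ∧ |zz - 1| ≤ 4 * (m ^ 2 + h) := by
  have hprod : zs * (-th) ≤ 41 / 19 * (m ^ 2 / 10 ^ 4 + h / 1640) :=
    mul_le_mul h3 thm (by linarith only [th0]) (by norm_num)
  have hprod0 : 0 ≤ zs * (-th) := mul_nonneg (by linarith only [h1]) (by linarith only [th0])
  have hZZ' : zz = zs - zs * (-th) := by rw [hzz]; ring
  have m20 := sq_nonneg m
  rw [hZZ']
  refine ⟨by linarith only [h1, m2, hh1, hprod], by linarith only [hm, m2, hprod0], ?_⟩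
  rw [abs_le]
  constructor <;> linarith only [h1, hm, th0, thm, hprod, hprod0]

theorem Zs_sub_le (hg : IsBub g) {u m : ℝ} (hu0 : 0 < u) (hum : u ≤ m) (hu1 : |u| ≤ 1) :
    Zs g u - 1 ≤ 11 / 10 * m ^ 2 := by
  have hcs := cosh_sub hu1
  have h1 := q_lo hg hu0
  have h2 := Zs_q hg hu0
  have h4 := g_sq_le hg hu0
  have h5 : qb g u = 39 - g u ^ 2 / 4 := rfl
  have h6 : (Zs g u - 1) * qb g u = 39 * (Real.cosh u - 1) + g u ^ 2 / 4 := by
    rw [sub_mul, h2, h5]; ring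
  have hu2 : u ^ 2 ≤ m ^ 2 := pow_le_pow_left₀ hu0.le hum 2
  have h7 : (Zs g u - 1) * qb g u ≤ (11 / 10 * m ^ 2) * 38 := by
    have := sq_nonneg m
    rw [h6]; linarith only [hcs, h4, hu2, this]
  have h8 : (11 / 10 * m ^ 2) * 38 ≤ (11 / 10 * m ^ 2) * qb g u :=
    mul_le_mul_of_nonneg_left h1.le (by positivity)
  exact le_of_mul_le_mul_right (h7.trans h8) (by linarith only [h1])

theorem th_m (hg : IsBub g) {u m th eb h r2 : ℝ} (hu0 : 0 < u) (hum : u ≤ m) (heb0 : 0 ≤ eb)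
    (heb : eb ≤ 1 / 10 ^ 4) (hh0 : 0 ≤ h) (hr : r2 = h)
    (h1 : -th ≤ g u ^ 2 * eb ^ 2 / 148 + r2 / (1640 * Zs g u)) :
    -th ≤ m ^ 2 / 10 ^ 4 + h / 1640 := by
  have h4 := g_sq_le hg hu0
  have hu2 : u ^ 2 ≤ m ^ 2 := pow_le_pow_left₀ hu0.le hum 2
  have h5 : g u ^ 2 * eb ^ 2 ≤ (4.472 * m ^ 2) * (1 / 10 ^ 4) ^ 2 :=
    mul_le_mul (h4.trans (by linarith only [hu2])) (pow_le_pow_left₀ heb0 heb 2) (sq_nonneg _)
      (by positivity)
  have hZs1 := one_le_Zs hg hu0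
  have h6 : r2 / (1640 * Zs g u) ≤ h / 1640 := by
    rw [hr]
    apply div_le_div_of_nonneg_left hh0 (by norm_num)
    linarith only [hZs1]
  have h7 : g u ^ 2 * eb ^ 2 / 148 ≤ m ^ 2 / 10 ^ 4 := by
    have := sq_nonneg m
    linarith only [h5, this]
  linarith only [h1, h6, h7]

theorem G_le' (hg : IsBub g) {u G e : ℝ} (hu0 : 0 < u) (he : |e| ≤ 1 / 10 ^ 4)
    (hG : G = g u * (1 - e)) : |G| ≤ 11 / 5 * u := by
  have hgp := g_pos hg hu0
  have hgu : g u ≤ 2.1147 * u := by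
    have h1 := hg.upper u hu0
    have h2 := tanh_le_self hu0
    have h4 := tanh_pos hu0
    nlinarith only [hu0, h1, h2, kap_lt, kap_gt]
  rw [hG, abs_mul, abs_of_pos hgp]
  have h1 : |1 - e| ≤ 1 + 1 / 10 ^ 4 := by
    have := abs_le.1 he
    rw [abs_le]; constructor <;> linarith only [this, this.1, this.2]
  calc g u * |1 - e| ≤ (2.1147 * u) * (1 + 1 / 10 ^ 4) :=
        mul_le_mul hgu h1 (abs_nonneg _) (by positivity)
    _ ≤ _ := by linarith only [hu0]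

/-- `r² |V| ≤ 3 BV m` in the inner region -/
theorem V_le (hFI : M.FI q g w f t x) (hb2 : |VV w f t x| ≤ q.Vb t (uu w f t x))
    (ht1 : 0 < tau t) (hρ0 : 0 < q.rho0) (hρ1 : q.rho0 ≤ 1) (hBV : 0 ≤ q.BV)
    (hy1 : yv w f t x ≤ q.rho0) (hA : 0 < q.A t) (hm1 : Real.sinh (uu w f t x) ≤ 1) :
    |(rr w f t x) ^ 2 * VV w f t x| ≤ 3 * q.BV * Real.sinh (uu w f t x) := by
  have hu0 := hFI.u_pos
  have h1 := hFI.sinh_le
  generalize hu : uu w f t x = u at *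
  have hy : 0 < yv w f t x := div_pos (rr_pos x) (Real.sqrt_pos.2 ht1)
  have hrs2 := rr_sq (w := w) (f := f) ht1 x
  generalize yv w f t x = y at *
  have hT0 : 0 < q.T0 t := by
    unfold Par.T0; exact mul_pos hA (Real.rpow_pos_of_pos hρ0 _)
  have hm0 : 0 < Real.sinh u := Real.sinh_pos_iff.2 hu0
  have hum : u ≤ Real.sinh u := Real.self_le_sinh_iff.2 hu0.le
  have hu1 : |u| ≤ 1 := by rw [abs_of_pos hu0]; linarith only [hm1, hum]
  have hc2 := cosh_le_two hu1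
  have hc1 := Real.one_le_cosh u
  have hr := rr_pos (w := w) (f := f) (t := t) x
  rw [abs_mul, abs_of_pos (by positivity : 0 < (rr w f t x) ^ 2)]
  have hT := tanh_pos hu0
  have hTm : Real.tanh u ≤ Real.sinh u := (tanh_le_self hu0).trans hum
  generalize Real.sinh u = m at *
  have hratio : Real.tanh u / q.T0 t ≤ 6 / 5 * y ^ (-(11 / 5 : ℝ)) := by
    rw [div_le_iff₀ hT0]
    have h2 : (q.rho0 / y) ^ M.kapp ≤ y ^ (-(11 / 5 : ℝ)) := by
      rw [Real.div_rpow hρ0.le hy.le, div_eq_mul_inv, ← Real.rpow_neg hy.le]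
      have h3 : q.rho0 ^ M.kapp ≤ 1 :=
        Real.rpow_le_one hρ0.le hρ1 (by linarith only [kap_le_kapp, kap_gt])
      have h4 : y ^ (-M.kapp) ≤ y ^ (-(11 / 5 : ℝ)) :=
        Real.rpow_le_rpow_of_exponent_ge hy (hy1.trans hρ1) (by linarith only [kapp_le])
      calc _ ≤ 1 * y ^ (-M.kapp) := mul_le_mul_of_nonneg_right h3 (Real.rpow_nonneg hy.le _)
        _ ≤ _ := by rw [one_mul]; exact h4
    calc Real.tanh u ≤ m := hTm
      _ ≤ 6 / 5 * q.T0 t * (q.rho0 / y) ^ M.kapp := h1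
      _ ≤ 6 / 5 * q.T0 t * y ^ (-(11 / 5 : ℝ)) :=
        mul_le_mul_of_nonneg_left h2 (by positivity)
      _ = _ := by ring
  have hra0 : 0 < Real.tanh u / q.T0 t := div_pos hT hT0
  have hpow : y ^ 2 * (Real.tanh u / q.T0 t) ^ ST.aa ≤ 6 / 5 := by
    have hy' : 0 ≤ y ^ (-(11 / 5 : ℝ)) := Real.rpow_nonneg hy.le _
    have h1 : (Real.tanh u / q.T0 t) ^ ST.aa ≤ (6 / 5 * y ^ (-(11 / 5 : ℝ))) ^ ST.aa :=
      Real.rpow_le_rpow hra0.le hratio (by unfold ST.aa; norm_num)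
    rw [Real.mul_rpow (by norm_num) hy', ← Real.rpow_mul hy.le] at h1
    have h2 : (6 / 5 : ℝ) ^ ST.aa ≤ 6 / 5 := by
      have : (6 / 5 : ℝ) ^ ST.aa ≤ (6 / 5 : ℝ) ^ (1 : ℝ) :=
        Real.rpow_le_rpow_of_exponent_le (by norm_num) (by unfold ST.aa; norm_num)
      rwa [Real.rpow_one] at this
    have h3 : y ^ 2 * y ^ (-(11 / 5 : ℝ) * ST.aa) ≤ 1 := by
      rw [← Real.rpow_natCast y 2, ← Real.rpow_add hy]
      apply Real.rpow_le_one hy.le (hy1.trans hρ1)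
      unfold ST.aa; norm_num
    have h4 : 0 ≤ y ^ (-(11 / 5 : ℝ) * ST.aa) := Real.rpow_nonneg hy.le _
    calc y ^ 2 * (Real.tanh u / q.T0 t) ^ ST.aa
        ≤ y ^ 2 * ((6 / 5 : ℝ) ^ ST.aa * y ^ (-(11 / 5 : ℝ) * ST.aa)) :=
          mul_le_mul_of_nonneg_left h1 (by positivity)
      _ = (6 / 5 : ℝ) ^ ST.aa * (y ^ 2 * y ^ (-(11 / 5 : ℝ) * ST.aa)) := by ring
      _ ≤ (6 / 5) * 1 := mul_le_mul h2 h3 (by positivity) (by norm_num)
      _ = _ := by norm_num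
  have hcosh : Real.cosh u ^ ST.aa ≤ 2 := by
    have : Real.cosh u ^ ST.aa ≤ Real.cosh u ^ (1 : ℝ) :=
      Real.rpow_le_rpow_of_exponent_le hc1 (by unfold ST.aa; norm_num)
    rw [Real.rpow_one] at this
    linarith only [hc2, this]
  have hcosh0 : 0 ≤ Real.cosh u ^ ST.aa := Real.rpow_nonneg (by linarith only [hc1]) _
  have hra : 0 ≤ (Real.tanh u / q.T0 t) ^ ST.aa := Real.rpow_nonneg hra0.le _
  have hfin : (rr w f t x) ^ 2 * q.Vb t u = (q.BV * (y ^ 2 * (Real.tanh u / q.T0 t) ^ ST.aa)) *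
      (Real.tanh u * Real.cosh u ^ ST.aa) := by
    rw [hrs2]
    unfold Par.Vb
    have := ht1.ne'
    field_simp
  calc (rr w f t x) ^ 2 * |VV w f t x| ≤ (rr w f t x) ^ 2 * q.Vb t u :=
        mul_le_mul_of_nonneg_left hb2 (by positivity)
    _ = _ := hfin
    _ ≤ (q.BV * (6 / 5)) * (m * 2) := by
        apply mul_le_mul (mul_le_mul_of_nonneg_left hpow hBV)
          (mul_le_mul hTm hcosh hcosh0 hm0.le) (mul_nonneg hT.le hcosh0) (by positivity)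
    _ ≤ _ := by
      have := mul_nonneg hBV hm0.le
      linarith only [this]

theorem sinh_le' (hFI : M.FI q g w f t x) (ht1 : 0 < tau t)
    (hρ0 : 0 < q.rho0) (hρ1 : q.rho0 ≤ 1) (hy1 : yv w f t x ≤ q.rho0) (hA : 0 < q.A t) :
    Real.sinh (uu w f t x) ≤ 6 / 5 * (q.A t * yv w f t x ^ (-(11 / 5 : ℝ))) := by
  have hy : 0 < yv w f t x := div_pos (rr_pos x) (Real.sqrt_pos.2 ht1)
  have h1 := hFI.sinh_le
  have h2 := T0_le (q := q) (t := t) hρ0 hρ1 hy hy1 hA.le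
  calc Real.sinh (uu w f t x) ≤ 6 / 5 * q.T0 t * (q.rho0 / yv w f t x) ^ M.kapp := h1
    _ = 6 / 5 * (q.T0 t * (q.rho0 / yv w f t x) ^ M.kapp) := by ring
    _ ≤ _ := by linarith only [h2]

/-- the inner region -/
theorem inner (hg : IsBub g) (hFI : M.FI q g w f t x) (hb2 : |VV w f t x| ≤ q.Vb t (uu w f t x))
    (ht1 : 0 < tau t)
    (hρ0 : 0 < q.rho0) (hρ1 : q.rho0 ≤ 1) (hBV : 0 ≤ q.BV)
    (hy1 : yv w f t x ≤ q.rho0) (hA : 0 < q.A t)
    (hm1 : Real.sinh (uu w f t x) ≤ 1) {h : ℝ}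
    (hh : h = rr w f t x ^ 2 * (3 * q.eta)) (hh0 : 0 ≤ h) (hh1 : h ≤ 1) :
    Pin w f t x (Real.sinh (uu w f t x)) (3 * q.BV) h := by
  have hV := V_le hFI hb2 ht1 hρ0 hρ1 hBV hy1 hA hm1
  have hu0 := hFI.u_pos
  have hm0 : 0 < Real.sinh (uu w f t x) := Real.sinh_pos_iff.2 hu0
  have hum : uu w f t x ≤ Real.sinh (uu w f t x) := Real.self_le_sinh_iff.2 hu0.le
  have hu1 : |uu w f t x| ≤ 1 := by rw [abs_of_pos hu0]; linarith only [hm1, hum]
  have hc2 := cosh_le_two hu1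
  have hc1 := Real.one_le_cosh (uu w f t x)
  have hr := rr_pos (w := w) (f := f) (t := t) x
  have heb0 : 0 ≤ M.eb q w f t x := (abs_nonneg _).trans hFI.e_le
  have heb : M.eb q w f t x ≤ 1 / 10 ^ 4 := by
    have h1 := hFI.eb_le
    have h3 : M.eb q w f t x * 1 ≤ M.eb q w f t x * Real.cosh (uu w f t x) :=
      mul_le_mul_of_nonneg_left hc1 heb0
    linarith only [h1, h3]
  have he := hFI.e_le.trans heb
  have hgp := g_pos hg hu0
  have hGe : GG w f t x = g (uu w f t x) * (1 - ee g w f t x) := by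
    unfold ee
    have := hgp.ne'
    field_simp
    ring
  have hG := G_le' hg hu0 he hGe
  have hthm := th_m hg hu0 hum heb0 heb hh0 hh.symm hFI.th_ge
  have hZZ : ZZ w f t x = Zs g (uu w f t x) * (1 + th g w f t x) := by
    unfold th
    have := (Zs_pos hg hu0).ne'
    field_simp
    ring
  obtain ⟨hZ1, hZ2, hZ3⟩ := pureZ (one_le_Zs hg hu0) (by linarith only [hg, hu0, hc2, Zs_le hg hu0])
    (Zs_sub_le hg hu0 hum hu1) hFI.th_le hthm (pow_le_one₀ hm0.le hm1) hh0 hh1 hZZ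
  have hZG := ZG (w := w) (f := f) (t := t) x hFI.rs_pos.ne'
  have hG2 : GG w f t x ^ 2 ≤ 5 := by
    have h1 : |GG w f t x| ≤ 11 / 5 := hG.trans (by linarith only [hm1, hum])
    have h2 : |GG w f t x| ^ 2 ≤ (11 / 5) ^ 2 := pow_le_pow_left₀ (abs_nonneg _) h1 2
    rw [sq_abs] at h2
    norm_num at h2 ⊢
    linarith only [h2]
  refine ⟨hm0.le, hm1, by rw [abs_of_pos hu0]; exact hum, hG.trans (by linarith only [hum]), hV, hZ3, hZ1,
    hZ2, ?_⟩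
  have hR0 := hFI.R_nonneg
  have hR1 := hFI.R_le
  have h1 : 0 ≤ (rr w f t x) ^ 2 * RR w f t x := by positivity
  have h2 : (rr w f t x) ^ 2 * RR w f t x ≤ h := by
    rw [hh]; exact mul_le_mul_of_nonneg_left hR1 (by positivity)
  have h3 : 0 ≤ (rr w f t x) ^ 2 * (PP w f t x) ^ 2 := by positivity
  have h4 : (rr w f t x) ^ 2 * (PP w f t x) ^ 2 ≤ 30 := by
    rw [hZG]
    calc _ ≤ (6 : ℝ) * 5 := mul_le_mul hZ2 hG2 (sq_nonneg _) (by norm_num)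
      _ = 30 := by norm_num
  rw [abs_le]; constructor <;> linarith only [hh1, hc1, hZ2, h2, h4, hc2, hZ1, h1, h3]

end Vale.Agent.P244.ST.SS.Pt
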