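import Vale.Agent.P244.ST.S.PtBr
import Vale.Agent.P244.ST.S.PtIn
import Vale.Agent.P244.ST.S.SBd
import Vale.Agent.P244.ST.S.EvS

/-!
# P244 / ST / S : the pointwise input of block S
-/

open Set Filter
open scoped ContDiff Topology

namespace Vale.Agent.P244.ST.SS.Pt

open Vale.Agent.P244.ST.M2

variable {w f : Fn} {T t x : ℝ} {q : Par} {g : ℝ → ℝ} {X U U1 U2 Z R : ℝ → ℝ → ℝ}

/-- the conclusion at a point of size `m ≤ k M` -/
theorem conclude (hs : ConfSol 20 w f T) (hR : RG.RSol 20 w f T X U U1 U2 Z R)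
    (ht : t ∈ Ico 0 T) (hrs : ∀ x ∈ Ioo (0 : ℝ) 1, 0 < rs w f t x) (hx : x ∈ Ioo (0 : ℝ) 1)
    {m c c' h k M hz : ℝ} (hP : Pin w f t x m c h) (hcc : c ≤ c') (hc' : 0 ≤ c')
    (hh0 : 0 ≤ h) (hk : 1 ≤ k) (hM : 0 ≤ M) (hmk : m ≤ k * M) (hz0 : 0 ≤ hz)
    (hh : h = 4 * hz) :
    |U t (rho w f t x)| ≤ (8 * c' + 8200) * 4 * k ^ 3 * M ∧
    |U1 t (rho w f t x)| ≤ (8 * c' + 8200) * 4 * k ^ 3 * M ∧
    |nl (U t (rho w f t x)) (U1 t (rho w f t x)) (U2 t (rho w f t x)) (Z t (rho w f t x))| ≤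
      (8 * c' + 8200) * 4 * k ^ 3 * M * (M ^ 2 + hz) := by
  have e1 := CV.U_zt hR ht hx
  have e2 := PtBr.U1_pt hs hR ht hx (hrs x hx)
  have e3 := PtBr.Z_pt hs hR ht hx
  have e4 := PtBr.V_pt hs hR ht hrs hx
  have hU1 : |U1 t (rho w f t x)| ≤ 11 / 5 * m := by rw [e2, abs_neg]; exact hP.G
  have hV : |(rr w f t x) ^ 2 * VV w f t x| ≤ c' * m :=
    hP.V.trans (mul_le_mul_of_nonneg_right hcc hP.m0)
  have key := core hP.m0 hP.m1 hP.u hU1 hV hc' hh0 hP.Z hP.Z1 hP.Z2 hP.E e4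
  rw [e1, e3]
  exact final hP.m0 hk hM hmk hc' hz0 hh hP.u hU1 key.2

/-- the constant -/
noncomputable def C1 (q : Par) : ℝ :=
  (8 * (1 + 3 * |q.BV|) + 8200) * 4 * (2 + 64 * |M.K1 q|) ^ 3

theorem A_pos' (he : 0 < q.eps) (hτ : 0 < tau t) : 0 < q.A t := CV.A_pos he hτ

/-- smallness of `A y^{-11/5}` in the inner region -/
theorem small_in {y : ℝ} (hd : 0 < q.d0) (he : 0 < q.eps) (hτ : 0 < tau t) (hτ1 : tau t ≤ 1)
    (heps : q.eps ≤ q.d0 ^ (11 / 5 : ℝ) / 2) (hy : 0 < y)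
    (hz : z0 q.d0 (st t) ≤ y ^ 2 / 4) : 6 / 5 * (q.A t * y ^ (-(11 / 5 : ℝ))) ≤ 1 := by
  have h1 : q.d0 ^ 2 * tau t ^ (1 / 5 : ℝ) ≤ y ^ 2 := by
    unfold z0 at hz
    rw [show (-st t / 5 : ℝ) = -(1 / 5 * st t) by ring, CV.exp_st hτ] at hz
    linarith only [hz]
  have hτ5 : 0 < tau t ^ (1 / 5 : ℝ) := Real.rpow_pos_of_pos hτ _
  have h2 : y ^ (-(11 / 5 : ℝ)) ≤ q.d0 ^ (-(11 / 5 : ℝ)) * tau t ^ (-(11 / 50 : ℝ)) := by
    have e1 : y ^ (-(11 / 5 : ℝ)) = (y ^ 2) ^ (-(11 / 10 : ℝ)) := by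
      rw [← Real.rpow_natCast y 2, ← Real.rpow_mul hy.le]
      norm_num
    have e2 : q.d0 ^ (-(11 / 5 : ℝ)) * tau t ^ (-(11 / 50 : ℝ)) =
        (q.d0 ^ 2 * tau t ^ (1 / 5 : ℝ)) ^ (-(11 / 10 : ℝ)) := by
      rw [Real.mul_rpow (by positivity) hτ5.le, ← Real.rpow_natCast q.d0 2,
        ← Real.rpow_mul hd.le, ← Real.rpow_mul hτ.le]
      norm_num
    rw [e1, e2]
    exact Real.rpow_le_rpow_of_nonpos (by positivity) h1 (by norm_num)
  have hA : q.A t = q.eps * tau t ^ lam 3 := rfl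
  have hd5 : 0 < q.d0 ^ (11 / 5 : ℝ) := Real.rpow_pos_of_pos hd _
  have h3 : q.A t * y ^ (-(11 / 5 : ℝ)) ≤ q.eps * q.d0 ^ (-(11 / 5 : ℝ)) := by
    have h4 : tau t ^ lam 3 * tau t ^ (-(11 / 50 : ℝ)) ≤ 1 := by
      rw [← Real.rpow_add hτ]
      apply Real.rpow_le_one hτ.le hτ1
      unfold lam
      norm_num
      linarith only [kap_lt]
    have h5 : 0 ≤ q.eps * q.d0 ^ (-(11 / 5 : ℝ)) :=
      mul_nonneg he.le (Real.rpow_nonneg hd.le _)
    calc q.A t * y ^ (-(11 / 5 : ℝ)) ≤ q.A t * (q.d0 ^ (-(11 / 5 : ℝ)) * tau t ^ (-(11 / 50 : ℝ))) :=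
          mul_le_mul_of_nonneg_left h2 (A_pos' he hτ).le
      _ = (q.eps * q.d0 ^ (-(11 / 5 : ℝ))) * (tau t ^ lam 3 * tau t ^ (-(11 / 50 : ℝ))) := by
          rw [hA]; ring
      _ ≤ (q.eps * q.d0 ^ (-(11 / 5 : ℝ))) * 1 := mul_le_mul_of_nonneg_left h4 h5
      _ = _ := mul_one _
  have h6 : q.eps * q.d0 ^ (-(11 / 5 : ℝ)) ≤ 1 / 2 := by
    rw [Real.rpow_neg hd.le, ← div_eq_mul_inv, div_le_iff₀ hd5]
    linarith only [heps]
  linarith only [h3, h6]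

/-- size of `ξ` -/
theorem xi_le (hK : 0 ≤ M.K1 q) (hτ : 0 < tau t) (he : 0 < q.eps) (x : ℝ) :
    M.xi q (rr w f t x) ≤ 64 * M.K1 q * (q.A t * en (yv w f t x ^ 2 / 4)) := by
  have hy : 0 < yv w f t x := CV.yv_pos hτ x
  have hr := rr_pos (w := w) (f := f) (t := t) x
  have h1 : rr w f t x ^ bb = (4 * (yv w f t x ^ 2 / 4)) ^ lam 3 * tau t ^ lam 3 := by
    rw [show 4 * (yv w f t x ^ 2 / 4) = yv w f t x ^ 2 by ring,
      ← Real.mul_rpow (by positivity) hτ.le, ← rr_sq hτ, ← Real.rpow_natCast (rr w f t x) 2,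
      ← Real.rpow_mul hr.le]
    congr 1
    unfold bb lam
    push_cast
    ring
  have hl0 : 0 ≤ lam 3 := by unfold lam; norm_num; linarith only [kap_lt]
  have hl3 : lam 3 ≤ 3 := by unfold lam; norm_num; linarith only [kap_gt]
  have h2 := pow_le_en (z := yv w f t x ^ 2 / 4) (by positivity) hl0 hl3
  unfold M.xi
  rw [h1]
  have hA : q.A t = q.eps * tau t ^ lam 3 := rfl
  have hτl : 0 < tau t ^ lam 3 := Real.rpow_pos_of_pos hτ _
  calc M.K1 q * q.eps * ((4 * (yv w f t x ^ 2 / 4)) ^ lam 3 * tau t ^ lam 3)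
      = (M.K1 q * (q.eps * tau t ^ lam 3)) * (4 * (yv w f t x ^ 2 / 4)) ^ lam 3 := by ring
    _ ≤ (M.K1 q * (q.eps * tau t ^ lam 3)) * (64 * en (yv w f t x ^ 2 / 4)) :=
        mul_le_mul_of_nonneg_left h2 (by positivity)
    _ = _ := by rw [hA]; ring

theorem ptOf : PtOfStatement := by
  intro hM2 hBd _ g hg
  refine ⟨C1, ?_, ?_, ?_⟩
  · intro q q' hB hρ hBV hMU hMP hMV hCU hCP hCV hGR
    unfold C1 M.K1
    rw [hρ, hBV, hMU, hMP, hMV, hCU, hCP, hCV]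
  · intro q
    unfold C1
    positivity
  have hev1 := hM2 g hg
  have hev2 := hBd g hg
  have hev3 := ev_pos (K := 10 ^ 6) (by norm_num)
  have hev4 : Ev fun q => q.eps ≤ q.d0 ^ (11 / 5 : ℝ) / 2 :=
    ev_eps (F := fun q => q.d0 ^ (11 / 5 : ℝ) / 2)
      (fun q q' _ _ hd _ => by simp only [hd])
      (fun q _ _ hd _ => by have := Real.rpow_pos_of_pos hd (11 / 5 : ℝ); positivity)
  refine Ev.mono (((hev1.and hev2).and hev3).and hev4) ?_
  rintro q ⟨⟨⟨hM2q, hBdq⟩, hpos⟩, heps⟩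
  intro w f T hT hT1 hsol hqual X U U1 U2 Z R hR t₁ ht₁ hboot t ht z hz0 hbe
  have htT : t ∈ Ico 0 T := ⟨ht.1, ht.2.trans_lt ht₁.2⟩
  have hτ : 0 < tau t := CV.tau_pos hT1 htT
  have hτ1 : tau t ≤ 1 := by unfold tau; linarith only [ht, ht.1]
  have hN : (10 : ℝ) ^ 6 ≤ q.N := hpos.N
  have hN0 : 0 < q.N := lt_of_lt_of_le (by norm_num) hN
  have hFT : M.FT q g w f T t := ⟨hT1, hsol, hqual, htT, fun x hx => hboot.b5 t ht x hx,
    hboot.b0 t ht, fun x hx hy => hBdq w f T hT hT1 hsol hqual t₁ ht₁ hboot t ht x hx hy⟩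
  obtain ⟨hI, hO⟩ := hM2q w f T t hFT
  have hexp : Real.exp (-st t) = tau t := by
    have := CV.exp_st (t := t) hτ 1
    rwa [one_mul, Real.rpow_one] at this
  have hzpos : 0 < z := lt_of_lt_of_le (by
    unfold z0; have := hpos.d0; positivity) hz0
  have hzN : z * tau t ≤ q.N := by
    unfold be at hbe
    rw [hexp, div_le_iff₀ hN0] at hbe
    linarith only [hbe]
  have hzlt : z < CV.zt w f t 0 := by
    have hb0 := hboot.b0 t ht
    have h1 : (q.N / 4) ^ 2 ≤ rr w f t 0 ^ 2 := pow_le_pow_left₀ (by positivity) hb0 2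
    rw [rr_sq hτ] at h1
    have h2 : z * tau t < CV.zt w f t 0 * tau t := by
      unfold CV.zt
      nlinarith only [hN, hzN, h1]
    exact lt_of_mul_lt_mul_right h2 hτ.le
  have hzm : z ∈ CV.zt w f t '' Ioo 0 1 := by
    rw [CV.zt_image hτ hR htT]; exact ⟨hzpos, hzlt⟩
  obtain ⟨x, hx, rfl⟩ := hzm
  rw [CV.tt_st hτ, CV.lr_zt hτ, CV.Am_eq hτ, hexp]
  have hrs : ∀ x ∈ Ioo (0 : ℝ) 1, 0 < rs w f t x := fun x hx => hqual.rs_pos t htT x hx
  have hy : 0 < yv w f t x := CV.yv_pos hτ x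
  have hA : 0 < q.A t := A_pos' hpos.eps hτ
  have hen := en_ge_one hzpos
  have heta : 0 < q.eta := by unfold Par.eta; positivity
  set h : ℝ := rr w f t x ^ 2 * (3 * q.eta) with hh
  set hz : ℝ := CV.zt w f t x * tau t * (3 * q.eta) with hhz
  have hrr2 := rr_sq (w := w) (f := f) hτ x
  have hrrN : rr w f t x ^ 2 ≤ 4 * q.N := by
    rw [hrr2]
    unfold CV.zt at hzN
    linarith only [hzN]
  have hh4 : h = 4 * hz := by
    rw [hh, hhz, hrr2]; unfold CV.zt; ring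
  have hh0 : 0 ≤ h := by rw [hh]; positivity
  have hz0' : 0 ≤ hz := by linarith only [hh4, hh0]
  have hh1 : h ≤ 1 := by
    rw [hh]
    calc rr w f t x ^ 2 * (3 * q.eta) ≤ (4 * q.N) * (3 * q.eta) :=
          mul_le_mul_of_nonneg_right hrrN (by positivity)
      _ = 12 * 10 ^ 4 / q.N := by unfold Par.eta; field_simp; norm_num
      _ ≤ 1 := by rw [div_le_one hN0]; linarith only [hN]
  have hM0 : 0 ≤ q.A t * en (CV.zt w f t x) := mul_nonneg hA.le (by linarith only [hen])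
  have hk : 1 ≤ 2 + 64 * |M.K1 q| := by have := abs_nonneg (M.K1 q); linarith only [this]
  have hc' : 0 ≤ 1 + 3 * |q.BV| := by positivity
  have hρ1 : q.rho0 ≤ 1 := hpos.rho0'.trans (by norm_num)
  have hBV : 0 ≤ q.BV := le_trans (by norm_num) hpos.BV
  have hres : ∀ m c : ℝ, Pin w f t x m c h → c ≤ 1 + 3 * |q.BV| →
      m ≤ (2 + 64 * |M.K1 q|) * (q.A t * en (CV.zt w f t x)) →
      |U t (rho w f t x)| ≤ C1 q * q.A t * en (CV.zt w f t x) ∧
      |U1 t (rho w f t x)| ≤ C1 q * q.A t * en (CV.zt w f t x) ∧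
      |nl (U t (rho w f t x)) (U1 t (rho w f t x)) (U2 t (rho w f t x)) (Z t (rho w f t x))| ≤
        C1 q * q.A t * en (CV.zt w f t x) * (q.A t ^ 2 * en (CV.zt w f t x) ^ 2
          + CV.zt w f t x * tau t * (3 * q.eta)) := by
    intro m c hP hc hm
    obtain ⟨a1, a2, a3⟩ := conclude hsol hR htT hrs hx hP hc hc' hh0 hk hM0 hm hz0' hh4
    unfold C1
    refine ⟨a1.trans_eq (by ring), a2.trans_eq (by ring), a3.trans_eq (by rw [hhz]; ring)⟩
  rcases le_total (yv w f t x) q.rho0 with hyr | hyr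
  · have hFI := hI x hx hyr
    have hb2 := (hboot.b5 t ht x ⟨hx.1.le, hx.2⟩).b2 hx.1 hyr
    have hsinh := sinh_le' hFI hτ hpos.rho0 hρ1 hyr hA
    have hsm := small_in hpos.d0 hpos.eps hτ hτ1 heps hy hz0
    have hP := inner hg hFI hb2 hτ hpos.rho0 hρ1 hBV hyr hA (hsinh.trans hsm) hh hh0 hh1
    refine hres _ _ hP (by rw [abs_of_nonneg hBV]; linarith only []) ?_
    have h1 := inv_le_en hy
    have h2 : q.A t * yv w f t x ^ (-(11 / 5 : ℝ)) ≤ q.A t * en (CV.zt w f t x) :=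
      mul_le_mul_of_nonneg_left h1 hA.le
    have h3 : 0 ≤ |M.K1 q| * (q.A t * en (CV.zt w f t x)) := mul_nonneg (abs_nonneg _) hM0
    nlinarith only [hM0, hsinh, h2, h3]
  · have hrN : rr w f t x ≤ q.N := by
      have h1 : rr w f t x ^ 2 ≤ q.N ^ 2 := by nlinarith only [hN, hrrN]
      exact (abs_le_of_sq_le_sq' h1 hN0.le).2
    have hFO := hO x ⟨hx.1.le, hx.2⟩ hyr hrN
    have hK : 0 ≤ M.K1 q := by
      unfold M.K1
      have h1 := hpos.MU; have h2 := hpos.MP; have h3 := hpos.MV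
      have h4 := hpos.CU; have h5 := hpos.CP; have h6 := hpos.CV
      have h7 := hpos.rho0
      apply div_nonneg _ (by positivity)
      linarith only [h1, h2, h3, h4, h5, h6]
    have hxi0 : 0 ≤ M.xi q (rr w f t x) := (abs_nonneg _).trans hFO.u_le
    have hP := outer hFO (hrs x hx) hh hh0 hh1 hxi0
    refine hres _ _ hP (by have := abs_nonneg q.BV; linarith only [this]) ?_
    have h1 := xi_le (w := w) (f := f) hK hτ hpos.eps x
    refine h1.trans ?_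
    rw [abs_of_nonneg hK]
    have h2 : CV.zt w f t x = yv w f t x ^ 2 / 4 := rfl
    rw [← h2]
    linarith only [hM0]

end Vale.Agent.P244.ST.SS.Pt
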