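import Vale.Agent.P244.ST.S.RGInv

/-!
# P244 / ST / S : r-gauge package, algebra
-/

open Set Filter
open scoped ContDiff Topology

namespace Vale.Agent.P244.ST.RG

open Vale.Agent.P244.ST.Apr

noncomputable section

lemma alg_dt (a b x w1 w2 f1 f2 J p : ℝ) :
    a * (((-2 * x) * (f1 - w1) + (1 - x ^ 2) * (f2 - w2) + 1) * (x - (1 - x ^ 2) * (f1 + w1))
      - ((1 - x ^ 2) * (f1 - w1) + x) * (1 + 2 * x * (f1 + w1) - (1 - x ^ 2) * (f2 + w2)))
      - 2 * a * (p - 1) * f1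
      - (p - 1) * b * (((1 - x ^ 2) * (f1 - w1) + x) + (x - (1 - x ^ 2) * (f1 + w1))) =
    ((a * ((1 - x ^ 2) * f2 - (p + 1) * x * f1) - (p - 1) * b - (1 - x ^ 2) * f1 * J)
      - (a * (((1 - x ^ 2) * w2 - (p + 1) * x * w1) - p) + (x - (1 - x ^ 2) * w1) * J)) *
        (x - (1 - x ^ 2) * (f1 + w1)) +
    ((1 - x ^ 2) * (f1 - w1) + x) *
    ((a * ((1 - x ^ 2) * f2 - (p + 1) * x * f1) - (p - 1) * b - (1 - x ^ 2) * f1 * J)
      + (a * (((1 - x ^ 2) * w2 - (p + 1) * x * w1) - p) + (x - (1 - x ^ 2) * w1) * J)) := by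
  ring

lemma alg_dZ (a b x w1 w2 f1 f2 p : ℝ) (hp : p ≠ 0) :
    a * (-((x - (1 - x ^ 2) * (f1 + w1)) * ((1 - x ^ 2) * (f1 - w1) + x) +
      2 * (1 - x ^ 2) * (1 + 2 * x * (f1 + w1) - (1 - x ^ 2) * (f2 + w2))) / 2) =
    (p - 1) * (a + (1 - x ^ 2) * b) / 2 - (2 * p - 1) * a * (x - (1 - x ^ 2) * (f1 + w1)) ^ 2 / 4
      - a * ((1 - x ^ 2) * (f1 - w1) + x) ^ 2 / 4
      - (1 - x ^ 2) * ((-(a * (((1 - x ^ 2) * w2 - (p + 1) * x * w1) - p - x * ((p - 1) * w1 + p * f1)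
      + (1 - x ^ 2) * w1 * ((p - 1) * w1 + p * f1))) - a * (1 - x ^ 2) *
    ((p - 1) * (w2 - w1 ^ 2)
      + p * (f2 + f1 ^ 2 - 2 * w1 * f1)))
      + p * (-(a * (((1 - x ^ 2) * f2 - (p + 1) * x * f1)
        + (1 - x ^ 2) * f1 * ((p - 1) * w1 + p * f1))) + (p - 1) * b)
      + p * (-(a * (((1 - x ^ 2) * w2 - (p + 1) * x * w1) - p - x * ((p - 1) * w1 + p * f1)
      + (1 - x ^ 2) * w1 * ((p - 1) * w1 + p * f1))))) / (2 * p) := by
  field_simp
  ring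

/-- `D = x - (1-x²)(F_x + ω_x) = -2 (1-x²) ρ_x`. -/
def DD (w f : ℝ → ℝ) (x : ℝ) : ℝ := x - (1 - x ^ 2) * (dx f x + dx w x)
/-- `N = (1-x²) u_x`. -/
def NN (w f : ℝ → ℝ) (x : ℝ) : ℝ := (1 - x ^ 2) * (dx f x - dx w x) + x
def DDx (w f : ℝ → ℝ) (x : ℝ) : ℝ :=
  1 + 2 * x * (dx f x + dx w x) - (1 - x ^ 2) * (dx (dx f) x + dx (dx w) x)
def NNx (w f : ℝ → ℝ) (x : ℝ) : ℝ :=
  (-2 * x) * (dx f x - dx w x) + (1 - x ^ 2) * (dx (dx f) x - dx (dx w) x) + 1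
def u1 (w f : ℝ → ℝ) (x : ℝ) : ℝ := -2 * NN w f x / DD w f x
def u2 (w f : ℝ → ℝ) (x : ℝ) : ℝ :=
  4 * (1 - x ^ 2) * (NNx w f x * DD w f x - NN w f x * DDx w f x) / (DD w f x) ^ 3

section fixed
variable {p : ℕ} {w f : ℝ → ℝ} {x : ℝ}

lemma rhx_eq (hx : x ∈ Ioo (-1 : ℝ) 1) : rhx w f x = -DD w f x / (2 * (1 - x ^ 2)) := by
  have := (one_sub_sq_pos hx).ne'
  unfold rhx DD
  field_simp
  ring

lemma ux_eq (hx : x ∈ Ioo (-1 : ℝ) 1) : ux w f x = NN w f x / (1 - x ^ 2) := by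
  have := (one_sub_sq_pos hx).ne'
  unfold ux NN
  field_simp

lemma DD_pos (hx : x ∈ Ioo (-1 : ℝ) 1) (h : rhx w f x < 0) : 0 < DD w f x := by
  have h1 := one_sub_sq_pos hx
  rw [rhx_eq hx, div_neg_iff] at h
  rcases h with h | h
  · linarith only [h1, h]
  · linarith only [h]

lemma u1_eq (hx : x ∈ Ioo (-1 : ℝ) 1) (h : rhx w f x < 0) : ux w f x / rhx w f x = u1 w f x := by
  have h1 := (one_sub_sq_pos hx).ne'
  have h2 := (DD_pos hx h).ne'
  rw [ux_eq hx, rhx_eq hx, u1]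
  field_simp

lemma DD_deriv (hw : Sx w) (hf : Sx f) (hx : x ∈ Ioo (-1 : ℝ) 1) :
    HasDerivAt (DD w f) (DDx w f x) x := by
  have h1 := hasDerivAt_of_sx hw.dx hx
  have h2 := hasDerivAt_of_sx hf.dx hx
  have h3 : HasDerivAt (fun y : ℝ => 1 - y ^ 2) (-(2 * x)) x := by
    simpa using ((hasDerivAt_id x).pow 2).const_sub 1
  have h4 := (hasDerivAt_id x).sub (h3.mul (h2.add h1))
  have h5 : HasDerivAt (DD w f) _ x := h4
  convert h5 using 1
  simp only [DDx, Pi.add_apply]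
  ring

lemma NN_deriv (hw : Sx w) (hf : Sx f) (hx : x ∈ Ioo (-1 : ℝ) 1) :
    HasDerivAt (NN w f) (NNx w f x) x := by
  have h1 := hasDerivAt_of_sx hw.dx hx
  have h2 := hasDerivAt_of_sx hf.dx hx
  have h3 : HasDerivAt (fun y : ℝ => 1 - y ^ 2) (-(2 * x)) x := by
    simpa using ((hasDerivAt_id x).pow 2).const_sub 1
  have h4 := (h3.mul (h2.sub h1)).add (hasDerivAt_id x)
  have h5 : HasDerivAt (NN w f) _ x := h4
  convert h5 using 1
  simp only [NNx, Pi.sub_apply]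
  ring

lemma u1_deriv (hw : Sx w) (hf : Sx f) (hx : x ∈ Ioo (-1 : ℝ) 1) (h : rhx w f x < 0) :
    HasDerivAt (u1 w f) (u2 w f x * rhx w f x) x := by
  have h2 := (DD_pos hx h).ne'
  have h3 := ((NN_deriv hw hf hx).const_mul (-2)).div (DD_deriv hw hf hx) h2
  have h4 : HasDerivAt (u1 w f) _ x := h3
  convert h4 using 1
  rw [rhx_eq hx, u2]
  have h1 := (one_sub_sq_pos hx).ne'
  field_simp
  ring

lemma uu_deriv (hw : Sx w) (hf : Sx f) (hx : x ∈ Ioo (-1 : ℝ) 1) :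
    HasDerivAt (uu w f) (ux w f x) x := by
  have h1 := hasDerivAt_of_sx hw hx
  have h2 := hasDerivAt_of_sx hf hx
  have h3 : HasDerivAt (fun y : ℝ => 1 - y ^ 2) (-(2 * x)) x := by
    simpa using ((hasDerivAt_id x).pow 2).const_sub 1
  have h4 := h3.log (one_sub_sq_pos hx).ne'
  have h5 := (h2.sub h1).sub (h4.div_const 2)
  have h6 : HasDerivAt (uu w f) _ x := h5
  convert h6 using 1
  unfold ux
  have := (one_sub_sq_pos hx).ne'
  field_simp
  ring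

/-- `Z` without square root of a cube -/
lemma ZZ_eq (hx : x ∈ Ioo (-1 : ℝ) 1) : ZZ p w f x =
    Real.exp (f x - w x) * (DD w f x) ^ 2 / (4 * ze p * Real.sqrt (1 - x ^ 2)) := by
  have h1 := one_sub_sq_pos hx
  have h0 : 0 < Real.sqrt (1 - x ^ 2) := Real.sqrt_pos.2 h1
  unfold ZZ
  rw [rhx_eq hx]
  obtain ⟨s, hs, hs0⟩ : ∃ s, Real.sqrt (1 - x ^ 2) = s ∧ 0 < s := ⟨_, rfl, h0⟩
  have hs2 : 1 - x ^ 2 = s ^ 2 := by rw [← hs, Real.sq_sqrt h1.le]
  rw [hs, hs2]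
  rcases eq_or_ne (ze p) 0 with hz | hz
  · rw [hz]; simp
  · field_simp
    ring

lemma ZZ_deriv (hw : Sx w) (hf : Sx f) (hx : x ∈ Ioo (-1 : ℝ) 1) (h : rhx w f x < 0) (hp : 2 ≤ p) :
    HasDerivAt (ZZ p w f) (-(Real.exp (f x - w x) / (2 * ze p * Real.sqrt (1 - x ^ 2))) *
      (DD w f x * NN w f x + 2 * (1 - x ^ 2) * DDx w f x) * rhx w f x) x := by
  have h1 := one_sub_sq_pos hx
  have h0 : 0 < Real.sqrt (1 - x ^ 2) := Real.sqrt_pos.2 h1
  have hz : 0 < ze p := by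
    unfold ze
    have : (2 : ℝ) ≤ p := by exact_mod_cast hp
    apply div_pos <;> linarith only [this]
  have h2 := DD_pos hx h
  have e1 := hasDerivAt_of_sx hw hx
  have e2 := hasDerivAt_of_sx hf hx
  have h3 : HasDerivAt (fun y : ℝ => 1 - y ^ 2) (-(2 * x)) x := by
    simpa using ((hasDerivAt_id x).pow 2).const_sub 1
  have h4 := h3.sqrt h1.ne'
  have h5 := ((e2.sub e1).exp.mul ((DD_deriv hw hf hx).pow 2)).div (h4.const_mul (4 * ze p))
    (by positivity)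
  have h6 : ZZ p w f =ᶠ[𝓝 x] fun y =>
      Real.exp (f y - w y) * (DD w f y) ^ 2 / (4 * ze p * Real.sqrt (1 - y ^ 2)) := by
    filter_upwards [Ioo_mem_nhds hx.1 hx.2] with y hy
    exact ZZ_eq hy
  have h7 : HasDerivAt (ZZ p w f) _ x := HasDerivAt.congr_of_eventuallyEq h5 h6
  convert h7 using 1
  rw [rhx_eq hx]
  simp only [Pi.sub_apply, Pi.mul_apply, Pi.pow_apply]
  have hDN : NN w f x = (1 - x ^ 2) * (dx f x - dx w x) + x := rfl
  rw [hDN]
  obtain ⟨s, hs, hs0⟩ : ∃ s, Real.sqrt (1 - x ^ 2) = s ∧ 0 < s := ⟨_, rfl, h0⟩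
  have hs2 : 1 - x ^ 2 = s ^ 2 := by rw [← hs, Real.sq_sqrt h1.le]
  rw [hs, hs2]
  field_simp
  ring

/-- exponentials in terms of `w, f, x` -/
lemma exp_uu (hx : x ∈ Ioo (-1 : ℝ) 1) :
    Real.exp (uu w f x) = Real.exp (f x - w x) / Real.sqrt (1 - x ^ 2) := by
  have h1 := one_sub_sq_pos hx
  unfold uu
  rw [Real.exp_sub, ← Real.log_sqrt h1.le, Real.exp_log (Real.sqrt_pos.2 h1)]

lemma ze_pos (hp : 2 ≤ p) : 0 < ze p := by
  unfold ze
  have : (2 : ℝ) ≤ p := by exact_mod_cast hp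
  apply div_pos <;> linarith only [this]

lemma exp_rh (hx : x ∈ Ioo (-1 : ℝ) 1) (hp : 2 ≤ p) :
    Real.exp (2 * rh p w f x) = Real.exp (f x + w x) * Real.sqrt (1 - x ^ 2) / ze p := by
  have h1 := one_sub_sq_pos hx
  unfold rh
  rw [show 2 * ((f x + w x + Real.log (1 - x ^ 2) / 2 - Real.log (ze p)) / 2) =
    (f x + w x + Real.log (Real.sqrt (1 - x ^ 2))) - Real.log (ze p) by
      rw [Real.log_sqrt h1.le]; ring]
  rw [Real.exp_sub, Real.exp_add (f x + w x), Real.exp_log (Real.sqrt_pos.2 h1),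
    Real.exp_log (ze_pos hp)]

/-- equation (E3) -/
lemma E3 (hx : x ∈ Ioo (-1 : ℝ) 1) (h : rhx w f x < 0) (hp : 2 ≤ p) :
    -(Real.exp (f x - w x) / (2 * ze p * Real.sqrt (1 - x ^ 2))) *
      (DD w f x * NN w f x + 2 * (1 - x ^ 2) * DDx w f x) =
    (2 * (p : ℝ) - 1) * (Real.cosh (uu w f x) - ZZ p w f x) - ZZ p w f x * (u1 w f x) ^ 2 / 4
      - Real.exp (2 * rh p w f x) * scal p w f x / (2 * p) := by
  have h1 := one_sub_sq_pos hx
  have h2 := DD_pos hx h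
  have hp' : (2 : ℝ) ≤ p := by exact_mod_cast hp
  have hp0 : (p : ℝ) ≠ 0 := by positivity
  have hzp := ze_pos hp
  have hze : ze p * (2 * (p : ℝ) - 1) = (p : ℝ) - 1 := by
    unfold ze
    have : 2 * (p : ℝ) - 1 ≠ 0 := by linarith only [hp']
    rw [div_mul_cancel₀ _ this]
  have h0 : 0 < Real.sqrt (1 - x ^ 2) := Real.sqrt_pos.2 h1
  have key := alg_dZ (Real.exp (-2 * w x)) (Real.exp (-2 * f x)) x (dx w x) (dx (dx w) x) (dx f x)
    (dx (dx f) x) p hp0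
  have hscal : scal p w f x = ((-(Real.exp (-2 * w x) * (((1 - x ^ 2) * dx (dx w) x - (p + 1) * x * dx w x) - p - x * ((p - 1) * dx w x + p * dx f x)
      + (1 - x ^ 2) * dx w x * ((p - 1) * dx w x + p * dx f x))) - Real.exp (-2 * w x) * (1 - x ^ 2) *
    ((p - 1) * (dx (dx w) x - dx w x ^ 2)
      + p * (dx (dx f) x + dx f x ^ 2 - 2 * dx w x * dx f x)))
      + p * (-(Real.exp (-2 * w x) * (((1 - x ^ 2) * dx (dx f) x - (p + 1) * x * dx f x)
        + (1 - x ^ 2) * dx f x * ((p - 1) * dx w x + p * dx f x))) + (p - 1) * Real.exp (-2 * f x))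
      + p * (-(Real.exp (-2 * w x) * (((1 - x ^ 2) * dx (dx w) x - (p + 1) * x * dx w x) - p - x * ((p - 1) * dx w x + p * dx f x)
      + (1 - x ^ 2) * dx w x * ((p - 1) * dx w x + p * dx f x))))) := by
    unfold scal ric0 ric1 ric2 lap gx
    ring
  rw [← hscal] at key
  rw [Real.cosh_eq, Real.exp_neg (uu w f x), exp_uu hx, exp_rh hx hp, ZZ_eq hx, u1]
  have hDD : DD w f x = x - (1 - x ^ 2) * (dx f x + dx w x) := rfl
  have hNN : NN w f x = (1 - x ^ 2) * (dx f x - dx w x) + x := rfl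
  have hDx : DDx w f x =
    1 + 2 * x * (dx f x + dx w x) - (1 - x ^ 2) * (dx (dx f) x + dx (dx w) x) := rfl
  rw [← hDD, ← hNN, ← hDx] at key
  generalize DD w f x = D at *
  generalize NN w f x = N at *
  generalize DDx w f x = Dx at *
  generalize scal p w f x = R at *
  -- exponentials
  have ea : Real.exp (-2 * w x) = (Real.exp (w x))⁻¹ ^ 2 := by
    rw [← Real.exp_neg, ← Real.exp_nat_mul]; congr 1; push_cast; ring
  have eb : Real.exp (-2 * f x) = (Real.exp (f x))⁻¹ ^ 2 := by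
    rw [← Real.exp_neg, ← Real.exp_nat_mul]; congr 1; push_cast; ring
  rw [Real.exp_sub, Real.exp_add]
  rw [ea, eb] at key
  have hW := Real.exp_pos (w x)
  have hF := Real.exp_pos (f x)
  generalize Real.exp (w x) = W at *
  generalize Real.exp (f x) = F at *
  obtain ⟨s, hs, hs0⟩ : ∃ s, Real.sqrt (1 - x ^ 2) = s ∧ 0 < s := ⟨_, rfl, h0⟩
  have hs2 : 1 - x ^ 2 = s ^ 2 := by rw [← hs, Real.sq_sqrt h1.le]
  rw [hs, hs2]
  rw [hs2] at key
  generalize ze p = z at *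
  have hz1 : (p : ℝ) - 1 = z * (2 * p - 1) := hze.symm
  rw [hz1] at key
  have hD0 := h2.ne'
  field_simp at key ⊢
  linear_combination 4 * key

/-- equation (E1) -/
lemma E1 (hx : x ∈ Ioo (-1 : ℝ) 1) (h : rhx w f x < 0) (hp : 2 ≤ p) :
    (rhsF p w f x - rhsW p w f x) + ux w f x *
      (-((rhsF p w f x + rhsW p w f x) / 2) / rhx w f x) =
    Real.exp (-2 * rh p w f x) * (ZZ p w f x * u2 w f x
      + (2 * (p : ℝ) - 1) * Real.cosh (uu w f x) * u1 w f x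
      + 2 * (2 * (p : ℝ) - 1) * Real.sinh (uu w f x)) := by
  have h1 := one_sub_sq_pos hx
  have h2 := DD_pos hx h
  have hp' : (2 : ℝ) ≤ p := by exact_mod_cast hp
  have hzp := ze_pos hp
  have hze : ze p * (2 * (p : ℝ) - 1) = (p : ℝ) - 1 := by
    unfold ze
    have : 2 * (p : ℝ) - 1 ≠ 0 := by linarith only [hp']
    rw [div_mul_cancel₀ _ this]
  have h0 : 0 < Real.sqrt (1 - x ^ 2) := Real.sqrt_pos.2 h1
  have hlhs : (rhsF p w f x - rhsW p w f x) + ux w f x *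
      (-((rhsF p w f x + rhsW p w f x) / 2) / rhx w f x) =
      ((rhsF p w f x - rhsW p w f x) * DD w f x + NN w f x * (rhsF p w f x + rhsW p w f x))
        / DD w f x := by
    rw [ux_eq hx, rhx_eq hx]
    have := h1.ne'
    have := h2.ne'
    field_simp
  have hF : rhsF p w f x = (Real.exp (-2 * w x) * ((1 - x ^ 2) * dx (dx f) x - (p + 1) * x * dx f x)
      - (p - 1) * Real.exp (-2 * f x) - (1 - x ^ 2) * dx f x * Jf p w f x) := rfl
  have hW : rhsW p w f x = (Real.exp (-2 * w x) * (((1 - x ^ 2) * dx (dx w) x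
      - (p + 1) * x * dx w x) - p) + (x - (1 - x ^ 2) * dx w x) * Jf p w f x) := rfl
  have key := alg_dt (Real.exp (-2 * w x)) (Real.exp (-2 * f x)) x (dx w x) (dx (dx w) x) (dx f x)
    (dx (dx f) x) (Jf p w f x) p
  rw [← hF, ← hW] at key
  have hDD : DD w f x = x - (1 - x ^ 2) * (dx f x + dx w x) := rfl
  have hNN : NN w f x = (1 - x ^ 2) * (dx f x - dx w x) + x := rfl
  have hDx : DDx w f x =
    1 + 2 * x * (dx f x + dx w x) - (1 - x ^ 2) * (dx (dx f) x + dx (dx w) x) := rfl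
  have hNx : NNx w f x =
    (-2 * x) * (dx f x - dx w x) + (1 - x ^ 2) * (dx (dx f) x - dx (dx w) x) + 1 := rfl
  rw [← hDD, ← hNN, ← hDx, ← hNx] at key
  have hsub : DD w f x - NN w f x = -2 * (1 - x ^ 2) * dx f x := by
    rw [hDD, hNN]; ring
  rw [hlhs, ← key]
  rw [Real.cosh_eq, Real.sinh_eq, Real.exp_neg (uu w f x), exp_uu hx,
    show -2 * rh p w f x = -(2 * rh p w f x) by ring, Real.exp_neg (2 * rh p w f x),
    exp_rh hx hp, ZZ_eq hx, u1, u2]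
  have ea : Real.exp (-2 * w x) = (Real.exp (w x))⁻¹ ^ 2 := by
    rw [← Real.exp_neg, ← Real.exp_nat_mul]; congr 1; push_cast; ring
  have eb : Real.exp (-2 * f x) = (Real.exp (f x))⁻¹ ^ 2 := by
    rw [← Real.exp_neg, ← Real.exp_nat_mul]; congr 1; push_cast; ring
  rw [Real.exp_sub, Real.exp_add, ea, eb]
  clear key hlhs hF hW
  have hW := Real.exp_pos (w x)
  have hF := Real.exp_pos (f x)
  clear hDD hNN hDx hNx
  generalize DD w f x = D at *
  generalize NN w f x = N at *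
  generalize DDx w f x = Dx at *
  generalize NNx w f x = Nx at *
  generalize Real.exp (w x) = W at *
  generalize Real.exp (f x) = F at *
  obtain ⟨s, hs, hs0⟩ : ∃ s, Real.sqrt (1 - x ^ 2) = s ∧ 0 < s := ⟨_, rfl, h0⟩
  have hs2 : 1 - x ^ 2 = s ^ 2 := by rw [← hs, Real.sq_sqrt h1.le]
  rw [hs, hs2]
  rw [hs2] at hsub
  generalize ze p = z at *
  have hz1 : (p : ℝ) - 1 = z * (2 * p - 1) := hze.symm
  have hf1 : dx f x = -(D - N) / (2 * s ^ 2) := by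
    rw [hsub]; field_simp
  rw [hf1, hz1]
  have hD0 := h2.ne'
  field_simp
  ring

end fixed

end

end Vale.Agent.P244.ST.RG
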