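import Vale.Agent.P244.ST.S.CV
import Vale.Agent.P244.ST.S.RGAlg
import Vale.Agent.P244.ST.M2Static

/-!
# P244 / ST / S : from the r-gauge functions to the functions of `Geo.lean` at a point
-/

open Set Filter
open scoped ContDiff Topology

namespace Vale.Agent.P244.ST.SS.PtBr

open Vale.Agent.P244.ST.M2

variable {w f : Fn} {T t : ℝ} {X U U1 U2 Z R : ℝ → ℝ → ℝ}

theorem sx_slice (hs : ConfSol 20 w f T) (ht : t ∈ Ico 0 T) : Apr.Sx (w t) ∧ Apr.Sx (f t) :=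
  ⟨Apr.slice (h := w) hs.smooth_w ht, Apr.slice (h := f) hs.smooth_f ht⟩

theorem mem1 {x : ℝ} (hx : x ∈ Ioo (0 : ℝ) 1) : x ∈ Ioo (-1 : ℝ) 1 := ⟨by linarith only [hx, hx.1], hx.2⟩

theorem r1_eq (hs : ConfSol 20 w f T) (ht : t ∈ Ico 0 T) {x : ℝ} (hx : x ∈ Ioo (0 : ℝ) 1) :
    r1 w f t x = RG.rhx (w t) (f t) x := by
  have h1 : HasDerivAt (rho w f t) (RG.rhx (w t) (f t) x) x := by
    have h2 := RG.rh_deriv (p := 20) hs ht (mem1 hx)
    have h3 : RG.rh 20 (w t) (f t) = rho w f t := by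
      funext y; exact CV.rh_eq y
    rw [h3] at h2
    exact h2
  exact h1.deriv

theorem ux_eq' (hs : ConfSol 20 w f T) (ht : t ∈ Ico 0 T) {x : ℝ} (hx : x ∈ Ioo (0 : ℝ) 1) :
    deriv (uu w f t) x = RG.ux (w t) (f t) x := by
  obtain ⟨h1, h2⟩ := sx_slice hs ht
  have h3 : HasDerivAt (RG.uu (w t) (f t)) (RG.ux (w t) (f t) x) x := RG.uu_deriv h1 h2 (mem1 hx)
  exact h3.deriv

theorem rhx_neg (hs : ConfSol 20 w f T) (ht : t ∈ Ico 0 T) {x : ℝ} (hx : x ∈ Ioo (0 : ℝ) 1)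
    (hr : 0 < rs w f t x) : RG.rhx (w t) (f t) x < 0 := by
  rw [← r1_eq hs ht hx]
  exact r1_neg (mem1 hx) hr

theorem U1_pt (hs : ConfSol 20 w f T) (hR : RG.RSol 20 w f T X U U1 U2 Z R) (ht : t ∈ Ico 0 T)
    {x : ℝ} (hx : x ∈ Ioo (0 : ℝ) 1) (hr : 0 < rs w f t x) :
    U1 t (rho w f t x) = -GG w f t x := by
  obtain ⟨h1, h2⟩ := hR.X_inv t ht x hx
  rw [CV.rh_eq] at h2
  rw [CV.rh_eq] at h1
  have h3 := hR.U1_eq (t, rho w f t x) ⟨ht, h1⟩
  simp only at h3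
  rw [h3, h2, ← ux_eq' hs ht hx, ← r1_eq hs ht hx]
  have hk := (kk_neg (w := w) (t := t) (mem1 hx)).ne
  have hr1 := (r1_neg (mem1 hx) hr).ne
  have h4 : PP w f t x = kk w t x * deriv (uu w f t) x := rfl
  unfold GG
  rw [h4, rs_eq]
  field_simp

theorem Z_pt (hs : ConfSol 20 w f T) (hR : RG.RSol 20 w f T X U U1 U2 Z R) (ht : t ∈ Ico 0 T)
    {x : ℝ} (hx : x ∈ Ioo (0 : ℝ) 1) : Z t (rho w f t x) = ZZ w f t x := by
  obtain ⟨h1, h2⟩ := hR.X_inv t ht x hx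
  rw [CV.rh_eq] at h2
  rw [CV.rh_eq] at h1
  have h3 := hR.Z_eq (t, rho w f t x) ⟨ht, h1⟩
  simp only at h3
  rw [h3, h2]
  have hp := RG.one_sub_sq_pos (mem1 hx)
  have h0 : 0 < Real.sqrt (1 - x ^ 2) := Real.sqrt_pos.2 hp
  have e1 : rr w f t x ^ 2 = Real.exp (f t x + w t x) * Real.sqrt (1 - x ^ 2) / RG.ze 20 := by
    rw [← RG.exp_rh (p := 20) (w := w t) (f := f t) (mem1 hx) (by norm_num), CV.rh_eq]
    unfold rr
    rw [← Real.exp_nat_mul]
    push_cast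
    rfl
  unfold RG.ZZ ZZ
  rw [e1, rs_eq, r1_eq hs ht hx]
  unfold kk sx
  have e2 : Real.exp (f t x - w t x) = Real.exp (f t x) * Real.exp (-w t x) := by
    rw [← Real.exp_add]; rfl
  have e3 : Real.exp (f t x + w t x) = Real.exp (f t x) * Real.exp (w t x) := Real.exp_add _ _
  have e4 : Real.exp (w t x) * Real.exp (-w t x) = 1 := by rw [← Real.exp_add]; simp
  rw [e2, e3]
  generalize Real.sqrt (1 - x ^ 2) = s at *
  generalize Real.exp (-w t x) = v at *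
  generalize Real.exp (w t x) = v' at *
  generalize RG.ze 20 = z at *
  generalize RG.rhx (w t) (f t) x = r at *
  have : v' * v ^ 2 = v := by rw [pow_two, ← mul_assoc, e4, one_mul]
  calc Real.exp (f t x) * v * s ^ 3 * r ^ 2 / z = Real.exp (f t x) * (v' * v ^ 2) * s ^ 3 * r ^ 2 / z := by
        rw [this]
    _ = _ := by ring

/-- `E = D_r Z` -/
noncomputable def Ee (w f : Fn) (t x : ℝ) : ℝ :=
  39 * (Real.cosh (uu w f t x) - ZZ w f t x)
      - (rr w f t x) ^ 2 * (PP w f t x) ^ 2 / 4 - (rr w f t x) ^ 2 * RR w f t x / 40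

/-- (E2) for `u`: `r² V = Z U2 + (E/2 + 39 Z) U1 + 78 sinh u`. -/
theorem V_pt (hs : ConfSol 20 w f T) (hR : RG.RSol 20 w f T X U U1 U2 Z R) (ht : t ∈ Ico 0 T)
    (hrs : ∀ x ∈ Ioo (0 : ℝ) 1, 0 < rs w f t x)
    {x : ℝ} (hx : x ∈ Ioo (0 : ℝ) 1) :
    (rr w f t x) ^ 2 * VV w f t x = ZZ w f t x * U2 t (rho w f t x)
      + (Ee w f t x / 2 + 39 * ZZ w f t x) * U1 t (rho w f t x)
      + 78 * Real.sinh (uu w f t x) := by
  have hsl : Slice w f t := slice_of_confSol hs ht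
  obtain ⟨h1, h2⟩ := hR.X_inv t ht x hx
  rw [CV.rh_eq] at h1
  have hd2 := hR.d2 (t, rho w f t x) ⟨ht, h1⟩
  simp only at hd2
  -- PP = rs * U1
  have hPP : ∀ y ∈ Ioo (0 : ℝ) 1, PP w f t y = rs w f t y * U1 t (rho w f t y) := by
    intro y hy
    rw [U1_pt hs hR ht hy (hrs y hy)]
    unfold GG
    have := (hrs y hy).ne'
    field_simp
  have hrsd : HasDerivAt (rs w f t) (deriv (rs w f t) x) x :=
    hasDerivAt_of_smooth (smooth_rs hsl) (mem1 hx)
  have hrho := hasDerivAt_rho hsl (mem1 hx)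
  have hcomp : HasDerivAt (fun y => U1 t (rho w f t y)) (U2 t (rho w f t x) * r1 w f t x) x :=
    hd2.comp x hrho
  have hprod := hrsd.mul hcomp
  have hev : PP w f t =ᶠ[𝓝 x] fun y => rs w f t y * U1 t (rho w f t y) := by
    filter_upwards [Ioo_mem_nhds hx.1 hx.2] with y hy
    exact hPP y hy
  have hdPP : deriv (PP w f t) x = deriv (rs w f t) x * U1 t (rho w f t x)
      + rs w f t x * (U2 t (rho w f t x) * r1 w f t x) :=
    (HasDerivAt.congr_of_eventuallyEq hprod hev).deriv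
  -- ZZ
  have hZ1 := hasDerivAt_ZZ hsl (mem1 hx)
  have hZ2 : HasDerivAt (ZZ w f t) _ x := ((hasDerivAt_rr hsl (mem1 hx)).pow 2).mul (hrsd.pow 2)
  have hZ := hZ1.unique hZ2
  simp only [Pi.pow_apply] at hZ
  have hrr := (rr_pos (w := w) (f := f) (t := t) x).ne'
  have hr0 := (hrs x hx).ne'
  have hr1 := (r1_neg (mem1 hx) (hrs x hx)).ne
  have hk := (kk_neg (w := w) (t := t) (mem1 hx)).ne
  have hVV : VV w f t x = kk w t x * deriv (PP w f t) x + 40 * rs w f t x * PP w f t x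
      + 78 * Real.sinh (uu w f t x) / (rr w f t x) ^ 2 := rfl
  have hEe : (39 * (Real.cosh (uu w f t x) - ZZ w f t x)
      - (rr w f t x) ^ 2 * (PP w f t x) ^ 2 / 4 - (rr w f t x) ^ 2 * RR w f t x / 40)
      = Ee w f t x := rfl
  rw [hEe] at hZ
  have hrsk := rs_eq (w := w) (f := f) (t := t) x
  -- E = 2 Z + 2 r² Ds rs
  have hE : Ee w f t x = 2 * ZZ w f t x
      + 2 * (rr w f t x) ^ 2 * (kk w t x * deriv (rs w f t) x) := by
    have hZZ : ZZ w f t x = (rr w f t x) ^ 2 * (rs w f t x) ^ 2 := rfl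
    have h5 : r1 w f t x * Ee w f t x = r1 w f t x * (2 * ZZ w f t x
      + 2 * (rr w f t x) ^ 2 * (kk w t x * deriv (rs w f t) x)) := by
      rw [hZ, hZZ, hrsk]
      push_cast
      ring
    exact mul_left_cancel₀ hr1 h5
  rw [hVV, hdPP, hPP x hx, hE]
  have hZZ : ZZ w f t x = (rr w f t x) ^ 2 * (rs w f t x) ^ 2 := rfl
  rw [hZZ]
  have hrs2 : rs w f t x * (U2 t (rho w f t x) * r1 w f t x) * kk w t x =
      rs w f t x ^ 2 * U2 t (rho w f t x) := by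
    have : r1 w f t x * kk w t x = rs w f t x := by rw [hrsk]; ring
    calc _ = rs w f t x * U2 t (rho w f t x) * (r1 w f t x * kk w t x) := by ring
      _ = _ := by rw [this]; ring
  have hmul : kk w t x * (deriv (rs w f t) x * U1 t (rho w f t x)
      + rs w f t x * (U2 t (rho w f t x) * r1 w f t x)) =
      kk w t x * deriv (rs w f t) x * U1 t (rho w f t x) +
        rs w f t x ^ 2 * U2 t (rho w f t x) := by
    rw [← hrs2]; ring
  rw [hmul]
  field_simp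
  ring

end Vale.Agent.P244.ST.SS.PtBr
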