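import Vale.Agent.P244.ST.S.SDefs
import Vale.Agent.P244.ST.M2D7

/-!
# P244 / ST / S : pure inequalities for `PtStatement`
-/

open Set Filter
open scoped ContDiff Topology

namespace Vale.Agent.P244.ST.SS.Pt

theorem exp3 {x : ℝ} (hx : |x| ≤ 1) :
    |Real.exp x - (1 + x + x ^ 2 / 2)| ≤ |x| ^ 3 * (2 / 9) := by
  have h := Real.exp_bound hx (n := 3) (by norm_num)
  simp only [Finset.sum_range_succ, Finset.sum_range_zero, Nat.factorial] at h
  norm_num at h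
  have e : |Real.exp x - (1 + x + x ^ 2 / 2)| = |Real.exp x - (1 + x + x ^ 2 / 2)| := rfl
  calc _ ≤ |x| ^ 3 * (2 / 9) := by simpa using h
    _ = _ := rfl

theorem sinh_sub {u : ℝ} (hu : |u| ≤ 1) : |Real.sinh u - u| ≤ 2 / 9 * |u| ^ 3 := by
  have h1 := exp3 hu
  have h2 := exp3 (x := -u) (by rwa [abs_neg])
  rw [abs_neg] at h2
  rw [Real.sinh_eq]
  rw [abs_le] at h1 h2 ⊢
  constructor
  · nlinarith only [h1, h2, h1.1, h2.2]
  · nlinarith only [h1, h2, h1.2, h2.1]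

theorem cosh_sub {u : ℝ} (hu : |u| ≤ 1) : Real.cosh u - 1 ≤ u ^ 2 := by
  have h1 := exp3 hu
  have h2 := exp3 (x := -u) (by rwa [abs_neg])
  rw [abs_neg] at h2
  rw [Real.cosh_eq]
  rw [abs_le] at h1 h2
  have h3 : |u| ^ 3 ≤ u ^ 2 := by
    rw [← sq_abs u]
    nlinarith only [hu, abs_nonneg u, mul_nonneg (sq_nonneg |u|) (sub_nonneg.2 hu)]
  nlinarith only [h1, h2, h3, h1.2, h2.2, sq_nonneg u]

theorem cosh_le_two {u : ℝ} (hu : |u| ≤ 1) : Real.cosh u ≤ 2 := by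
  have := cosh_sub hu
  have h2 : u ^ 2 ≤ 1 := by rw [← sq_abs]; nlinarith only [hu, abs_nonneg u]
  linarith only [this, h2]

theorem sinh_abs {u : ℝ} (hu : |u| ≤ 1) : |Real.sinh u| ≤ 5 / 4 * |u| := by
  have h1 := sinh_sub hu
  have h2 : |u| ^ 3 ≤ |u| := by
    nlinarith only [hu, abs_nonneg u, mul_nonneg (abs_nonneg u) (sub_nonneg.2 hu),
      mul_nonneg (sq_nonneg |u|) (sub_nonneg.2 hu)]
  have h3 : |Real.sinh u| ≤ |Real.sinh u - u| + |u| := by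
    have := abs_add_le (Real.sinh u - u) u
    simpa using this
  linarith only [h1, h2, h3, abs_nonneg u]

/-- the pure estimate -/
theorem core {u U1 U2 Z h V2 m c E : ℝ} (hm : 0 ≤ m) (hm1 : m ≤ 1) (hu : |u| ≤ m)
    (hU1 : |U1| ≤ 11 / 5 * m) (hV : |V2| ≤ c * m) (hc : 0 ≤ c) (hh : 0 ≤ h)
    (hZ : |Z - 1| ≤ 4 * (m ^ 2 + h)) (hZ1 : 1 / 2 ≤ Z) (hZ2 : Z ≤ 6) (hE : |E| ≤ 300)
    (heq : V2 = Z * U2 + (E / 2 + 39 * Z) * U1 + 78 * Real.sinh u) :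
    |U2| ≤ (2 * c + 2000) * m ∧ |nl u U1 U2 Z| ≤ (8 * c + 8200) * (m * (m ^ 2 + h)) := by
  have hu1 : |u| ≤ 1 := hu.trans hm1
  have hsinh := sinh_abs hu1
  have hZU : |Z * U2| ≤ (c + 1000) * m := by
    have e1 : Z * U2 = V2 - (E / 2 + 39 * Z) * U1 - 78 * Real.sinh u := by rw [heq]; ring
    have e2 : |(E / 2 + 39 * Z) * U1| ≤ 384 * (11 / 5 * m) := by
      rw [abs_mul]
      apply mul_le_mul _ hU1 (abs_nonneg _) (by norm_num)
      have := abs_le.1 hE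
      rw [abs_le]; constructor <;> linarith only [hZ1, this, hZ2, this.1, this.2]
    have e3 : |78 * Real.sinh u| ≤ 78 * (5 / 4 * m) := by
      rw [abs_mul, abs_of_pos (by norm_num : (0 : ℝ) < 78)]
      linarith only [hu, hsinh]
    rw [e1]
    have e4 : |V2 - (E / 2 + 39 * Z) * U1 - 78 * Real.sinh u| ≤
        |V2| + |(E / 2 + 39 * Z) * U1| + |78 * Real.sinh u| := by
      refine (abs_sub _ _).trans (add_le_add (abs_sub _ _) le_rfl)
    nlinarith only [hm, hV, e2, e3, e4]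
  have hU2 : |U2| ≤ (2 * c + 2000) * m := by
    rw [abs_mul, abs_of_pos (by linarith only [hZ1] : 0 < Z)] at hZU
    have h1 : 1 / 2 * |U2| ≤ Z * |U2| := mul_le_mul_of_nonneg_right hZ1 (abs_nonneg _)
    nlinarith only [hZU, h1]
  refine ⟨hU2, ?_⟩
  unfold nl
  have hmm : 0 ≤ m ^ 2 + h := by positivity
  have a1 : |(Z - 1) * U2| ≤ (4 * (m ^ 2 + h)) * ((2 * c + 2000) * m) := by
    rw [abs_mul]
    exact mul_le_mul hZ hU2 (abs_nonneg _) (by positivity)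
  have hu2 : u ^ 2 ≤ m ^ 2 := by rw [← sq_abs u]; exact pow_le_pow_left₀ (abs_nonneg _) hu 2
  have a2 : |39 * (Real.cosh u - 1) * U1| ≤ 39 * m ^ 2 * (11 / 5 * m) := by
    rw [abs_mul]
    have h1 : 0 ≤ Real.cosh u - 1 := by linarith only [Real.one_le_cosh u]
    have h2 : |39 * (Real.cosh u - 1)| ≤ 39 * m ^ 2 := by
      rw [abs_of_nonneg (by positivity)]
      linarith only [hu1, hu2, cosh_sub hu1]
    exact mul_le_mul h2 hU1 (abs_nonneg _) (by positivity)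
  have a3 : |78 * (Real.sinh u - u)| ≤ 78 * (2 / 9 * m ^ 3) := by
    rw [abs_mul, abs_of_pos (by norm_num : (0 : ℝ) < 78)]
    have h1 := sinh_sub hu1
    have h2 : |u| ^ 3 ≤ m ^ 3 := pow_le_pow_left₀ (abs_nonneg _) hu 3
    linarith only [h1, h2]
  have a4 : |(Z - 1) * U2 + 39 * (Real.cosh u - 1) * U1 + 78 * (Real.sinh u - u)| ≤
      |(Z - 1) * U2| + |39 * (Real.cosh u - 1) * U1| + |78 * (Real.sinh u - u)| :=
    (abs_add_le _ _).trans (add_le_add (abs_add_le _ _) le_rfl)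
  have hm3 : 0 ≤ m * h := mul_nonneg hm hh
  have hm4 : 0 ≤ c * (m * h) := mul_nonneg hc hm3
  have hm5 : 0 ≤ m ^ 3 := by positivity
  have hm6 : 0 ≤ c * m ^ 3 := mul_nonneg hc hm5
  calc _ ≤ _ := a4
    _ ≤ (4 * (m ^ 2 + h)) * ((2 * c + 2000) * m) + 39 * m ^ 2 * (11 / 5 * m)
        + 78 * (2 / 9 * m ^ 3) := add_le_add (add_le_add a1 a2) a3
    _ = (8 * c + 8000) * (m * (m ^ 2 + h)) + (429 / 5 + 52 / 3) * m ^ 3 := by ring
    _ ≤ _ := by nlinarith only [hm3, hm5]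

/-- from the size `m ≤ k M` to the final form -/
theorem final {a b1 n m k M h hz c : ℝ} (hm : 0 ≤ m) (hk : 1 ≤ k) (hM : 0 ≤ M) (hmk : m ≤ k * M)
    (hc : 0 ≤ c) (hz0 : 0 ≤ hz) (hh : h = 4 * hz) (ha : |a| ≤ m) (hb : |b1| ≤ 11 / 5 * m)
    (hn : |n| ≤ (8 * c + 8200) * (m * (m ^ 2 + h))) :
    |a| ≤ (8 * c + 8200) * 4 * k ^ 3 * M ∧ |b1| ≤ (8 * c + 8200) * 4 * k ^ 3 * M ∧
      |n| ≤ (8 * c + 8200) * 4 * k ^ 3 * M * (M ^ 2 + hz) := by
  have hk3 : k ≤ k ^ 3 := by nlinarith only [hk, sq_nonneg (k - 1), sq_nonneg k]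
  have hk2 : 1 ≤ k ^ 2 := by nlinarith only [hk]
  have hkM : k * M ≤ k ^ 3 * M := mul_le_mul_of_nonneg_right hk3 hM
  have hk3M : 0 ≤ k ^ 3 * M := by positivity
  have hck : 0 ≤ c * (k ^ 3 * M) := mul_nonneg hc hk3M
  refine ⟨?_, ?_, ?_⟩
  · nlinarith only [hm, hmk, ha, hkM, hck]
  · nlinarith only [hm, hmk, hb, hkM, hck]
  · have h1 : m * (m ^ 2 + h) ≤ (k * M) * ((k * M) ^ 2 + h) := by
      apply mul_le_mul hmk _ (by rw [hh]; positivity) (by positivity)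
      have : m ^ 2 ≤ (k * M) ^ 2 := pow_le_pow_left₀ hm hmk 2
      linarith only [this]
    have h2 : (k * M) * ((k * M) ^ 2 + h) ≤ 4 * k ^ 3 * M * (M ^ 2 + hz) := by
      rw [hh]
      have e1 : (k * M) * ((k * M) ^ 2 + 4 * hz) = k ^ 3 * M * M ^ 2 + 4 * k * (M * hz) := by ring
      have e2 : 4 * k ^ 3 * M * (M ^ 2 + hz) = 4 * (k ^ 3 * M * M ^ 2) + 4 * k ^ 3 * (M * hz) := by
        ring
      rw [e1, e2]
      have h3 : 0 ≤ k ^ 3 * M * M ^ 2 := by positivity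
      have h4 : k * (M * hz) ≤ k ^ 3 * (M * hz) := mul_le_mul_of_nonneg_right hk3 (by positivity)
      linarith only [h3, h4]
    calc |n| ≤ (8 * c + 8200) * (m * (m ^ 2 + h)) := hn
      _ ≤ (8 * c + 8200) * (4 * k ^ 3 * M * (M ^ 2 + hz)) :=
        mul_le_mul_of_nonneg_left (h1.trans h2) (by positivity)
      _ = _ := by ring

theorem en_ge_one {z : ℝ} (hz : 0 < z) : 1 ≤ en z := by
  unfold en
  rcases le_total z 1 with h | h
  · have : 1 ≤ z ^ (-(11 / 10 : ℝ)) := Real.one_le_rpow_of_pos_of_le_one_of_nonpos hz h (by norm_num)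
    have := pow_pos hz 3
    linarith
  · have h1 : 1 ≤ z ^ 3 := one_le_pow₀ h
    have := Real.rpow_pos_of_pos hz (-(11 / 10 : ℝ))
    linarith only [h1, this]

theorem pow_le_en {z l : ℝ} (hz : 0 < z) (hl : 0 ≤ l) (hl3 : l ≤ 3) : (4 * z) ^ l ≤ 64 * en z := by
  have h4 : 0 < 4 * z := by linarith only [hz]
  rcases le_total (4 * z) 1 with h | h
  · have h1 : (4 * z) ^ l ≤ 1 := Real.rpow_le_one h4.le h hl
    linarith only [hz, h, h1, en_ge_one hz]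
  · have h1 : (4 * z) ^ l ≤ (4 * z) ^ (3 : ℝ) := Real.rpow_le_rpow_of_exponent_le h hl3
    have h2 : (4 * z) ^ (3 : ℝ) = 64 * z ^ 3 := by
      rw [show (3 : ℝ) = ((3 : ℕ) : ℝ) by norm_num, Real.rpow_natCast]; ring
    rw [h2] at h1
    have := Real.rpow_pos_of_pos hz (-(11 / 10 : ℝ))
    unfold en
    linarith only [h1, this]

theorem inv_le_en {y : ℝ} (hy : 0 < y) : y ^ (-(11 / 5 : ℝ)) ≤ en (y ^ 2 / 4) := by
  unfold en
  have h0 : 0 < y ^ 2 / 4 := by positivity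
  have h1 : y ^ (-(11 / 5 : ℝ)) ≤ (y ^ 2 / 4) ^ (-(11 / 10 : ℝ)) := by
    have e1 : y ^ (-(11 / 5 : ℝ)) = (y ^ 2) ^ (-(11 / 10 : ℝ)) := by
      rw [← Real.rpow_natCast y 2, ← Real.rpow_mul hy.le]
      norm_num
    rw [e1]
    exact Real.rpow_le_rpow_of_nonpos h0 (by nlinarith only [h0, sq_nonneg y]) (by norm_num)
  have := pow_pos h0 3
  linarith only [h1, this]

end Vale.Agent.P244.ST.SS.Pt
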