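import Vale.Agent.P244.ST.S.RGDefs
import Vale.Agent.P244.ST.L.AprAlg

/-!
# P244 / ST / S : r-gauge package, the inverse function
-/

open Set Filter
open scoped ContDiff Topology

namespace Vale.Agent.P244.ST.RG

open Vale.Agent.P244.ST.Apr

noncomputable section

variable {p : ℕ} {w f : ℝ → ℝ → ℝ} {T : ℝ}

lemma one_sub_sq_pos {x : ℝ} (hx : x ∈ Ioo (-1 : ℝ) 1) : 0 < 1 - x ^ 2 := by
  nlinarith only [hx, hx.1, hx.2]

lemma hasDerivAt_of_sx {h : ℝ → ℝ} (hh : Sx h) {x : ℝ} (hx : x ∈ Ioo (-1 : ℝ) 1) :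
    HasDerivAt h (dx h x) x :=
  (hh.hasDeriv (Ioo_subset_Icc_self hx)).hasDerivAt (Icc_mem_nhds hx.1 hx.2)

/-- the function `ρ(t,x)` is smooth on `[0,T) × (-1,1)` -/
lemma rh_smooth (hs : ConfSol p w f T) :
    ContDiffOn ℝ ∞ (fun z : ℝ × ℝ => rh p (w z.1) (f z.1) z.2) (Ico 0 T ×ˢ Ioo (-1) 1) := by
  have hsub : Ico 0 T ×ˢ Ioo (-1 : ℝ) 1 ⊆ Ico 0 T ×ˢ Icc (-1) 1 :=
    prod_mono subset_rfl Ioo_subset_Icc_self
  have h1 := hs.smooth_w.mono hsub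
  have h2 := hs.smooth_f.mono hsub
  have h3 : ContDiffOn ℝ ∞ (fun z : ℝ × ℝ => Real.log (1 - z.2 ^ 2)) (Ico 0 T ×ˢ Ioo (-1) 1) := by
    apply ContDiffOn.log
    · exact contDiffOn_const.sub (contDiffOn_snd.pow 2)
    · intro z hz
      exact (one_sub_sq_pos hz.2).ne'
  unfold rh
  exact (((h2.add h1).add (h3.div_const 2)).sub contDiffOn_const).div_const 2

lemma rh_deriv (hs : ConfSol p w f T) {t x : ℝ} (ht : t ∈ Ico 0 T) (hx : x ∈ Ioo (-1 : ℝ) 1) :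
    HasDerivAt (rh p (w t) (f t)) (rhx (w t) (f t) x) x := by
  have h1 := hasDerivAt_of_sx (slice (h := w) hs.smooth_w ht) hx
  have h2 := hasDerivAt_of_sx (slice (h := f) hs.smooth_f ht) hx
  have h3 : HasDerivAt (fun y : ℝ => 1 - y ^ 2) (-(2 * x)) x := by
    simpa using ((hasDerivAt_id x).pow 2).const_sub 1
  have h4 := h3.log (one_sub_sq_pos hx).ne'
  have h5 := (((h2.add h1).add (h4.div_const 2)).sub_const (Real.log (ze p))).div_const 2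
  have h6 : HasDerivAt (rh p (w t) (f t)) _ x := h5
  convert h6 using 1
  unfold rhx
  have := (one_sub_sq_pos hx).ne'
  field_simp
  ring

lemma rh_anti (hs : ConfSol p w f T)
    (hneg : ∀ t ∈ Ico 0 T, ∀ x ∈ Ioo (0 : ℝ) 1, rhx (w t) (f t) x < 0)
    {t : ℝ} (ht : t ∈ Ico 0 T) : StrictAntiOn (rh p (w t) (f t)) (Ico 0 1) := by
  apply strictAntiOn_of_deriv_neg (convex_Ico 0 1)
  · intro x hx
    exact (rh_deriv hs ht ⟨by linarith only [hx, hx.1], hx.2⟩).continuousAt.continuousWithinAt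
  · intro x hx
    rw [interior_Ico] at hx
    rw [(rh_deriv hs ht ⟨by linarith only [hx, hx.1], hx.2⟩).deriv]
    exact hneg t ht x hx

/-- `ρ → -∞` at the tip: for every `ρ` some `x` has `ρ(t,x) < ρ`. -/
lemma rh_bot (hs : ConfSol p w f T) {t : ℝ} (ht : t ∈ Ico 0 T) (ρ : ℝ) :
    ∃ x ∈ Ioo (0 : ℝ) 1, rh p (w t) (f t) x < ρ := by
  obtain ⟨Cw, hCw⟩ := isCompact_Icc.exists_bound_of_continuousOn
    (slice (h := w) hs.smooth_w ht).cont
  obtain ⟨Cf, hCf⟩ := isCompact_Icc.exists_bound_of_continuousOn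
    (slice (h := f) hs.smooth_f ht).cont
  -- choose x with log (1 - x^2) very negative
  set L : ℝ := 2 * (2 * ρ + Real.log (ze p) - Cw - Cf) - 1 with hL
  set δ : ℝ := min (Real.exp L) (1 / 2) with hδ
  have hδ0 : 0 < δ := lt_min (Real.exp_pos _) (by norm_num)
  have hδ1 : δ ≤ 1 / 2 := min_le_right _ _
  refine ⟨Real.sqrt (1 - δ), ⟨Real.sqrt_pos.2 (by linarith only [hδ0, hδ1]), ?_⟩, ?_⟩
  · rw [Real.sqrt_lt' (by norm_num)]; linarith only [hδ0]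
  · have hx1 : Real.sqrt (1 - δ) ∈ Icc (-1 : ℝ) 1 := by
      refine ⟨by linarith only [hδ0, hδ1, Real.sqrt_nonneg (1 - δ)], ?_⟩
      rw [Real.sqrt_le_left (by norm_num)]; linarith only [hδ0]
    have e1 : 1 - Real.sqrt (1 - δ) ^ 2 = δ := by
      rw [Real.sq_sqrt (by linarith only [hδ0, hδ1])]; ring
    have e2 : Real.log δ ≤ L := by
      calc Real.log δ ≤ Real.log (Real.exp L) := Real.log_le_log hδ0 (min_le_left _ _)
        _ = L := Real.log_exp L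
    have e3 := hCw _ hx1
    have e4 := hCf _ hx1
    rw [Real.norm_eq_abs] at e3 e4
    have e5 := (abs_le.1 e3).2
    have e6 := (abs_le.1 e4).2
    unfold rh
    rw [e1]
    linarith only [hδ0, hδ1, e2, e5, e6]

/-- existence of the inverse -/
lemma ex_inv (hs : ConfSol p w f T) {t ρ : ℝ} (ht : t ∈ Ico 0 T)
    (hρ : ρ < rh p (w t) (f t) 0) : ∃ x ∈ Ioo (0 : ℝ) 1, rh p (w t) (f t) x = ρ := by
  obtain ⟨y, hy, hy2⟩ := rh_bot hs ht ρ
  have hc : ContinuousOn (rh p (w t) (f t)) (Icc 0 y) := fun x hx =>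
    (rh_deriv hs ht ⟨by linarith only [hx, hx.1], hx.2.trans_lt hy.2⟩).continuousAt.continuousWithinAt
  obtain ⟨x, hx, hx2⟩ := intermediate_value_Ioo' hy.1.le hc ⟨hy2, hρ⟩
  exact ⟨x, ⟨hx.1, hx.2.trans hy.2⟩, hx2⟩

open Classical in
/-- the inverse function `X(t,ρ)` -/
def XX (p : ℕ) (w f : ℝ → ℝ → ℝ) (t ρ : ℝ) : ℝ :=
  if h : ∃ x ∈ Ioo (0 : ℝ) 1, rh p (w t) (f t) x = ρ then h.choose else 0

lemma XX_spec (hs : ConfSol p w f T) {q : ℝ × ℝ} (hq : q ∈ reg p w f (Ico 0 T)) :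
    XX p w f q.1 q.2 ∈ Ioo (0 : ℝ) 1 ∧ rh p (w q.1) (f q.1) (XX p w f q.1 q.2) = q.2 := by
  have h := ex_inv hs hq.1 hq.2
  unfold XX
  rw [dif_pos h]
  exact h.choose_spec

section neg
variable (hs : ConfSol p w f T)
  (hneg : ∀ t ∈ Ico 0 T, ∀ x ∈ Ioo (0 : ℝ) 1, rhx (w t) (f t) x < 0)
include hs hneg

lemma XX_inv {t x : ℝ} (ht : t ∈ Ico 0 T) (hx : x ∈ Ioo (0 : ℝ) 1) :
    rh p (w t) (f t) x < rh p (w t) (f t) 0 ∧ XX p w f t (rh p (w t) (f t) x) = x := by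
  have h1 : rh p (w t) (f t) x < rh p (w t) (f t) 0 :=
    rh_anti hs hneg ht ⟨le_rfl, zero_lt_one⟩ ⟨hx.1.le, hx.2⟩ hx.1
  refine ⟨h1, ?_⟩
  have h2 := XX_spec (q := (t, rh p (w t) (f t) x)) hs ⟨ht, h1⟩
  exact (rh_anti hs hneg ht).injOn ⟨h2.1.1.le, h2.1.2⟩ ⟨hx.1.le, hx.2⟩ h2.2

/-- comparison: `x < X` iff `ρ(t,x) > ρ`. -/
lemma XX_lt {q : ℝ × ℝ} (hq : q ∈ reg p w f (Ico 0 T)) {x : ℝ} (hx : x ∈ Ico (0 : ℝ) 1) :
    x < XX p w f q.1 q.2 ↔ q.2 < rh p (w q.1) (f q.1) x := by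
  have h2 := XX_spec hs hq
  have h3 := StrictAntiOn.lt_iff_gt (rh_anti (p := p) hs hneg hq.1) (a := XX p w f q.1 q.2) (b := x)
    ⟨h2.1.1.le, h2.1.2⟩ hx
  rw [h2.2] at h3
  exact h3.symm

lemma lt_XX {q : ℝ × ℝ} (hq : q ∈ reg p w f (Ico 0 T)) {x : ℝ} (hx : x ∈ Ico (0 : ℝ) 1) :
    XX p w f q.1 q.2 < x ↔ rh p (w q.1) (f q.1) x < q.2 := by
  have h2 := XX_spec hs hq
  have h3 := StrictAntiOn.lt_iff_gt (rh_anti (p := p) hs hneg hq.1) (b := XX p w f q.1 q.2) (a := x) hx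
    ⟨h2.1.1.le, h2.1.2⟩
  rw [h2.2] at h3
  exact h3.symm

/-- joint continuity of the inverse -/
lemma XX_cont : ContinuousOn (fun q : ℝ × ℝ => XX p w f q.1 q.2) (reg p w f (Ico 0 T)) := by
  intro q hq
  have hspec := XX_spec hs hq
  set x₀ := XX p w f q.1 q.2 with hx₀
  have hrc : ∀ x ∈ Ioo (-1 : ℝ) 1, ContinuousWithinAt
      (fun z : ℝ × ℝ => rh p (w z.1) (f z.1) x) (reg p w f (Ico 0 T)) q := by
    intro x hx
    have h1 := (rh_smooth hs).continuousOn (q.1, x) ⟨hq.1, hx⟩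
    have h2 : ContinuousWithinAt (fun z : ℝ × ℝ => ((z.1, x) : ℝ × ℝ)) (reg p w f (Ico 0 T)) q :=
      by fun_prop
    have h3 : MapsTo (fun z : ℝ × ℝ => ((z.1, x) : ℝ × ℝ)) (reg p w f (Ico 0 T))
        (Ico 0 T ×ˢ Ioo (-1) 1) := fun z hz => ⟨hz.1, hx⟩
    exact ContinuousWithinAt.comp (f := fun z : ℝ × ℝ => ((z.1, x) : ℝ × ℝ))
      (g := fun z : ℝ × ℝ => rh p (w z.1) (f z.1) z.2) (x := q) h1 h2 h3
  have hq2 : ContinuousWithinAt (fun z : ℝ × ℝ => z.2) (reg p w f (Ico 0 T)) q := by fun_prop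
  rw [ContinuousWithinAt, tendsto_order]
  refine ⟨fun a ha => ?_, fun b hb => ?_⟩
  · -- a < x₀
    set a' := max a 0 with ha'
    have ha1 : a' < x₀ := max_lt ha hspec.1.1
    have ham : a' ∈ Ico (0 : ℝ) 1 := ⟨le_max_right _ _, ha1.trans hspec.1.2⟩
    have h1 := (XX_lt hs hneg hq ham).1 ha1
    have h2 := (hq2.sub (hrc a' ⟨by linarith only [ham, ham.1], ham.2⟩)).eventually
      (gt_mem_nhds (show q.2 - rh p (w q.1) (f q.1) a' < 0 by linarith only [h1]))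
    filter_upwards [h2, self_mem_nhdsWithin] with z hz hzr
    simp only [Pi.sub_apply] at hz
    have := (XX_lt hs hneg hzr ham).2 (by linarith only [hz])
    exact (le_max_left _ _).trans_lt this
  · set b' := min b ((1 + x₀) / 2) with hb'
    have hb1 : x₀ < b' := lt_min hb (by linarith only [hspec, hspec.1.2])
    have hb2 : b' < 1 := (min_le_right _ _).trans_lt (by linarith only [hspec, hspec.1.2])
    have hbm : b' ∈ Ico (0 : ℝ) 1 := ⟨(hspec.1.1.trans hb1).le, hb2⟩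
    have h1 := (lt_XX hs hneg hq hbm).1 hb1
    have h2 := (hq2.sub (hrc b' ⟨by linarith only [hbm, hbm.1], hbm.2⟩)).eventually
      (lt_mem_nhds (show 0 < q.2 - rh p (w q.1) (f q.1) b' by linarith))
    filter_upwards [h2, self_mem_nhdsWithin] with z hz hzr
    simp only [Pi.sub_apply] at hz
    have := (lt_XX hs hneg hzr hbm).2 (by linarith)
    exact this.trans_le (min_le_left _ _)

/-- `ρ`-derivative of the inverse -/
lemma XX_deriv {q : ℝ × ℝ} (hq : q ∈ reg p w f (Ico 0 T)) :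
    HasDerivAt (XX p w f q.1) (rhx (w q.1) (f q.1) (XX p w f q.1 q.2))⁻¹ q.2 := by
  have hspec := XX_spec hs hq
  have hmem : ∀ᶠ y in 𝓝 q.2, ((q.1, y) : ℝ × ℝ) ∈ reg p w f (Ico 0 T) := by
    filter_upwards [gt_mem_nhds hq.2] with y hy
    exact ⟨hq.1, hy⟩
  have hc : ContinuousAt (XX p w f q.1) q.2 := by
    have h1 := XX_cont hs hneg q hq
    have h2 : Tendsto (fun y : ℝ => ((q.1, y) : ℝ × ℝ)) (𝓝 q.2)
        (𝓝[reg p w f (Ico 0 T)] q) := by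
      rw [tendsto_nhdsWithin_iff]
      refine ⟨?_, hmem⟩
      have : ContinuousAt (fun y : ℝ => ((q.1, y) : ℝ × ℝ)) q.2 := by fun_prop
      exact this
    exact Tendsto.comp (show Tendsto _ _ _ from h1) h2
  apply HasDerivAt.of_local_left_inverse hc
    (rh_deriv (p := p) hs hq.1 ⟨by linarith only [hspec, hspec.1.1], hspec.1.2⟩)
    (hneg q.1 hq.1 _ hspec.1).ne
  filter_upwards [hmem] with y hy
  exact (XX_spec hs hy).2

omit hneg in
lemma reg_open : IsOpen (reg p w f (Ioo 0 T)) := by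
  have h1 : ContinuousOn (fun t => rh p (w t) (f t) 0) (Ioo 0 T) := by
    have := (rh_smooth hs).continuousOn.comp (f := fun t : ℝ => ((t, 0) : ℝ × ℝ))
      (s := Ioo 0 T) (by fun_prop) (fun t ht => ⟨⟨ht.1.le, ht.2⟩, by norm_num⟩)
    exact this
  have h2 : ContinuousOn (fun q : ℝ × ℝ => rh p (w q.1) (f q.1) 0 - q.2) (Ioo 0 T ×ˢ univ) := by
    apply ContinuousOn.sub
    · exact h1.comp (by fun_prop) (fun q hq => hq.1)
    · fun_prop
  have h3 := h2.isOpen_inter_preimage (isOpen_Ioo.prod isOpen_univ) (isOpen_Ioi (a := (0 : ℝ)))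
  convert h3 using 1
  ext q
  simp only [reg, mem_ofPred_eq, mem_inter_iff, mem_prod, mem_univ, and_true, mem_preimage,
    mem_Ioi, sub_pos]

/-- the total derivative of `(t,x) ↦ (t, ρ(t,x))` as an equivalence -/
def eqv (a b : ℝ) (hb : b ≠ 0) : (ℝ × ℝ) ≃L[ℝ] (ℝ × ℝ) :=
  ContinuousLinearEquiv.equivOfInverse
    ((ContinuousLinearMap.fst ℝ ℝ ℝ).prod (a • ContinuousLinearMap.fst ℝ ℝ ℝ
      + b • ContinuousLinearMap.snd ℝ ℝ ℝ))
    ((ContinuousLinearMap.fst ℝ ℝ ℝ).prod ((-(a / b)) • ContinuousLinearMap.fst ℝ ℝ ℝ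
      + (1 / b) • ContinuousLinearMap.snd ℝ ℝ ℝ))
    (by
      intro z
      ext
      · simp
      · simp; field_simp; ring)
    (by
      intro z
      ext
      · simp
      · simp; field_simp; ring)

lemma XX_smooth : ContDiffOn ℝ ∞ (fun q : ℝ × ℝ => XX p w f q.1 q.2) (reg p w f (Ioo 0 T)) := by
  intro q hq
  have hq' : q ∈ reg p w f (Ico 0 T) := ⟨⟨hq.1.1.le, hq.1.2⟩, hq.2⟩
  have hspec := XX_spec hs hq'
  set x₀ := XX p w f q.1 q.2 with hx₀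
  have hx₀m : x₀ ∈ Ioo (-1 : ℝ) 1 := ⟨by linarith only [hspec, hspec.1.1], hspec.1.2⟩
  set Φ : ℝ × ℝ → ℝ × ℝ := fun z => (z.1, rh p (w z.1) (f z.1) z.2) with hΦ
  have hnb : Ico 0 T ×ˢ Ioo (-1 : ℝ) 1 ∈ 𝓝 ((q.1, x₀) : ℝ × ℝ) :=
    prod_mem_nhds (Ico_mem_nhds hq.1.1 hq.1.2) (Ioo_mem_nhds hx₀m.1 hx₀m.2)
  have hr : ContDiffAt ℝ ∞ (fun z : ℝ × ℝ => rh p (w z.1) (f z.1) z.2) (q.1, x₀) :=
    (rh_smooth hs).contDiffAt hnb
  have hcd : ContDiffAt ℝ ∞ Φ (q.1, x₀) := contDiffAt_fst.prodMk hr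
  have hrd := (hr.differentiableAt (by simp)).hasFDerivAt
  set D := fderiv ℝ (fun z : ℝ × ℝ => rh p (w z.1) (f z.1) z.2) (q.1, x₀) with hD
  have hb : D (0, 1) = rhx (w q.1) (f q.1) x₀ := by
    have h1 : HasDerivAt (fun y : ℝ => ((q.1, y) : ℝ × ℝ)) (0, 1) x₀ :=
      (hasDerivAt_const x₀ q.1).prodMk (hasDerivAt_id x₀)
    have h2 := hrd.comp_hasDerivAt x₀ h1
    exact h2.unique (rh_deriv hs hq'.1 hx₀m)
  have hb0 : D (0, 1) ≠ 0 := by rw [hb]; exact (hneg q.1 hq'.1 _ hspec.1).ne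
  have hΦd : HasFDerivAt Φ ((eqv (D (1, 0)) (D (0, 1)) hb0 : (ℝ × ℝ) ≃L[ℝ] (ℝ × ℝ)) :
      (ℝ × ℝ) →L[ℝ] (ℝ × ℝ)) (q.1, x₀) := by
    have h1 := (hasFDerivAt_fst (𝕜 := ℝ) (p := ((q.1, x₀) : ℝ × ℝ))).prodMk hrd
    refine h1.congr_fderiv ?_
    refine ContinuousLinearMap.ext fun z => ?_
    have e1 : ((eqv (D (1, 0)) (D (0, 1)) hb0 : (ℝ × ℝ) ≃L[ℝ] (ℝ × ℝ)) :
      (ℝ × ℝ) →L[ℝ] (ℝ × ℝ)) z = (z.1, D (1, 0) * z.1 + D (0, 1) * z.2) := rfl
    rw [e1]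
    have e2 : D z = D (1, 0) * z.1 + D (0, 1) * z.2 := by
      have : z = z.1 • ((1 : ℝ), (0 : ℝ)) + z.2 • ((0 : ℝ), (1 : ℝ)) := by
        ext <;> simp
      conv_lhs => rw [this]
      rw [map_add, map_smul, map_smul, smul_eq_mul, smul_eq_mul]
      ring
    rw [← e2]
    rfl
  have hinv := hcd.to_localInverse hΦd (by simp)
  have himg : Φ (q.1, x₀) = q := by
    simp only [hΦ]; rw [hspec.2]
  rw [himg] at hinv
  have hst := hcd.hasStrictFDerivAt' hΦd (by simp)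
  have hri := hst.eventually_right_inverse
  have htend := hst.localInverse_tendsto
  rw [himg] at hri htend
  have hpos : ∀ᶠ z in 𝓝 ((q.1, x₀) : ℝ × ℝ), z.2 ∈ Ioo (0 : ℝ) 1 := by
    have h1 : Tendsto (fun z : ℝ × ℝ => z.2) (𝓝 ((q.1, x₀) : ℝ × ℝ)) (𝓝 x₀) :=
      continuous_snd.tendsto _
    exact h1.eventually (Ioo_mem_nhds hspec.1.1 hspec.1.2)
  have heq : (fun z : ℝ × ℝ => XX p w f z.1 z.2) =ᶠ[𝓝 q]
      fun z => (hcd.localInverse hΦd (by simp) z).2 := by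
    have h2 : ∀ᶠ z in 𝓝 q, z.1 ∈ Ico 0 T := by
      have : Tendsto (fun z : ℝ × ℝ => z.1) (𝓝 q) (𝓝 q.1) := continuous_fst.tendsto _
      exact this.eventually (Ico_mem_nhds hq.1.1 hq.1.2)
    filter_upwards [hri, htend.eventually hpos, h2] with z hz hz2 hz3
    have e1 := congrArg Prod.fst hz
    have e2 := congrArg Prod.snd hz
    simp only [hΦ] at e1 e2
    rw [e1] at e2
    have := (XX_inv hs hneg hz3 hz2).2
    rw [e2] at this
    exact this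
  exact ((contDiffAt_snd.comp q hinv).congr_of_eventuallyEq heq).contDiffWithinAt

end neg

end

end Vale.Agent.P244.ST.RG
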