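import Vale.Agent.P244.ST.S.Xi

/-! P244, block S: the size of the forcing, `S4Statement` (helper460). -/

open Set MeasureTheory Filter
open scoped ContDiff Topology

namespace Vale.Agent.P244.ST.SS

namespace S4

/-! ### cut-off functions -/

theorem xi_lt {x : ℝ} (h : x ≤ 1) : xi x = 0 := xi_zero h

theorem xi_gt {x : ℝ} (h : 4 ≤ x) : xi x = 1 := xi_one h

theorem xi_nonneg (x : ℝ) : 0 ≤ xi x := (xi_mem x).1

theorem xi_le (x : ℝ) : xi x ≤ 1 := (xi_mem x).2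

theorem xi1_out {x : ℝ} (h : x < 1 ∨ 4 < x) : xi1 x = 0 := by
  rcases h with h | h
  · have h1 : xi =ᶠ[𝓝 x] fun _ => 0 := by
      filter_upwards [Iio_mem_nhds h] with y hy
      exact xi_lt (le_of_lt hy)
    unfold xi1
    rw [h1.deriv_eq]
    simp
  · have h1 : xi =ᶠ[𝓝 x] fun _ => 1 := by
      filter_upwards [Ioi_mem_nhds h] with y hy
      exact xi_gt (le_of_lt hy)
    unfold xi1
    rw [h1.deriv_eq]
    simp

theorem xi2_out {x : ℝ} (h : x < 1 ∨ 4 < x) : xi2 x = 0 := by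
  rcases h with h | h
  · have h1 : xi1 =ᶠ[𝓝 x] fun _ => 0 := by
      filter_upwards [Iio_mem_nhds h] with y hy
      exact xi1_out (Or.inl hy)
    unfold xi2
    rw [h1.deriv_eq]
    simp
  · have h1 : xi1 =ᶠ[𝓝 x] fun _ => 0 := by
      filter_upwards [Ioi_mem_nhds h] with y hy
      exact xi1_out (Or.inr hy)
    unfold xi2
    rw [h1.deriv_eq]
    simp

/-- bounds for the derivatives of the step -/
theorem exists_K : ∃ K : ℝ, 1 ≤ K ∧ ∀ x, |x * xi1 x| ≤ K ∧ |x ^ 2 * xi2 x| ≤ K := by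
  have h1 : Continuous fun x => x * xi1 x := continuous_id.mul xi1_smooth.continuous
  have h2 : Continuous fun x => x ^ 2 * xi2 x := (continuous_id.pow 2).mul xi2_smooth.continuous
  obtain ⟨C1, hC1⟩ := (isCompact_Icc (a := (1 : ℝ)) (b := 4)).exists_bound_of_continuousOn
    h1.continuousOn
  obtain ⟨C2, hC2⟩ := (isCompact_Icc (a := (1 : ℝ)) (b := 4)).exists_bound_of_continuousOn
    h2.continuousOn
  refine ⟨max 1 (max C1 C2), le_max_left _ _, ?_⟩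
  intro x
  by_cases h : x ∈ Icc (1 : ℝ) 4
  · exact ⟨(hC1 x h).trans ((le_max_left _ _).trans (le_max_right _ _)),
      (hC2 x h).trans ((le_max_right _ _).trans (le_max_right _ _))⟩
  · have h' : x < 1 ∨ 4 < x := by
      by_contra hc
      push Not at hc
      exact h ⟨hc.1, hc.2⟩
    rw [xi1_out h', xi2_out h', mul_zero, mul_zero, abs_zero]
    have : (0 : ℝ) ≤ max 1 (max C1 C2) := zero_le_one.trans (le_max_left _ _)
    exact ⟨this, this⟩

theorem z0_pos {d s : ℝ} (hd : 0 < d) : 0 < z0 d s := by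
  unfold z0
  positivity

theorem be_pos {N s z : ℝ} (hN : 0 < N) (hz : 0 < z) : 0 < be N s z := by
  unfold be
  positivity

/-- outside of the support of the cut-off -/
theorem cut_zero {d N s z : ℝ} (h : z / z0 d s < 1 ∨ 4 < be N s z) :
    ch d N s z = 0 ∧ ch1 d N s z = 0 ∧ ch2 d N s z = 0 ∧ chs d N s z = 0 := by
  unfold ch ch1 ch2 chs
  rcases h with h | h
  · rw [xi_lt h.le, xi1_out (Or.inl h), xi2_out (Or.inl h)]
    simp
  · rw [xi_gt h.le, xi1_out (Or.inr h), xi2_out (Or.inr h)]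
    simp

/-- the derivatives vanish between the two transition regions -/
theorem cut_mid {d N s z : ℝ} (h1 : 4 < z / z0 d s) (h2 : be N s z < 1) :
    ch1 d N s z = 0 ∧ ch2 d N s z = 0 ∧ chs d N s z = 0 := by
  unfold ch1 ch2 chs
  rw [xi1_out (Or.inr h1), xi2_out (Or.inr h1), xi1_out (Or.inl h2), xi2_out (Or.inl h2)]
  simp

theorem ch_abs {d N s z : ℝ} : |ch d N s z| ≤ 1 := by
  unfold ch
  have h1 := xi_nonneg (z / z0 d s)
  have h2 := xi_le (z / z0 d s)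
  have h3 := xi_nonneg (be N s z)
  have h4 := xi_le (be N s z)
  rw [abs_of_nonneg (mul_nonneg h1 (by linarith only [h4]))]
  calc xi (z / z0 d s) * (1 - xi (be N s z)) ≤ 1 * 1 :=
        mul_le_mul h2 (by linarith only [h3]) (by linarith only [h4]) zero_le_one
    _ = 1 := one_mul 1

theorem cut_bd {K : ℝ} (hK1 : 1 ≤ K) (hK : ∀ x, |x * xi1 x| ≤ K ∧ |x ^ 2 * xi2 x| ≤ K)
    (d N s z : ℝ) : |ch1 d N s z| ≤ 24 * K ^ 2 ∧ |ch2 d N s z| ≤ 24 * K ^ 2 ∧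
      |chs d N s z| ≤ 24 * K ^ 2 := by
  set x := z / z0 d s with hx
  set y := be N s z with hy
  have hKK : K ≤ K ^ 2 := by nlinarith only [hK1]
  have a1 := abs_le.1 (hK x).1
  have a2 := abs_le.1 (hK x).2
  have b1 := abs_le.1 (hK y).1
  have b2 := abs_le.1 (hK y).2
  have x0 := xi_nonneg x
  have x1 := xi_le x
  have y0 := xi_nonneg y
  have y1 := xi_le y
  -- products of a quantity of size `C` with a factor in `[0,1]`
  have key : ∀ {u v C : ℝ}, 0 ≤ v → v ≤ 1 → |u| ≤ C → |u * v| ≤ C := by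
    intro u v C hv0 hv1 hu
    rw [abs_mul, abs_of_nonneg hv0]
    calc |u| * v ≤ |u| * 1 := mul_le_mul_of_nonneg_left hv1 (abs_nonneg _)
      _ ≤ C := by linarith only [hu]
  have t1 : |2 * (x * xi1 x)| ≤ 2 * K := by
    rw [abs_mul, abs_two]
    linarith only [hK, (hK x).1]
  have t2 : |2 * (y * xi1 y)| ≤ 2 * K := by
    rw [abs_mul, abs_two]
    linarith only [hK, (hK y).1]
  refine ⟨?_, ?_, ?_⟩
  · have e : ch1 d N s z = 2 * (x * xi1 x) * (1 - xi y) - 2 * (y * xi1 y) * xi x := by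
      unfold ch1
      rw [← hx, ← hy]
      ring
    rw [e]
    refine (abs_sub _ _).trans ?_
    have := key (by linarith only [y1]) (by linarith only [y0]) t1 (v := 1 - xi y)
    have := key x0 x1 t2
    linarith
  · have e : ch2 d N s z = (4 * (x ^ 2 * xi2 x) + 4 * (x * xi1 x)) * (1 - xi y) -
        2 * (x * xi1 x) * (2 * (y * xi1 y)) * 2 -
        (4 * (y ^ 2 * xi2 y) + 4 * (y * xi1 y)) * xi x := by
      unfold ch2
      rw [← hx, ← hy]
      ring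
    rw [e]
    have t3 : |4 * (x ^ 2 * xi2 x) + 4 * (x * xi1 x)| ≤ 8 * K := by
      rw [abs_le]
      constructor <;> linarith only [a1, a2]
    have t4 : |4 * (y ^ 2 * xi2 y) + 4 * (y * xi1 y)| ≤ 8 * K := by
      rw [abs_le]
      constructor <;> linarith only [b1, b2]
    have t5 : |2 * (x * xi1 x) * (2 * (y * xi1 y)) * 2| ≤ 8 * K ^ 2 := by
      rw [abs_mul, abs_mul, abs_two]
      have := mul_le_mul t1 t2 (abs_nonneg _) (by positivity)
      nlinarith only [this]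
    have t6 := key (by linarith only [y1]) (by linarith only [y0]) t3 (v := 1 - xi y)
    have t7 := key x0 x1 t4
    refine (abs_sub _ _).trans ?_
    have t8 := abs_sub ((4 * (x ^ 2 * xi2 x) + 4 * (x * xi1 x)) * (1 - xi y))
      (2 * (x * xi1 x) * (2 * (y * xi1 y)) * 2)
    linarith only [hKK, t5, t6, t7, t8]
  · have e : chs d N s z = x * xi1 x * (1 - xi y) / 5 + y * xi1 y * xi x := by
      unfold chs
      rw [← hx, ← hy]
      ring
    rw [e]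
    refine (abs_add_le _ _).trans ?_
    have t6 := key (by linarith only [y1]) (by linarith only [y0]) (hK x).1 (v := 1 - xi y)
    have t7 := key x0 x1 (hK y).1
    rw [abs_div, abs_of_pos (by norm_num : (0 : ℝ) < 5)]
    linarith only [hK1, hKK, t6, t7]

/-! ### powers -/

theorem en_pos {z : ℝ} (hz : 0 < z) : 0 < en z := by
  unfold en
  have := Real.rpow_pos_of_pos hz (-(11 / 10 : ℝ))
  positivity

theorem en_small {z : ℝ} (hz : 0 < z) (h1 : z ≤ 1) : en z ≤ 2 * z ^ (-(11 / 10 : ℝ)) := by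
  unfold en
  have h2 : 1 ≤ z ^ (-(11 / 10 : ℝ)) := Real.one_le_rpow_of_pos_of_le_one_of_nonpos hz h1 (by norm_num)
  have h3 : z ^ 3 ≤ 1 := pow_le_one₀ hz.le h1
  linarith only [h2, h3]

theorem en_large {z : ℝ} (h1 : 1 ≤ z) : en z ≤ 2 * z ^ 3 := by
  unfold en
  have h2 : z ^ (-(11 / 10 : ℝ)) ≤ 1 := Real.rpow_le_one_of_one_le_of_nonpos h1 (by norm_num)
  have h3 : 1 ≤ z ^ 3 := one_le_pow₀ h1
  linarith only [h2, h3]

/-- `z^{39/2} en² ≤ 4 (1 + z^36)`, `z^{39/2} en² (en²/z)² ≤ 64 (1+z^36)`,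
`z ≤ 1 → z^{39/2} en² / z² ≤ 4 z^15`, `1 ≤ z → z^{39/2} en² ≤ 4 z^26` -/
theorem pw_small {z : ℝ} (hz : 0 < z) (h1 : z ≤ 1) :
    z ^ (39 / 2 : ℝ) * en z ^ 2 ≤ 4 * z ^ 17 := by
  have h2 := en_small hz h1
  have h3 : en z ^ 2 ≤ (2 * z ^ (-(11 / 10 : ℝ))) ^ 2 := pow_le_pow_left₀ (en_pos hz).le h2 2
  have h4 : (z ^ (-(11 / 10 : ℝ))) ^ 2 = z ^ (-(22 / 10 : ℝ)) := by
    rw [← Real.rpow_natCast, ← Real.rpow_mul hz.le]
    norm_num
  calc z ^ (39 / 2 : ℝ) * en z ^ 2 ≤ z ^ (39 / 2 : ℝ) * (2 * z ^ (-(11 / 10 : ℝ))) ^ 2 :=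
        mul_le_mul_of_nonneg_left h3 (Real.rpow_nonneg hz.le _)
    _ = 4 * (z ^ (39 / 2 : ℝ) * z ^ (-(22 / 10 : ℝ))) := by rw [mul_pow, h4]; ring
    _ = 4 * z ^ (173 / 10 : ℝ) := by
        rw [← Real.rpow_add hz]
        norm_num
    _ ≤ 4 * z ^ 17 := by
        have : z ^ (173 / 10 : ℝ) ≤ z ^ (17 : ℝ) := Real.rpow_le_rpow_of_exponent_ge hz h1 (by norm_num)
        have e : z ^ (17 : ℝ) = z ^ 17 := by
          rw [← Real.rpow_natCast]
          norm_num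
        rw [e] at this
        linarith only [this]

theorem pw_large {z : ℝ} (h1 : 1 ≤ z) : z ^ (39 / 2 : ℝ) * en z ^ 2 ≤ 4 * z ^ 26 := by
  have hz : 0 < z := by linarith only [h1]
  have h2 := en_large h1
  have h3 : en z ^ 2 ≤ (2 * z ^ 3) ^ 2 := pow_le_pow_left₀ (en_pos hz).le h2 2
  have h5 : z ^ (39 / 2 : ℝ) ≤ z ^ 20 := by
    have : z ^ (39 / 2 : ℝ) ≤ z ^ (20 : ℝ) := Real.rpow_le_rpow_of_exponent_le h1 (by norm_num)
    have e : z ^ (20 : ℝ) = z ^ 20 := by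
      rw [← Real.rpow_natCast]
      norm_num
    rwa [e] at this
  calc z ^ (39 / 2 : ℝ) * en z ^ 2 ≤ z ^ 20 * (2 * z ^ 3) ^ 2 :=
        mul_le_mul h5 h3 (sq_nonneg _) (by positivity)
    _ = 4 * z ^ 26 := by ring

theorem pw4_small {z : ℝ} (hz : 0 < z) (h1 : z ≤ 1) : z ^ (39 / 2 : ℝ) * en z ^ 2 *
    (en z ^ 2 / z) ^ 2 ≤ 64 := by
  have h2 := en_small hz h1
  have h3 : en z ^ 6 ≤ (2 * z ^ (-(11 / 10 : ℝ))) ^ 6 := pow_le_pow_left₀ (en_pos hz).le h2 6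
  have h4 : (z ^ (-(11 / 10 : ℝ))) ^ 6 = z ^ (-(66 / 10 : ℝ)) := by
    rw [← Real.rpow_natCast, ← Real.rpow_mul hz.le]
    norm_num
  have e : z ^ (39 / 2 : ℝ) * en z ^ 2 * (en z ^ 2 / z) ^ 2 =
      z ^ (39 / 2 : ℝ) * z ^ (-(2 : ℝ)) * en z ^ 6 := by
    have : z ^ (-(2 : ℝ)) = (z ^ 2)⁻¹ := by
      rw [Real.rpow_neg hz.le]
      norm_num
    rw [this]
    field_simp
  rw [e, ← Real.rpow_add hz]
  calc z ^ (39 / 2 + -(2 : ℝ)) * en z ^ 6 ≤ z ^ (39 / 2 + -(2 : ℝ)) *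
        (2 * z ^ (-(11 / 10 : ℝ))) ^ 6 :=
        mul_le_mul_of_nonneg_left h3 (Real.rpow_nonneg hz.le _)
    _ = 64 * (z ^ (39 / 2 + -(2 : ℝ)) * z ^ (-(66 / 10 : ℝ))) := by rw [mul_pow, h4]; ring
    _ = 64 * z ^ (109 / 10 : ℝ) := by
        rw [← Real.rpow_add hz]
        norm_num
    _ ≤ 64 * 1 := by
        have : z ^ (109 / 10 : ℝ) ≤ 1 := Real.rpow_le_one hz.le h1 (by norm_num)
        linarith only [this]
    _ = 64 := by norm_num

theorem pw4_large {z : ℝ} (h1 : 1 ≤ z) : z ^ (39 / 2 : ℝ) * en z ^ 2 *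
    (en z ^ 2 / z) ^ 2 ≤ 64 * z ^ 36 := by
  have hz : 0 < z := by linarith only [h1]
  have h2 := en_large h1
  have h3 : en z ^ 2 / z ≤ 4 * z ^ 5 := by
    rw [div_le_iff₀ hz]
    have : en z ^ 2 ≤ (2 * z ^ 3) ^ 2 := pow_le_pow_left₀ (en_pos hz).le h2 2
    calc en z ^ 2 ≤ (2 * z ^ 3) ^ 2 := this
      _ = 4 * z ^ 5 * z := by ring
  have h4 : (en z ^ 2 / z) ^ 2 ≤ (4 * z ^ 5) ^ 2 :=
    pow_le_pow_left₀ (div_nonneg (sq_nonneg _) hz.le) h3 2
  calc z ^ (39 / 2 : ℝ) * en z ^ 2 * (en z ^ 2 / z) ^ 2 ≤ 4 * z ^ 26 * (4 * z ^ 5) ^ 2 :=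
        mul_le_mul (pw_large h1) h4 (sq_nonneg _) (by positivity)
    _ = 64 * z ^ 36 := by ring

theorem pw_all {z : ℝ} (hz : 0 < z) : z ^ (39 / 2 : ℝ) * en z ^ 2 ≤ 4 * (1 + z ^ 36) := by
  rcases le_total z 1 with h | h
  · have h1 := pw_small hz h
    have h2 : z ^ 17 ≤ 1 := pow_le_one₀ hz.le h
    have h3 : 0 ≤ z ^ 36 := by positivity
    linarith only [h1, h2, h3]
  · have h1 := pw_large h
    have h2 : z ^ 26 ≤ z ^ 36 := pow_le_pow_right₀ h (by norm_num)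
    linarith only [h1, h2]

theorem pw4_all {z : ℝ} (hz : 0 < z) : z ^ (39 / 2 : ℝ) * en z ^ 2 * (en z ^ 2 / z) ^ 2 ≤
    64 * (1 + z ^ 36) := by
  rcases le_total z 1 with h | h
  · have h1 := pw4_small hz h
    have h3 : 0 ≤ z ^ 36 := by positivity
    linarith only [h1, h3]
  · have h1 := pw4_large h
    linarith only [h1]

theorem wk_sq {k z : ℝ} (hz : 0 < z) : wk k z ^ 2 * z ^ (aa k) = 4 ^ k * z ^ (39 / 2 : ℝ) := by
  unfold wk aa
  rw [← Real.rpow_natCast, ← Real.rpow_mul (by positivity), Real.mul_rpow (by norm_num) hz.le]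
  have e : k / 2 * ((2 : ℕ) : ℝ) = k := by push_cast; ring
  rw [e, mul_assoc, ← Real.rpow_add hz]
  congr 2
  ring

/-- a constant with `z^26 ≤ c e^{z/4}` -/
theorem exists_c26 : ∃ c : ℝ, 0 < c ∧ ∀ z : ℝ, 0 ≤ z → z ^ 26 ≤ c * Real.exp (z / 4) := by
  have hf : (0 : ℝ) < Nat.factorial 26 := by exact_mod_cast Nat.factorial_pos 26
  refine ⟨4 ^ 26 * (Nat.factorial 26 : ℝ), by positivity, ?_⟩
  intro z hz
  have h := Real.pow_div_factorial_le_exp (z / 4) (by positivity) 26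
  rw [div_le_iff₀ hf, div_pow, div_le_iff₀ (by positivity)] at h
  linarith only [h]

/-! ### the pointwise bound -/

theorem fn_bd {k ε d N C1 Rs s : ℝ} {U U1 U2 Z : ℝ → ℝ → ℝ} (hε : 0 < ε) (hC1 : 0 ≤ C1)
    (hP : PtIn k ε d N C1 Rs U U1 U2 Z s) {z Kc x : ℝ} (hz : 0 < z) (hKc : 0 ≤ Kc) (hx : 0 ≤ x)
    (h1 : z0 d s ≤ z) (h2 : be N s z ≤ 4) (c1 : |ch1 d N s z| ≤ Kc * x)
    (c2 : |ch2 d N s z| ≤ Kc * x) (c3 : |chs d N s z| ≤ Kc * x) :
    |FN k ε d N U U1 U2 Z s z| ≤ C1 * wk k z * en z * (Am k ε s ^ 2 * (en z ^ 2 / z) / 4 +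
      Rs * Real.exp (-s) / 4 + Kc * x * (42 / (4 * z) + 3 / 2)) := by
  have hA : 0 < Am k ε s := by
    unfold Am
    positivity
  have hW : 0 ≤ wk k z := by
    unfold wk
    positivity
  have hE := en_pos hz
  obtain ⟨p1, p2, p3⟩ := hP z h1 h2
  set A := Am k ε s
  set W := wk k z
  set E := en z
  set u := U (tt s) (lr s z)
  set u1 := U1 (tt s) (lr s z)
  set nn := nl u u1 (U2 (tt s) (lr s z)) (Z (tt s) (lr s z))
  have e : FN k ε d N U U1 U2 Z s z = W / A * (ch d N s z / (4 * z) * nn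
      - 1 / (4 * z) * (2 * ch1 d N s z * u1 + (ch2 d N s z + 39 * ch1 d N s z) * u)
      + (ch1 d N s z / 2 + chs d N s z) * u) := rfl
  rw [e, abs_mul, abs_of_nonneg (div_nonneg hW hA.le)]
  have hB0 : 0 ≤ C1 * A * E := by positivity
  have q1 : |ch d N s z / (4 * z) * nn| ≤
      1 / (4 * z) * (C1 * A * E * (A ^ 2 * E ^ 2 + z * Real.exp (-s) * Rs)) := by
    rw [abs_mul, abs_div, abs_of_pos (by positivity : 0 < 4 * z)]
    apply mul_le_mul _ p3 (abs_nonneg _) (by positivity)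
    exact div_le_div_of_nonneg_right ch_abs (by positivity)
  have q2 : |2 * ch1 d N s z * u1 + (ch2 d N s z + 39 * ch1 d N s z) * u| ≤
      42 * (Kc * x) * (C1 * A * E) := by
    have r1 : |2 * ch1 d N s z * u1| ≤ 2 * (Kc * x) * (C1 * A * E) := by
      rw [abs_mul, abs_mul, abs_two]
      exact mul_le_mul (by linarith only [c1]) p2 (abs_nonneg _) (by positivity)
    have r2 : |(ch2 d N s z + 39 * ch1 d N s z) * u| ≤ 40 * (Kc * x) * (C1 * A * E) := by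
      rw [abs_mul]
      apply mul_le_mul _ p1 (abs_nonneg _) (by positivity)
      refine (abs_add_le _ _).trans ?_
      rw [abs_mul, abs_of_pos (by norm_num : (0 : ℝ) < 39)]
      linarith only [c1, c2]
    refine (abs_add_le _ _).trans ?_
    linarith only [r1, r2]
  have q3 : |(ch1 d N s z / 2 + chs d N s z) * u| ≤ 3 / 2 * (Kc * x) * (C1 * A * E) := by
    rw [abs_mul]
    apply mul_le_mul _ p1 (abs_nonneg _) (by positivity)
    refine (abs_add_le _ _).trans ?_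
    rw [abs_div, abs_two]
    linarith only [c1, c3]
  have q4 : |ch d N s z / (4 * z) * nn
      - 1 / (4 * z) * (2 * ch1 d N s z * u1 + (ch2 d N s z + 39 * ch1 d N s z) * u)
      + (ch1 d N s z / 2 + chs d N s z) * u| ≤
      1 / (4 * z) * (C1 * A * E * (A ^ 2 * E ^ 2 + z * Real.exp (-s) * Rs)) +
      1 / (4 * z) * (42 * (Kc * x) * (C1 * A * E)) + 3 / 2 * (Kc * x) * (C1 * A * E) := by
    refine (abs_add_le _ _).trans (add_le_add ((abs_sub _ _).trans (add_le_add q1 ?_)) q3)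
    rw [abs_mul, abs_of_pos (by positivity : 0 < 1 / (4 * z))]
    exact mul_le_mul_of_nonneg_left q2 (by positivity)
  refine (mul_le_mul_of_nonneg_left q4 (div_nonneg hW hA.le)).trans (le_of_eq ?_)
  field_simp
  ring

/-- the dominating function -/
noncomputable def Bd (c k ε d N C1 Kc Rs s z : ℝ) : ℝ :=
  3 * C1 ^ 2 * 4 ^ k * ((4 * Am k ε s ^ 4 + (Rs * Real.exp (-s)) ^ 2) *
      ((1 + z ^ 36) * Real.exp (-z)) +
    576 * Kc ^ 2 * ((Icc (z0 d s) (4 * z0 d s)).indicator (fun _ => (4 * z0 d s) ^ 15) z +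
      c * Real.exp (-(N * Real.exp s / 8)) * Real.exp (-z / 4)))

theorem Bd_nonneg {c : ℝ} (hc : 0 ≤ c) (k ε d N C1 Kc Rs s : ℝ) {z : ℝ} (hz : 0 < z)
    (hd : 0 < d) : 0 ≤ Bd c k ε d N C1 Kc Rs s z := by
  unfold Bd
  have h1 : 0 ≤ (Icc (z0 d s) (4 * z0 d s)).indicator (fun _ => (4 * z0 d s) ^ 15) z := by
    apply indicator_nonneg
    intro _ _
    have := z0_pos (s := s) hd
    positivity
  positivity

/-- the square of the forcing with the weight, in terms of the size `x` of the derivatives of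
the cut-off -/
theorem fn_gen {k ε d N C1 Rs s Kc : ℝ} {U U1 U2 Z : ℝ → ℝ → ℝ} (hε : 0 < ε) (hC1 : 0 ≤ C1)
    (hKc0 : 0 ≤ Kc) (hP : PtIn k ε d N C1 Rs U U1 U2 Z s) {z : ℝ} (hz : 0 < z)
    (h1 : z0 d s ≤ z) (h2 : be N s z ≤ 4) (x : ℝ) (hx : 0 ≤ x) (c1 : |ch1 d N s z| ≤ Kc * x)
    (c2 : |ch2 d N s z| ≤ Kc * x) (c3 : |chs d N s z| ≤ Kc * x) :
    FN k ε d N U U1 U2 Z s z ^ 2 * (z ^ (aa k) * Real.exp (-z)) ≤
      3 * C1 ^ 2 * 4 ^ k * ((4 * Am k ε s ^ 4 + (Rs * Real.exp (-s)) ^ 2) *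
      ((1 + z ^ 36) * Real.exp (-z)) + Kc ^ 2 * (x ^ 2 * (z ^ (39 / 2 : ℝ) * en z ^ 2 *
        (42 / (4 * z) + 3 / 2) ^ 2 * Real.exp (-z)))) := by
  have hE := en_pos hz
  have hb := fn_bd hε hC1 hP hz hKc0 hx h1 h2 c1 c2 c3
  have hW : 0 ≤ wk k z := by
    unfold wk
    positivity
  generalize Am k ε s = A at *
  generalize hEE : en z = E at *
  generalize 42 / (4 * z) + 3 / 2 = Q at *
  generalize Rs * Real.exp (-s) = R at *
  generalize FN k ε d N U U1 U2 Z s z = X at *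
  have hsq : X ^ 2 ≤ (C1 * wk k z * E * (A ^ 2 * (E ^ 2 / z) / 4 + R / 4 + Kc * x * Q)) ^ 2 := by
    rw [← sq_abs X]
    exact pow_le_pow_left₀ (abs_nonneg _) hb 2
  have h3 : (A ^ 2 * (E ^ 2 / z) / 4 + R / 4 + Kc * x * Q) ^ 2 ≤
      3 * ((A ^ 2 * (E ^ 2 / z) / 4) ^ 2 + (R / 4) ^ 2 + (Kc * x * Q) ^ 2) := by
    generalize A ^ 2 * (E ^ 2 / z) / 4 = a
    generalize Kc * x * Q = c
    nlinarith only [sq_nonneg (a - R / 4), sq_nonneg (a - c), sq_nonneg (R / 4 - c)]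
  have hwt : 0 ≤ z ^ (aa k) * Real.exp (-z) := by positivity
  have h4 : X ^ 2 ≤ C1 ^ 2 * wk k z ^ 2 * E ^ 2 *
      (3 * ((A ^ 2 * (E ^ 2 / z) / 4) ^ 2 + (R / 4) ^ 2 + (Kc * x * Q) ^ 2)) := by
    refine hsq.trans ?_
    rw [mul_pow, mul_pow, mul_pow]
    exact mul_le_mul_of_nonneg_left h3 (by positivity)
  refine (mul_le_mul_of_nonneg_right h4 hwt).trans ?_
  have e1 : C1 ^ 2 * wk k z ^ 2 * E ^ 2 *
      (3 * ((A ^ 2 * (E ^ 2 / z) / 4) ^ 2 + (R / 4) ^ 2 + (Kc * x * Q) ^ 2)) *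
      (z ^ (aa k) * Real.exp (-z)) = 3 * C1 ^ 2 * (wk k z ^ 2 * z ^ (aa k)) *
        (E ^ 2 * ((A ^ 2 * (E ^ 2 / z) / 4) ^ 2 + (R / 4) ^ 2 + (Kc * x * Q) ^ 2) *
          Real.exp (-z)) := by ring
  rw [e1, wk_sq hz]
  have h5 := pw4_all hz
  have h6 := pw_all hz
  rw [hEE] at h5 h6
  have hex := Real.exp_pos (-z)
  have hW36 : 0 ≤ 1 + z ^ 36 := by positivity
  have hfk : 0 ≤ 3 * C1 ^ 2 * (4 : ℝ) ^ k := by positivity
  generalize Real.exp (-z) = ez at *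
  generalize z ^ (39 / 2 : ℝ) = Y at *
  generalize 1 + z ^ 36 = W36 at *
  generalize (4 : ℝ) ^ k = fk at *
  have e2 : 3 * C1 ^ 2 * (fk * Y) *
        (E ^ 2 * ((A ^ 2 * (E ^ 2 / z) / 4) ^ 2 + (R / 4) ^ 2 + (Kc * x * Q) ^ 2) * ez) =
      3 * C1 ^ 2 * fk * (A ^ 4 / 16 * (Y * E ^ 2 * (E ^ 2 / z) ^ 2) *
          ez + R ^ 2 / 16 * (Y * E ^ 2) * ez +
        Kc ^ 2 * (x ^ 2 * (Y * E ^ 2 * Q ^ 2 * ez))) := by
    ring
  rw [e2]
  apply mul_le_mul_of_nonneg_left _ hfk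
  apply add_le_add _ le_rfl
  have h7 : A ^ 4 / 16 * (Y * E ^ 2 * (E ^ 2 / z) ^ 2) * ez ≤ A ^ 4 / 16 * (64 * W36) * ez :=
    mul_le_mul_of_nonneg_right (mul_le_mul_of_nonneg_left h5 (by positivity)) hex.le
  have h8 : R ^ 2 / 16 * (Y * E ^ 2) * ez ≤ R ^ 2 / 16 * (4 * W36) * ez :=
    mul_le_mul_of_nonneg_right (mul_le_mul_of_nonneg_left h6 (by positivity)) hex.le
  have h9 : 0 ≤ R ^ 2 * W36 * ez := by positivity
  have e3 : (4 * A ^ 4 + R ^ 2) * (W36 * ez) = A ^ 4 / 16 * (64 * W36) * ez + R ^ 2 * W36 * ez := by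
    ring
  have e4 : R ^ 2 / 16 * (4 * W36) * ez = (R ^ 2 * W36 * ez) / 4 := by ring
  rw [e3]
  rw [e4] at h8
  linarith only [h7, h8, h9]

/-- inner transition region -/
theorem fn_in {d s z : ℝ} (hd : 0 < d) (hd1 : d ≤ 1) (hs : 0 ≤ s) (hz : 0 < z)
    (hin : z ≤ 4 * z0 d s) : z ^ (39 / 2 : ℝ) * en z ^ 2 * (42 / (4 * z) + 3 / 2) ^ 2 *
      Real.exp (-z) ≤ 576 * (4 * z0 d s) ^ 15 := by
  have hz4 : 4 * z0 d s ≤ 1 := by
    unfold z0
    have e1 : Real.exp (-s / 5) ≤ 1 := by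
      rw [Real.exp_le_one_iff]
      linarith only [hs]
    have e2 : d ^ 2 ≤ 1 := pow_le_one₀ hd.le hd1
    have : d ^ 2 * Real.exp (-s / 5) ≤ 1 * 1 := mul_le_mul e2 e1 (Real.exp_nonneg _) zero_le_one
    linarith only [this]
  have hz1 : z ≤ 1 := hin.trans hz4
  have q1 := pw_small hz hz1
  have q2 : 42 / (4 * z) + 3 / 2 ≤ 12 / z := by
    rw [div_add_div _ _ (by positivity) (by norm_num), div_le_div_iff₀ (by positivity) hz]
    nlinarith only [hz, hin, hz4]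
  have q3 : (42 / (4 * z) + 3 / 2) ^ 2 ≤ (12 / z) ^ 2 := pow_le_pow_left₀ (by positivity) q2 2
  have q4 : z ^ (39 / 2 : ℝ) * en z ^ 2 * (42 / (4 * z) + 3 / 2) ^ 2 ≤ 576 * z ^ 15 := by
    calc z ^ (39 / 2 : ℝ) * en z ^ 2 * (42 / (4 * z) + 3 / 2) ^ 2 ≤
          4 * z ^ 17 * (12 / z) ^ 2 := mul_le_mul q1 q3 (sq_nonneg _) (by positivity)
      _ = 576 * z ^ 15 := by field_simp; ring
  have q5 : z ^ 15 ≤ (4 * z0 d s) ^ 15 := pow_le_pow_left₀ hz.le hin 15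
  have q6 : Real.exp (-z) ≤ 1 := by
    rw [Real.exp_le_one_iff]
    linarith only [hz]
  calc z ^ (39 / 2 : ℝ) * en z ^ 2 * (42 / (4 * z) + 3 / 2) ^ 2 * Real.exp (-z) ≤
        576 * z ^ 15 * 1 := mul_le_mul q4 q6 (Real.exp_nonneg _) (by positivity)
    _ ≤ 576 * (4 * z0 d s) ^ 15 := by linarith only [q5]

/-- outer transition region -/
theorem fn_out {N s z c : ℝ} (hc : 0 ≤ c) (h26 : ∀ z : ℝ, 0 ≤ z → z ^ 26 ≤ c * Real.exp (z / 4))
    (hN : 16 ≤ N) (hs : 0 ≤ s) (hz : 0 < z) (hbe : 1 ≤ be N s z) :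
    z ^ (39 / 2 : ℝ) * en z ^ 2 * (42 / (4 * z) + 3 / 2) ^ 2 * Real.exp (-z) ≤
      576 * (c * Real.exp (-(N * Real.exp s / 8)) * Real.exp (-z / 4)) := by
  have hNp : 0 < N := by linarith only [hN]
  have hL : N * Real.exp s / 4 ≤ z := by
    unfold be at hbe
    rw [le_div_iff₀ hNp, one_mul] at hbe
    have h5 : Real.exp (-s) * Real.exp s = 1 := by
      rw [← Real.exp_add]
      simp
    have h6 : N * Real.exp s ≤ 4 * z * Real.exp (-s) * Real.exp s :=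
      mul_le_mul_of_nonneg_right hbe (Real.exp_nonneg _)
    have h7 : 4 * z * Real.exp (-s) * Real.exp s = 4 * z := by rw [mul_assoc, h5, mul_one]
    rw [h7] at h6
    linarith only [h6]
  have hes : 1 ≤ Real.exp s := Real.one_le_exp hs
  have hz1 : 1 ≤ z := by nlinarith only [hN, hz, hL, hes]
  have q1 := pw_large hz1
  have q2 : 42 / (4 * z) + 3 / 2 ≤ 12 := by
    rw [div_add_div _ _ (by positivity) (by norm_num), div_le_iff₀ (by positivity)]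
    nlinarith only [hz1]
  have q3 : (42 / (4 * z) + 3 / 2) ^ 2 ≤ 12 ^ 2 := pow_le_pow_left₀ (by positivity) q2 2
  have q4 : z ^ (39 / 2 : ℝ) * en z ^ 2 * (42 / (4 * z) + 3 / 2) ^ 2 ≤ 576 * z ^ 26 := by
    calc z ^ (39 / 2 : ℝ) * en z ^ 2 * (42 / (4 * z) + 3 / 2) ^ 2 ≤
          4 * z ^ 26 * 12 ^ 2 := mul_le_mul q1 q3 (sq_nonneg _) (by positivity)
      _ = 576 * z ^ 26 := by ring
  have q5 := h26 z hz.le
  have q6 : Real.exp (z / 4) * Real.exp (-z) ≤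
      Real.exp (-(N * Real.exp s / 8)) * Real.exp (-z / 4) := by
    rw [← Real.exp_add, ← Real.exp_add, Real.exp_le_exp]
    linarith only [hL]
  calc z ^ (39 / 2 : ℝ) * en z ^ 2 * (42 / (4 * z) + 3 / 2) ^ 2 * Real.exp (-z) ≤
        576 * z ^ 26 * Real.exp (-z) := mul_le_mul_of_nonneg_right q4 (Real.exp_nonneg _)
    _ ≤ 576 * (c * Real.exp (z / 4)) * Real.exp (-z) :=
        mul_le_mul_of_nonneg_right (mul_le_mul_of_nonneg_left q5 (by norm_num))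
          (Real.exp_nonneg _)
    _ = 576 * c * (Real.exp (z / 4) * Real.exp (-z)) := by ring
    _ ≤ 576 * c * (Real.exp (-(N * Real.exp s / 8)) * Real.exp (-z / 4)) :=
        mul_le_mul_of_nonneg_left q6 (by positivity)
    _ = _ := by ring

theorem fn_sq {k ε d N C1 Rs s K c : ℝ} (hc : 0 ≤ c)
    (h26 : ∀ z : ℝ, 0 ≤ z → z ^ 26 ≤ c * Real.exp (z / 4))
    {U U1 U2 Z : ℝ → ℝ → ℝ} (hε : 0 < ε) (hC1 : 0 ≤ C1)
    (hd : 0 < d) (hd1 : d ≤ 1) (hN : 16 ≤ N) (hs : 0 ≤ s)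
    (hK1 : 1 ≤ K) (hK : ∀ x, |x * xi1 x| ≤ K ∧ |x ^ 2 * xi2 x| ≤ K)
    (hP : PtIn k ε d N C1 Rs U U1 U2 Z s) {z : ℝ} (hz : 0 < z) :
    FN k ε d N U U1 U2 Z s z ^ 2 * (z ^ (aa k) * Real.exp (-z)) ≤
      Bd c k ε d N C1 (24 * K ^ 2) Rs s z := by
  have hz0 := z0_pos (s := s) hd
  by_cases hout : z / z0 d s < 1 ∨ 4 < be N s z
  · obtain ⟨a0, a1, a2, a3⟩ := cut_zero hout
    have : FN k ε d N U U1 U2 Z s z = 0 := by
      unfold FN
      rw [a0, a1, a2, a3]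
      ring
    rw [this]
    have := Bd_nonneg hc k ε d N C1 (24 * K ^ 2) Rs s hz hd
    simpa using this
  push Not at hout
  have h1 : z0 d s ≤ z := by
    have := hout.1
    rwa [le_div_iff₀ hz0, one_mul] at this
  have h2 := hout.2
  obtain ⟨c1, c2, c3⟩ := cut_bd hK1 hK d N s z
  have hKc0 : 0 ≤ 24 * K ^ 2 := by positivity
  generalize 24 * K ^ 2 = Kc at *
  have gen := fn_gen hε hC1 hKc0 hP hz h1 h2
  have hind0 : 0 ≤ (Icc (z0 d s) (4 * z0 d s)).indicator (fun _ => (4 * z0 d s) ^ 15) z := by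
    apply indicator_nonneg
    intro _ _
    positivity
  have hex0 : 0 ≤ c * Real.exp (-(N * Real.exp s / 8)) * Real.exp (-z / 4) := by positivity
  by_cases hmid : 4 < z / z0 d s ∧ be N s z < 1
  · obtain ⟨a1, a2, a3⟩ := cut_mid hmid.1 hmid.2
    have h3 := gen 0 le_rfl (by rw [a1]; simp) (by rw [a2]; simp) (by rw [a3]; simp)
    refine h3.trans ?_
    unfold Bd
    apply mul_le_mul_of_nonneg_left _ (by positivity)
    apply add_le_add le_rfl
    have : 0 ≤ 576 * Kc ^ 2 * ((Icc (z0 d s) (4 * z0 d s)).indicator (fun _ => (4 * z0 d s) ^ 15) z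
      + c * Real.exp (-(N * Real.exp s / 8)) * Real.exp (-z / 4)) :=
      mul_nonneg (by positivity) (add_nonneg hind0 hex0)
    simpa using this
  · have h3 := gen 1 zero_le_one (by rwa [mul_one]) (by rwa [mul_one]) (by rwa [mul_one])
    refine h3.trans ?_
    unfold Bd
    apply mul_le_mul_of_nonneg_left _ (by positivity)
    apply add_le_add le_rfl
    rw [one_pow, one_mul, mul_comm 576 (Kc ^ 2), mul_assoc (Kc ^ 2)]
    apply mul_le_mul_of_nonneg_left _ (sq_nonneg _)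
    rw [mul_add]
    by_cases hin : z / z0 d s ≤ 4
    · rw [div_le_iff₀ hz0] at hin
      have q7 : (Icc (z0 d s) (4 * z0 d s)).indicator (fun _ => (4 * z0 d s) ^ 15) z =
          (4 * z0 d s) ^ 15 :=
        indicator_of_mem (show z ∈ Icc (z0 d s) (4 * z0 d s) from ⟨h1, hin⟩) _
      rw [q7]
      have := fn_in hd hd1 hs hz hin
      linarith only [hex0, this]
    · have hbe : 1 ≤ be N s z := by
        by_contra hc'
        push Not at hc' hin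
        exact hmid ⟨hin, hc'⟩
      have := fn_out hc h26 hN hs hz hbe
      linarith only [hind0, this]

/-! ### integration -/

theorem int_pow_exp : IntegrableOn (fun z : ℝ => (1 + z ^ 36) * Real.exp (-z)) (Ioi 0) := by
  have h1 : IntegrableOn (fun z : ℝ => Real.exp (-z) * z ^ ((37 : ℝ) - 1)) (Ioi 0) :=
    Real.GammaIntegral_convergent (by norm_num)
  have h2 : IntegrableOn (fun z : ℝ => Real.exp (-z) * z ^ ((1 : ℝ) - 1)) (Ioi 0) :=
    Real.GammaIntegral_convergent (by norm_num)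
  refine (h2.add h1).congr_fun ?_ measurableSet_Ioi
  intro z hz
  have hz' : (0 : ℝ) < z := hz
  simp only [Pi.add_apply]
  have e1 : z ^ ((37 : ℝ) - 1) = z ^ 36 := by
    rw [← Real.rpow_natCast]
    norm_num
  have e2 : z ^ ((1 : ℝ) - 1) = 1 := by norm_num
  rw [e1, e2]
  ring

theorem int_exp4 : IntegrableOn (fun z : ℝ => Real.exp (-z / 4)) (Ioi 0) := by
  have h := exp_neg_integrableOn_Ioi 0 (b := 1 / 4) (by norm_num)
  refine h.congr_fun ?_ measurableSet_Ioi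
  intro z _
  simp only
  congr 1
  ring

theorem int_ind {z₀ c : ℝ} (hz : 0 < z₀) :
    IntegrableOn ((Icc z₀ (4 * z₀)).indicator fun _ => c) (Ioi 0) ∧
      ∫ z in Ioi (0 : ℝ), (Icc z₀ (4 * z₀)).indicator (fun _ => c) z = 3 * z₀ * c := by
  constructor
  · apply Integrable.integrableOn
    rw [integrable_indicator_iff measurableSet_Icc]
    exact integrableOn_const (by simp)
  · rw [setIntegral_eq_integral_of_forall_compl_eq_zero]
    · rw [integral_indicator_const _ measurableSet_Icc, Real.volume_real_Icc_of_le (by linarith only [hz]),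
        smul_eq_mul]
      ring
    · intro z hz'
      apply indicator_of_notMem
      intro h
      apply hz'
      exact lt_of_lt_of_le hz h.1

theorem Bd_int {c k ε d N C1 Kc Rs s : ℝ} (hd : 0 < d) :
    IntegrableOn (Bd c k ε d N C1 Kc Rs s) (Ioi 0) ∧
    ∫ z in Ioi (0 : ℝ), Bd c k ε d N C1 Kc Rs s z = 3 * C1 ^ 2 * 4 ^ k *
      ((4 * Am k ε s ^ 4 + (Rs * Real.exp (-s)) ^ 2) *
        (∫ z in Ioi (0 : ℝ), (1 + z ^ 36) * Real.exp (-z)) +
      576 * Kc ^ 2 * (3 * z0 d s * (4 * z0 d s) ^ 15 +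
        c * Real.exp (-(N * Real.exp s / 8)) *
        ∫ z in Ioi (0 : ℝ), Real.exp (-z / 4))) := by
  have hz0 := z0_pos (s := s) hd
  obtain ⟨i1, e1⟩ := int_ind (c := (4 * z0 d s) ^ 15) hz0
  have j1 : IntegrableOn (fun z : ℝ => (4 * Am k ε s ^ 4 + (Rs * Real.exp (-s)) ^ 2) *
      ((1 + z ^ 36) * Real.exp (-z))) (Ioi 0) := int_pow_exp.const_mul _
  have j2 : IntegrableOn (fun z : ℝ => c * Real.exp (-(N * Real.exp s / 8)) * Real.exp (-z / 4)) (Ioi 0) := int_exp4.const_mul _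
  have j3 : IntegrableOn (fun z : ℝ => (Icc (z0 d s) (4 * z0 d s)).indicator
      (fun _ => (4 * z0 d s) ^ 15) z + c * Real.exp (-(N * Real.exp s / 8)) * Real.exp (-z / 4)) (Ioi 0) := i1.add j2
  have j4 := j3.const_mul (576 * Kc ^ 2)
  constructor
  · exact (j1.add j4).const_mul _
  · unfold Bd
    rw [integral_const_mul, integral_add j1 j4, integral_const_mul, integral_const_mul,
      integral_add i1 j2, e1, integral_const_mul]

theorem om_sq {D A R e : ℝ} (hD0 : 0 ≤ D) (hR0 : 0 ≤ R) (he0 : 0 ≤ e) :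
    A ^ 4 + R ^ 2 + D ^ 2 + e ^ 2 ≤ (D + A ^ 2 + R + e) ^ 2 := by
  have h := sq_nonneg A
  have e1 : (D + A ^ 2 + R + e) ^ 2 = A ^ 4 + R ^ 2 + D ^ 2 + e ^ 2 + 2 * (D * A ^ 2) +
    2 * (D * R) + 2 * (D * e) + 2 * (A ^ 2 * R) + 2 * (A ^ 2 * e) + 2 * (R * e) := by ring
  rw [e1]
  have := mul_nonneg hD0 h
  have := mul_nonneg hD0 hR0
  have := mul_nonneg hD0 he0
  have := mul_nonneg h hR0
  have := mul_nonneg h he0
  have := mul_nonneg hR0 he0
  linarith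

theorem fin_alg {I1 I2 c Q A R D e X Y : ℝ} (hI1 : 0 ≤ I1) (hI2 : 0 ≤ I2) (hc : 0 ≤ c)
    (hQ : 0 ≤ Q) (hX : X ≤ D ^ 2) (hY : Y ≤ e ^ 2) :
    (4 * A ^ 4 + R ^ 2) * I1 + Q * (X + c * Y * I2) ≤
      (4 * I1 + Q * (1 + c * I2)) * (A ^ 4 + R ^ 2 + D ^ 2 + e ^ 2) := by
  have h1 : Q * (X + c * Y * I2) ≤ Q * (D ^ 2 + c * e ^ 2 * I2) := by
    apply mul_le_mul_of_nonneg_left _ hQ
    apply add_le_add hX
    exact mul_le_mul_of_nonneg_right (mul_le_mul_of_nonneg_left hY hc) hI2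
  have hcI : 0 ≤ c * I2 := mul_nonneg hc hI2
  have p1 : 0 ≤ I1 * R ^ 2 := by positivity
  have p2 : 0 ≤ I1 * (D ^ 2 + e ^ 2) := by positivity
  have p3 : 0 ≤ Q * (1 + c * I2) * (A ^ 4 + R ^ 2) := by positivity
  have p4 : 0 ≤ Q * (c * I2 * D ^ 2 + e ^ 2) := by positivity
  have e1 : (4 * I1 + Q * (1 + c * I2)) * (A ^ 4 + R ^ 2 + D ^ 2 + e ^ 2) =
      (4 * A ^ 4 + R ^ 2) * I1 + Q * (D ^ 2 + c * e ^ 2 * I2) + 3 * (I1 * R ^ 2) +
      4 * (I1 * (D ^ 2 + e ^ 2)) + Q * (1 + c * I2) * (A ^ 4 + R ^ 2) +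
      Q * (c * I2 * D ^ 2 + e ^ 2) := by ring
  rw [e1]
  linarith only [h1, p1, p2, p3, p4]

end S4

/-- **S4**. -/
theorem s4 : S4Statement := by
  intro k hk C1 hC1
  obtain ⟨K, hK1, hK⟩ := S4.exists_K
  obtain ⟨c, hc0, h26⟩ := S4.exists_c26
  have hI10 : 0 ≤ ∫ z in Ioi (0 : ℝ), (1 + z ^ 36) * Real.exp (-z) := by
    apply setIntegral_nonneg measurableSet_Ioi
    intro z hz
    have : (0 : ℝ) < z := hz
    positivity
  have hI20 : 0 ≤ ∫ z in Ioi (0 : ℝ), Real.exp (-z / 4) := by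
    apply setIntegral_nonneg measurableSet_Ioi
    intro z _
    positivity
  have hM0 : 0 ≤ 3 * C1 ^ 2 * 4 ^ k * (4 * (∫ z in Ioi (0 : ℝ), (1 + z ^ 36) * Real.exp (-z)) +
      576 * (24 * K ^ 2) ^ 2 * (1 + c * ∫ z in Ioi (0 : ℝ), Real.exp (-z / 4))) := by positivity
  refine ⟨√(3 * C1 ^ 2 * 4 ^ k * (4 * (∫ z in Ioi (0 : ℝ), (1 + z ^ 36) * Real.exp (-z)) +
      576 * (24 * K ^ 2) ^ 2 * (1 + c * ∫ z in Ioi (0 : ℝ), Real.exp (-z / 4)))),
    Real.sqrt_nonneg _, ?_⟩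
  intro ε d N Rs s hε hε1 hd hd1 hN hRs hs U U1 U2 Z hcont hP
  have hz0 := S4.z0_pos (s := s) hd
  obtain ⟨b1, b2⟩ := S4.Bd_int (c := c) (k := k) (ε := ε) (N := N) (C1 := C1) (Kc := 24 * K ^ 2)
    (Rs := Rs) (s := s) hd
  have hpt : ∀ z ∈ Ioi (0 : ℝ), FN k ε d N U U1 U2 Z s z ^ 2 * (z ^ (aa k) * Real.exp (-z)) ≤
      S4.Bd c k ε d N C1 (24 * K ^ 2) Rs s z := fun z hz =>
    S4.fn_sq hc0.le h26 hε hC1 hd hd1 hN hs hK1 hK hP hz
  have hint : IntegrableOn (fun z => FN k ε d N U U1 U2 Z s z ^ 2 *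
      (z ^ (aa k) * Real.exp (-z))) (Ioi 0) := by
    refine Integrable.mono' b1 ?_ ?_
    · apply ContinuousOn.aestronglyMeasurable _ measurableSet_Ioi
      apply (hcont.pow 2).mul
      apply ContinuousOn.mul
      · intro z hz
        exact (Real.continuousAt_rpow_const z _ (Or.inl (ne_of_gt hz))).continuousWithinAt
      · fun_prop
    · filter_upwards [ae_restrict_mem measurableSet_Ioi] with z hz
      have hz' : (0 : ℝ) < z := hz
      rw [Real.norm_eq_abs, abs_of_nonneg (by positivity)]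
      exact hpt z hz
  refine ⟨(Lag.integrable_mu _ _).2 hint, ?_⟩
  rw [Lag.integral_mu]
  refine (setIntegral_mono_on hint b1 measurableSet_Ioi hpt).trans ?_
  rw [b2]
  refine le_trans ?_ (le_of_eq (mul_pow _ _ 2).symm)
  rw [Real.sq_sqrt hM0]
  have hR0 : 0 ≤ Rs * Real.exp (-s) := by positivity
  have hD0 : 0 ≤ d ^ 16 * Real.exp (-(8 / 5 : ℝ) * s) := by positivity
  have he0 : 0 ≤ Real.exp (-N / 16) * Real.exp (-s) := by positivity
  have hsum := S4.om_sq (A := Am k ε s) hD0 hR0 he0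
  have hDD : 3 * z0 d s * (4 * z0 d s) ^ 15 ≤ (d ^ 16 * Real.exp (-(8 / 5 : ℝ) * s)) ^ 2 := by
    have e1 : (4 * z0 d s) ^ 16 = (d ^ 16 * Real.exp (-(8 / 5 : ℝ) * s)) ^ 2 := by
      unfold z0
      have : 4 * (d ^ 2 / 4 * Real.exp (-s / 5)) = d ^ 2 * Real.exp (-s / 5) := by ring
      rw [this, mul_pow, mul_pow, ← Real.exp_nat_mul, ← Real.exp_nat_mul, ← pow_mul, ← pow_mul]
      congr 2
      push_cast
      ring
    rw [← e1]
    have e2 : (4 * z0 d s) ^ 16 = 4 * z0 d s * (4 * z0 d s) ^ 15 := by ring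
    rw [e2]
    apply mul_le_mul_of_nonneg_right _ (by positivity)
    linarith only [hz0]
  have hee : Real.exp (-(N * Real.exp s / 8)) ≤ (Real.exp (-N / 16) * Real.exp (-s)) ^ 2 := by
    rw [mul_pow, ← Real.exp_nat_mul, ← Real.exp_nat_mul, ← Real.exp_add, Real.exp_le_exp]
    have h1 := Real.add_one_le_exp s
    push_cast
    nlinarith only [hN, hs, h1]
  have hfin := S4.fin_alg (A := Am k ε s) (R := Rs * Real.exp (-s)) hI10 hI20 hc0.le
    (Q := 576 * (24 * K ^ 2) ^ 2) (by positivity) hDD hee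
  have hom : om k ε d N Rs s = d ^ 16 * Real.exp (-(8 / 5 : ℝ) * s) + Am k ε s ^ 2 +
    Rs * Real.exp (-s) + Real.exp (-N / 16) * Real.exp (-s) := rfl
  rw [← hom] at hsum
  refine (mul_le_mul_of_nonneg_left hfin (by positivity)).trans ?_
  rw [← mul_assoc]
  exact mul_le_mul_of_nonneg_left hsum hM0

end Vale.Agent.P244.ST.SS
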