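import Vale.Agent.P244.ST.S.RGDefs
import Vale.Agent.P244.ST.S.LagDefs

/-!
# P244 / ST / S : interface of the weighted `L²` analysis (block S)

`k = κ` (a root of `κ² - 39 κ + 78 = 0`, `2 < κ < 2.2`), `a = D/2 - 1 = 39/2 - κ`,
`s = -log (1-t)`, `τ = e^{-s}`, `y = r/√τ`, `z = y²/4`, so `r² = 4 z e^{-s}`,
`log r = (log (4z) - s)/2`.  `A(s) = ε e^{-(3-κ/2)s}`.
The normalised function is `H(s,z) = χ (4z)^{κ/2} u / A(s)` (so `H ≈ l₃(z)`), and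
`H_s = z H_zz + (a+1-z) H_z + 3 H + N`.
-/

open Set MeasureTheory
open scoped ContDiff

namespace Vale.Agent.P244.ST.SS

/-- standing assumption on `κ` -/
structure KK (k : ℝ) : Prop where
  eq : k ^ 2 - 39 * k + 78 = 0
  lo : 2.1 < k
  hi : k < 2.12

/-- the Laguerre parameter -/
noncomputable def aa (k : ℝ) : ℝ := 39 / 2 - k

/-- smooth step: `0` for `x ≤ 1`, `1` for `4 ≤ x` -/
noncomputable def xi (x : ℝ) : ℝ := Real.smoothTransition (Real.sqrt x - 1)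

noncomputable def xi1 (x : ℝ) : ℝ := deriv xi x
noncomputable def xi2 (x : ℝ) : ℝ := deriv xi1 x

/-- inner cut-off radius: `z0(s) = y0(s)²/4`, `y0 = d₀ e^{-s/10}` -/
noncomputable def z0 (d s : ℝ) : ℝ := d ^ 2 / 4 * Real.exp (-s / 5)

/-- argument of the outer cut-off `r²/N` -/
noncomputable def be (N s z : ℝ) : ℝ := 4 * z * Real.exp (-s) / N

/-- the cut-off `χ(s,z)` -/
noncomputable def ch (d N s z : ℝ) : ℝ := xi (z / z0 d s) * (1 - xi (be N s z))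

/-- `2 z ∂_z χ` -/
noncomputable def ch1 (d N s z : ℝ) : ℝ :=
  2 * (z / z0 d s) * xi1 (z / z0 d s) * (1 - xi (be N s z))
    - xi (z / z0 d s) * (2 * be N s z * xi1 (be N s z))

/-- `(2 z ∂_z)² χ` -/
noncomputable def ch2 (d N s z : ℝ) : ℝ :=
  (4 * (z / z0 d s) ^ 2 * xi2 (z / z0 d s) + 4 * (z / z0 d s) * xi1 (z / z0 d s)) *
      (1 - xi (be N s z))
    - 2 * (2 * (z / z0 d s) * xi1 (z / z0 d s)) * (2 * be N s z * xi1 (be N s z))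
    - xi (z / z0 d s) * (4 * be N s z ^ 2 * xi2 (be N s z) + 4 * be N s z * xi1 (be N s z))

/-- `∂_s χ` -/
noncomputable def chs (d N s z : ℝ) : ℝ :=
  (z / z0 d s) * xi1 (z / z0 d s) / 5 * (1 - xi (be N s z))
    + xi (z / z0 d s) * (be N s z * xi1 (be N s z))

/-- amplitude -/
noncomputable def Am (k ε s : ℝ) : ℝ := ε * Real.exp (-(3 - k / 2) * s)

/-- `t = 1 - e^{-s}` -/
noncomputable def tt (s : ℝ) : ℝ := 1 - Real.exp (-s)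

/-- `log r` -/
noncomputable def lr (s z : ℝ) : ℝ := (Real.log (4 * z) - s) / 2

/-- `(4z)^{κ/2}` -/
noncomputable def wk (k z : ℝ) : ℝ := (4 * z) ^ (k / 2)

/-- the normalised cut-off function `H` -/
noncomputable def HH (k ε d N : ℝ) (U : ℝ → ℝ → ℝ) (s z : ℝ) : ℝ :=
  ch d N s z * wk k z * U (tt s) (lr s z) / Am k ε s

/-- `2 z ∂_z` of `χ (4z)^{κ/2} u / A` -/
noncomputable def HD (k ε d N : ℝ) (U U1 : ℝ → ℝ → ℝ) (s z : ℝ) : ℝ :=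
  wk k z / Am k ε s * (ch1 d N s z * U (tt s) (lr s z)
    + ch d N s z * (k * U (tt s) (lr s z) + U1 (tt s) (lr s z)))

/-- `(2 z ∂_z)²` of `χ (4z)^{κ/2} u / A` -/
noncomputable def HDD (k ε d N : ℝ) (U U1 U2 : ℝ → ℝ → ℝ) (s z : ℝ) : ℝ :=
  wk k z / Am k ε s * (ch2 d N s z * U (tt s) (lr s z)
    + 2 * ch1 d N s z * (k * U (tt s) (lr s z) + U1 (tt s) (lr s z))
    + ch d N s z * (k ^ 2 * U (tt s) (lr s z) + 2 * k * U1 (tt s) (lr s z) + U2 (tt s) (lr s z)))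

/-- `∂_z H` -/
noncomputable def H1 (k ε d N : ℝ) (U U1 : ℝ → ℝ → ℝ) (s z : ℝ) : ℝ :=
  HD k ε d N U U1 s z / (2 * z)

/-- `∂_z² H` -/
noncomputable def H2 (k ε d N : ℝ) (U U1 U2 : ℝ → ℝ → ℝ) (s z : ℝ) : ℝ :=
  (HDD k ε d N U U1 U2 s z - 2 * HD k ε d N U U1 s z) / (4 * z ^ 2)

/-- the nonlinearity `(Z-1) D²u + (m-1)(cosh u - 1) D u + 2(m-1)(sinh u - u)` -/
noncomputable def nl (U U1 U2 Z : ℝ) : ℝ :=
  (Z - 1) * U2 + 39 * (Real.cosh U - 1) * U1 + 78 * (Real.sinh U - U)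

/-- the forcing `N(s,z)` -/
noncomputable def FN (k ε d N : ℝ) (U U1 U2 Z : ℝ → ℝ → ℝ) (s z : ℝ) : ℝ :=
  wk k z / Am k ε s *
    (ch d N s z / (4 * z) *
        nl (U (tt s) (lr s z)) (U1 (tt s) (lr s z)) (U2 (tt s) (lr s z)) (Z (tt s) (lr s z))
      - 1 / (4 * z) * (2 * ch1 d N s z * U1 (tt s) (lr s z)
          + (ch2 d N s z + 39 * ch1 d N s z) * U (tt s) (lr s z))
      + (ch1 d N s z / 2 + chs d N s z) * U (tt s) (lr s z))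

/-- A smooth family `H(s,z)`, `s ∈ [0,s₁]`, with compact support in `z > 0`, solving
`H_s = z H'' + (a+1-z) H' + c H + F`. -/
structure Fam (a c s₁ : ℝ) (H H1 H2 F : ℝ → ℝ → ℝ) : Prop where
  d1 : ∀ s ∈ Icc 0 s₁, ∀ z > 0, HasDerivAt (H s) (H1 s z) z
  d2 : ∀ s ∈ Icc 0 s₁, ∀ z > 0, HasDerivAt (H1 s) (H2 s z) z
  dt : ∀ s ∈ Ioo 0 s₁, ∀ z > 0, HasDerivAt (fun s => H s z)
    (z * H2 s z + (a + 1 - z) * H1 s z + c * H s z + F s z) s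
  cH : ContinuousOn (fun q : ℝ × ℝ => H q.1 q.2) (Icc 0 s₁ ×ˢ Ioi 0)
  cH1 : ContinuousOn (fun q : ℝ × ℝ => H1 q.1 q.2) (Icc 0 s₁ ×ˢ Ioi 0)
  cH2 : ContinuousOn (fun q : ℝ × ℝ => H2 q.1 q.2) (Icc 0 s₁ ×ˢ Ioi 0)
  cF : ContinuousOn (fun q : ℝ × ℝ => F q.1 q.2) (Icc 0 s₁ ×ˢ Ioi 0)
  supp : ∃ z₁ > 0, ∃ z₂ : ℝ, z₁ < z₂ ∧ ∀ s ∈ Icc 0 s₁, ∀ z > 0, z ∉ Icc z₁ z₂ →
    H s z = 0 ∧ H1 s z = 0 ∧ H2 s z = 0 ∧ F s z = 0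

/-- **S3** (equation of `H`).  `RSol` for `p = 20`, region `r ≤ 2√N < r_e(t)`. -/
def S3Statement : Prop :=
  ∀ k ε d N : ℝ, KK k → 0 < ε → 0 < d → 1 ≤ N →
  ∀ T > 0, ∀ w f X U U1 U2 Z R : ℝ → ℝ → ℝ, RG.RSol 20 w f T X U U1 U2 Z R →
  ∀ s₁ > 0, tt s₁ < T →
  (∀ t ∈ Icc 0 (tt s₁), Real.log (4 * N) / 2 < RG.rh 20 (w t) (f t) 0) →
  Fam (aa k) 3 s₁ (HH k ε d N U) (H1 k ε d N U U1) (H2 k ε d N U U1 U2)
    (FN k ε d N U U1 U2 Z)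

/-- the envelope `z^{-1.1} + z³` -/
noncomputable def en (z : ℝ) : ℝ := z ^ (-(11 / 10 : ℝ)) + z ^ 3

/-- the size of the forcing -/
noncomputable def om (k ε d N Rs s : ℝ) : ℝ :=
  d ^ 16 * Real.exp (-(8 / 5 : ℝ) * s) + Am k ε s ^ 2 + Rs * Real.exp (-s)
    + Real.exp (-N / 16) * Real.exp (-s)

/-- pointwise input at the time `s` (from BOOT): bounds of `u, Du, nl` for
`z0(s) ≤ z`, `r² ≤ 4N`. -/
def PtIn (k ε d N C1 Rs : ℝ) (U U1 U2 Z : ℝ → ℝ → ℝ) (s : ℝ) : Prop :=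
  ∀ z, z0 d s ≤ z → be N s z ≤ 4 →
    |U (tt s) (lr s z)| ≤ C1 * Am k ε s * en z ∧
    |U1 (tt s) (lr s z)| ≤ C1 * Am k ε s * en z ∧
    |nl (U (tt s) (lr s z)) (U1 (tt s) (lr s z)) (U2 (tt s) (lr s z)) (Z (tt s) (lr s z))| ≤
      C1 * Am k ε s * en z * (Am k ε s ^ 2 * en z ^ 2 + z * Real.exp (-s) * Rs)

/-- **S4** (size of the forcing). -/
def S4Statement : Prop :=
  ∀ k : ℝ, KK k → ∀ C1 : ℝ, 0 ≤ C1 → ∃ C2 : ℝ, 0 ≤ C2 ∧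
    ∀ ε d N Rs s : ℝ, 0 < ε → ε ≤ 1 → 0 < d → d ≤ 1 → 16 ≤ N → 0 ≤ Rs → 0 ≤ s →
    ∀ U U1 U2 Z : ℝ → ℝ → ℝ,
      ContinuousOn (FN k ε d N U U1 U2 Z s) (Ioi 0) → PtIn k ε d N C1 Rs U U1 U2 Z s →
      Integrable (fun z => FN k ε d N U U1 U2 Z s z ^ 2) (Lag.mu (aa k)) ∧
      ∫ z, FN k ε d N U U1 U2 Z s z ^ 2 ∂(Lag.mu (aa k)) ≤ (C2 * om k ε d N Rs s) ^ 2

/-- norm of `ell i` -/
noncomputable def nu (k : ℝ) (i : ℕ) : ℝ := Real.sqrt (Lag.nrm (aa k) i)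

/-- normalised mode: `γ_i = ⟨H, e_i⟩ / |l_i|` -/
noncomputable def gam (k : ℝ) (i : ℕ) (h : ℝ → ℝ) : ℝ :=
  (∫ z, h z * (Lag.en (aa k) i).eval z ∂(Lag.mu (aa k))) / nu k i

/-- squared distance from the span of the first four Laguerre polynomials -/
noncomputable def Ex (k : ℝ) (h : ℝ → ℝ) : ℝ :=
  ∫ z, h z ^ 2 ∂(Lag.mu (aa k)) - ∑ i ∈ Finset.range 4,
    (∫ z, h z * (Lag.en (aa k) i).eval z ∂(Lag.mu (aa k))) ^ 2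

/-- **S5a** (evolution of the modes). -/
def S5aStatement : Prop :=
  ∀ k : ℝ, KK k → ∀ s₁ > 0, ∀ H H1 H2 F : ℝ → ℝ → ℝ, Fam (aa k) 3 s₁ H H1 H2 F →
  ∀ i : ℕ, ContinuousOn (fun s => gam k i (H s)) (Icc 0 s₁) ∧
    ContinuousOn (fun s => gam k i (F s)) (Icc 0 s₁) ∧
    (∀ s ∈ Ioo 0 s₁, HasDerivAt (fun s => gam k i (H s))
      ((3 - i) * gam k i (H s) + gam k i (F s)) s) ∧
    (∀ s ∈ Icc 0 s₁, Integrable (fun z => F s z ^ 2) (Lag.mu (aa k)) ∧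
      |gam k i (F s)| ≤ Real.sqrt (∫ z, F s z ^ 2 ∂(Lag.mu (aa k))) / nu k i)

/-- **S5b** (evolution of the distance). -/
def S5bStatement : Prop :=
  ∀ k : ℝ, KK k → ∀ s₁ > 0, ∀ H H1 H2 F : ℝ → ℝ → ℝ, Fam (aa k) 3 s₁ H H1 H2 F →
  ContinuousOn (fun s => Ex k (H s)) (Icc 0 s₁) ∧ (∀ s ∈ Icc 0 s₁, 0 ≤ Ex k (H s)) ∧
  ∀ o : ℝ → ℝ, ContinuousOn o (Icc 0 s₁) → (∀ s ∈ Icc 0 s₁, 0 ≤ o s) →
  (∀ s ∈ Icc 0 s₁, ∫ z, F s z ^ 2 ∂(Lag.mu (aa k)) ≤ o s ^ 2) →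
  (∀ s ∈ Icc 0 s₁, |gam k 3 (H s) - gam k 3 (H 0)| ≤ (∫ x in (0 : ℝ)..s, o x) / nu k 3) ∧
  (∀ s ∈ Icc 0 s₁, Real.sqrt (Ex k (H s)) ≤ Real.sqrt (Ex k (H 0)) + ∫ x in (0 : ℝ)..s, o x)

/-- **S7'** (closeness on compact sets): `h` with modes near those of `l₃`. -/
def S7Statement : Prop :=
  ∀ k : ℝ, KK k → ∀ z₁ > 0, ∀ z₂ > z₁, ∀ M δ : ℝ, 0 ≤ M → 0 < δ → ∃ sg₀ > 0,
    ∀ sg : ℝ, 0 < sg → sg ≤ sg₀ →
    ∀ h h1 h2 : ℝ → ℝ, (∀ z > 0, HasDerivAt h (h1 z) z) → (∀ z > 0, HasDerivAt h1 (h2 z) z) →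
    (∃ c₁ > 0, ∃ c₂ : ℝ, ∀ z > 0, z ∉ Icc c₁ c₂ → h z = 0) →
    (∀ z ∈ Icc z₁ z₂, |h2 z| ≤ M) →
    (∀ i < 3, |gam k i h| ≤ sg) → |gam k 3 h - 1| ≤ sg → Ex k h ≤ sg ^ 2 →
    ∀ z ∈ Icc z₁ z₂, |h z - (Lag.ell (aa k) 3).eval z| ≤ δ ∧
      |h1 z - (Polynomial.derivative (Lag.ell (aa k) 3)).eval z| ≤ δ

/-- **S8'** (initial modes): the function `χ(0,z) (l₃ + sg ∑_{i<3} b_i l_i)`. -/
def S8iStatement : Prop :=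
  ∀ k : ℝ, KK k → ∃ C : ℝ, 0 ≤ C ∧ ∀ d N sg : ℝ, 0 < d → d ≤ 1 → 16 ≤ N → 0 ≤ sg → sg ≤ 1 →
    ∀ b : Fin 3 → ℝ, ‖b‖ ≤ 2 → ∀ h : ℝ → ℝ,
    (∀ z > 0, h z = ch d N 0 z * ((Lag.ell (aa k) 3).eval z
      + sg * ∑ i : Fin 3, b i * (Lag.ell (aa k) i).eval z)) →
    (∀ i : Fin 3, |gam k i h - sg * b i| ≤ C * (d ^ 17 + Real.exp (-N / 16))) ∧
    |gam k 3 h - 1| ≤ C * (d ^ 17 + Real.exp (-N / 16)) ∧
    Ex k h ≤ (C * (d ^ 17 + Real.exp (-N / 16))) ^ 2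

/-- **S10** (continuity of the inverse function in parameters). -/
def S10Statement : Prop :=
  ∀ (P : Type) [TopologicalSpace P] (S : Set P) (w f X : P → ℝ → ℝ),
  ContinuousOn (fun q : P × ℝ => w q.1 q.2) (S ×ˢ Icc (-1) 1) →
  ContinuousOn (fun q : P × ℝ => f q.1 q.2) (S ×ˢ Icc (-1) 1) →
  (∀ p ∈ S, StrictAntiOn (RG.rh 20 (w p) (f p)) (Ico 0 1)) →
  (∀ p ∈ S, ∀ ρ < RG.rh 20 (w p) (f p) 0, X p ρ ∈ Ioo (0 : ℝ) 1 ∧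
    RG.rh 20 (w p) (f p) (X p ρ) = ρ) →
  ContinuousOn (fun q : P × ℝ => X q.1 q.2) {q | q.1 ∈ S ∧ q.2 < RG.rh 20 (w q.1) (f q.1) 0}

/-- **S11** (continuity of the modes in parameters). -/
def S11Statement : Prop :=
  ∀ k : ℝ, KK k → ∀ (P : Type) [TopologicalSpace P] [FirstCountableTopology P] (S : Set P)
  (h : P → ℝ → ℝ) (z₁ z₂ : ℝ), 0 < z₁ → z₁ < z₂ →
  ContinuousOn (fun q : P × ℝ => h q.1 q.2) (S ×ˢ Ioi 0) →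
  (∀ p ∈ S, ∀ z > 0, z ∉ Icc z₁ z₂ → h p z = 0) →
  (∀ i : ℕ, ContinuousOn (fun p => gam k i (h p)) S) ∧ ContinuousOn (fun p => Ex k (h p)) S

end Vale.Agent.P244.ST.SS
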