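import Vale.Agent.P244.ST.S.LagEvo
import Vale.Agent.P244.ST.S.SDefs

/-! P244, block S, S5 (helper558): evolution of the modes and of the distance. -/

open Set MeasureTheory
open scoped Topology

namespace Vale.Agent.P244.ST.SS

theorem Fam.toEvo {a c s₁ : ℝ} (ha : -1 < a) (hs : 0 < s₁) {H H1 H2 F : ℝ → ℝ → ℝ}
    (h : Fam a c s₁ H H1 H2 F) : ∃ z₁ z₂ : ℝ, Lag.Evo a c 0 s₁ z₁ z₂ H
      (fun s z => z * H2 s z + (a + 1 - z) * H1 s z + c * H s z + F s z) H1 H2 F := by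
  obtain ⟨z₁, hz₁, z₂, h12, h0⟩ := h.supp
  refine ⟨z₁, z₂, ?_⟩
  have cz : ContinuousOn (fun q : ℝ × ℝ => q.2) (Icc 0 s₁ ×ˢ Ioi 0) := by fun_prop
  have cz' : ContinuousOn (fun q : ℝ × ℝ => a + 1 - q.2) (Icc 0 s₁ ×ˢ Ioi 0) := by fun_prop
  exact
    { ha := ha
      hs := hs
      hz1 := hz₁
      hz := h12.le
      cf := h.cH
      cfs := (((cz.mul h.cH2).add (cz'.mul h.cH1)).add (continuousOn_const.mul h.cH)).add h.cF
      cfz := h.cH1
      cfzz := h.cH2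
      cg := h.cF
      ds := h.dt
      dz := fun s hs z hz => h.d1 s (Ioo_subset_Icc_self hs) z hz
      dzz := fun s hs z hz => h.d2 s (Ioo_subset_Icc_self hs) z hz
      supp := fun s hs z hz hzI => (h0 s hs z hz hzI).1
      eq := fun s _ z _ => rfl }

theorem KK.neg_one_lt {k : ℝ} (h : KK k) : -1 < aa k := by
  have := h.hi
  unfold aa
  linarith only [this]

theorem nu_pos {k : ℝ} (h : KK k) (i : ℕ) : 0 < nu k i :=
  Real.sqrt_pos.2 (Lag.nrm_pos h.neg_one_lt i)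

theorem Ex_eq_rem (k : ℝ) (h : ℝ → ℝ) : Ex k h = Lag.rem (aa k) 4 h := rfl

theorem intervalIntegrable_of_contOn {s₁ s : ℝ} {o : ℝ → ℝ} (ho : ContinuousOn o (Icc 0 s₁))
    (hs : s ∈ Icc 0 s₁) : IntervalIntegrable o volume 0 s := by
  apply ContinuousOn.intervalIntegrable
  rw [uIcc_of_le hs.1]
  exact ho.mono (Icc_subset_Icc_right hs.2)

theorem s5a : S5aStatement := by
  intro k hk s₁ hs₁ H H1 H2 F hF i
  have ha := hk.neg_one_lt
  obtain ⟨z₁, z₂, E⟩ := hF.toEvo ha hs₁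
  have hn := nu_pos hk i
  refine ⟨(E.cont_coef i).div_const _, (E.cont_gcoef i).div_const _, fun s hs => ?_,
    fun s hs => ⟨(E.memLp_g hs).integrable_sq, ?_⟩⟩
  · have h1 := (E.hasDerivAt_coef hs i).div_const (nu k i)
    refine h1.congr_deriv ?_
    unfold gam
    ring
  · unfold gam
    rw [abs_div, abs_of_pos hn]
    exact div_le_div_of_nonneg_right (E.abs_gcoef_le i hs) hn.le

theorem s5b : S5bStatement := by
  intro k hk s₁ hs₁ H H1 H2 F hF
  have ha := hk.neg_one_lt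
  obtain ⟨z₁, z₂, E⟩ := hF.toEvo ha hs₁
  refine ⟨E.cont_rem 4, fun s hs => Lag.rem_nonneg ha 4 (E.memLp_f hs), fun o ho ho0 hFo => ?_⟩
  have hle : ∀ s ∈ Icc 0 s₁, √(∫ z, F s z ^ 2 ∂(Lag.mu (aa k))) ≤ o s := by
    intro s hs
    rw [Real.sqrt_le_left (ho0 s hs)]
    exact hFo s hs
  have hg : ∀ i : ℕ, ∀ s ∈ Icc 0 s₁,
      |∫ z, F s z * (Lag.en (aa k) i).eval z ∂(Lag.mu (aa k))| ≤ o s := fun i s hs =>
    (E.abs_gcoef_le i hs).trans (hle s hs)
  refine ⟨fun s hs => ?_, fun s hs => ?_⟩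
  · have hn := nu_pos hk 3
    have h1 := E.coef_eq 3 hs
    have e0 : ((3 : ℝ) - ((3 : ℕ) : ℝ)) = 0 := by norm_num
    rw [e0] at h1
    simp only [zero_mul, Real.exp_zero, one_mul] at h1
    have h2 : |∫ σ in (0 : ℝ)..s, ∫ z, F σ z * (Lag.en (aa k) 3).eval z ∂(Lag.mu (aa k))|
        ≤ ∫ σ in (0 : ℝ)..s, o σ := by
      refine (intervalIntegral.abs_integral_le_integral_abs hs.1).trans ?_
      refine intervalIntegral.integral_mono_on hs.1 ?_ (intervalIntegrable_of_contOn ho hs) ?_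
      · exact intervalIntegrable_of_contOn (E.cont_gcoef 3).abs hs
      · intro σ hσ
        exact hg 3 σ ⟨hσ.1, hσ.2.trans hs.2⟩
    have e : gam k 3 (H s) - gam k 3 (H 0)
        = (∫ σ in (0 : ℝ)..s, ∫ z, F σ z * (Lag.en (aa k) 3).eval z ∂(Lag.mu (aa k))) / nu k 3 := by
      unfold gam
      rw [h1]
      ring
    rw [e, abs_div, abs_of_pos hn]
    exact div_le_div_of_nonneg_right h2 hn.le
  · have h1 := E.sqrt_rem_le 4 hs
    have h2 : Real.exp ((3 - ((4 : ℕ) : ℝ)) * (s - 0)) ≤ 1 := by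
      rw [Real.exp_le_one_iff]
      have := hs.1
      push_cast
      linarith
    have h3 : ∫ σ in (0 : ℝ)..s, Real.exp ((3 - ((4 : ℕ) : ℝ)) * (s - σ))
        * √(∫ z, F σ z ^ 2 ∂(Lag.mu (aa k))) ≤ ∫ σ in (0 : ℝ)..s, o σ := by
      refine intervalIntegral.integral_mono_on hs.1 ?_ (intervalIntegrable_of_contOn ho hs) ?_
      · refine intervalIntegrable_of_contOn (s₁ := s₁) (ContinuousOn.mul ?_ E.cont_gsq.sqrt) hs
        fun_prop
      · intro σ hσ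
        have h4 : Real.exp ((3 - ((4 : ℕ) : ℝ)) * (s - σ)) ≤ 1 := by
          rw [Real.exp_le_one_iff]
          have := hσ.2
          push_cast
          linarith
        calc Real.exp ((3 - ((4 : ℕ) : ℝ)) * (s - σ)) * √(∫ z, F σ z ^ 2 ∂(Lag.mu (aa k)))
            ≤ 1 * √(∫ z, F σ z ^ 2 ∂(Lag.mu (aa k))) :=
              mul_le_mul_of_nonneg_right h4 (Real.sqrt_nonneg _)
          _ = √(∫ z, F σ z ^ 2 ∂(Lag.mu (aa k))) := one_mul _
          _ ≤ o σ := hle σ ⟨hσ.1, hσ.2.trans hs.2⟩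
    rw [Ex_eq_rem, Ex_eq_rem]
    refine h1.trans (add_le_add ?_ h3)
    calc _ ≤ 1 * √(Lag.rem (aa k) 4 (H 0)) :=
          mul_le_mul_of_nonneg_right h2 (Real.sqrt_nonneg _)
      _ = _ := one_mul _

end Vale.Agent.P244.ST.SS
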