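import Vale.Agent.P244.ST.S.CV
import Vale.Agent.P244.ST.S.S3
import Vale.Agent.P244.ST.S.S4
import Vale.Agent.P244.ST.S.S5
import Vale.Agent.P244.ST.S.RGauge
import Vale.Agent.P244.ST.S.EvS

/-! P244, block S, final assembly of `S6Statement` (helper861). -/

open Set MeasureTheory Filter
open scoped Topology ContDiff

namespace Vale.Agent.P244.ST.SS.S6

theorem KK_kap : KK kap := by
  have h1 : Real.sqrt 1209 ^ 2 = 1209 := Real.sq_sqrt (by norm_num)
  have h2 : (34.77 : ℝ) < Real.sqrt 1209 := by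
    rw [Real.lt_sqrt (by norm_num)]
    norm_num
  have h3 : Real.sqrt 1209 < (34.78 : ℝ) := by
    rw [Real.sqrt_lt' (by norm_num)]
    norm_num
  refine ⟨?_, ?_, ?_⟩
  · unfold kap
    nlinarith only [h1]
  · unfold kap
    linarith only [h2, h3]
  · unfold kap
    linarith only [h2, h3]

section

variable {w f : Fn} {T t : ℝ}

theorem rhx_neg (h : ConfSol 20 w f T) (hq : Qual w f T) (ht : t ∈ Ico 0 T) {x : ℝ}
    (hx : x ∈ Ioo (0 : ℝ) 1) : RG.rhx (w t) (f t) x < 0 := by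
  have h1 := CV.rho_deriv_neg hq ht hx
  have hw := CV.slice_diff h.smooth_w ht hx
  have hf := CV.slice_diff h.smooth_f ht hx
  have hI : Icc (-1 : ℝ) 1 ∈ 𝓝 x := Icc_mem_nhds (by linarith only [hx, hx.1]) hx.2
  have ew : dx (w t) x = deriv (w t) x := derivWithin_of_mem_nhds hI
  have ef : dx (f t) x = deriv (f t) x := derivWithin_of_mem_nhds hI
  have hx1 : (1 : ℝ) - x ^ 2 ≠ 0 := by
    have := hx.1
    have := hx.2
    nlinarith
  have h3 : HasDerivAt (fun x : ℝ => Real.log (1 - x ^ 2)) (-(2 * x) / (1 - x ^ 2)) x := by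
    have h4 : HasDerivAt (fun x : ℝ => 1 - x ^ 2) (-(2 * x)) x := by
      have := (hasDerivAt_pow 2 x).const_sub 1
      simpa using this
    exact h4.log hx1
  have h5 : HasDerivAt (rho w f t)
      ((deriv (f t) x + deriv (w t) x + -(2 * x) / (1 - x ^ 2) / 2) / 2) x := by
    unfold rho
    exact ((((hf.hasDerivAt.add hw.hasDerivAt).add (h3.div_const 2)).sub_const _).div_const 2)
  rw [h5.deriv] at h1
  unfold RG.rhx
  rw [ew, ef]
  have e : (deriv (f t) x + deriv (w t) x - x / (1 - x ^ 2)) / 2 =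
      (deriv (f t) x + deriv (w t) x + -(2 * x) / (1 - x ^ 2) / 2) / 2 := by
    field_simp
    ring
  rw [e]
  exact h1

theorem exists_rsol (hT : 0 < T) (h : ConfSol 20 w f T) (hq : Qual w f T) :
    ∃ X U U1 U2 Z R : ℝ → ℝ → ℝ, RG.RSol 20 w f T X U U1 U2 Z R :=
  RG.s8 20 (by norm_num) T hT w f h fun _ ht _ hx => rhx_neg h hq ht hx

theorem cont_rr0 (h : ConfSol 20 w f T) : ContinuousOn (fun t => rr w f t 0) (Ico 0 T) := by
  have hw : ContinuousOn (fun t => w t 0) (Ico 0 T) :=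
    h.smooth_w.continuousOn.comp (f := fun t : ℝ => ((t, 0) : ℝ × ℝ)) (by fun_prop)
      fun t ht => ⟨ht, by norm_num⟩
  have hf : ContinuousOn (fun t => f t 0) (Ico 0 T) :=
    h.smooth_f.continuousOn.comp (f := fun t : ℝ => ((t, 0) : ℝ × ℝ)) (by fun_prop)
      fun t ht => ⟨ht, by norm_num⟩
  unfold rr rho
  exact ((((hf.add hw).add continuousOn_const).sub continuousOn_const).div_const 2).rexp

theorem rh_gt {N : ℝ} (hN : 0 < N) (h0 : 2 * Real.sqrt N < rr w f t 0) :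
    Real.log (4 * N) / 2 < RG.rh 20 (w t) (f t) 0 := by
  rw [CV.rh_eq]
  have h1 : Real.log (2 * Real.sqrt N) < Real.log (rr w f t 0) :=
    Real.log_lt_log (by positivity) h0
  have h2 : Real.log (2 * Real.sqrt N) = Real.log (4 * N) / 2 := by
    rw [show (4 * N : ℝ) = (2 * Real.sqrt N) ^ 2 by rw [mul_pow, Real.sq_sqrt hN.le]; norm_num,
      Real.log_pow]
    push_cast
    ring
  have h3 : Real.log (rr w f t 0) = rho w f t 0 := Real.log_exp _
  rw [h3, h2] at h1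
  exact h1

end

/-! ### the time `s = -log (1-t)` -/

theorem st_mono {t t' : ℝ} (h : t ≤ t') (h1 : t' < 1) : st t ≤ st t' := by
  unfold st
  have := Real.log_le_log (by linarith only [h1] : (0 : ℝ) < 1 - t') (by linarith only [h] : 1 - t' ≤ 1 - t)
  linarith only [this]

theorem st_strict {t t' : ℝ} (h : t < t') (h1 : t' < 1) : st t < st t' := by
  unfold st
  have := Real.log_lt_log (by linarith only [h1] : (0 : ℝ) < 1 - t') (by linarith only [h] : 1 - t' < 1 - t)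
  linarith only [this]

theorem st_zero : st 0 = 0 := by
  unfold st
  simp

theorem st_nonneg {t : ℝ} (h0 : 0 ≤ t) (h1 : t < 1) : 0 ≤ st t := by
  rw [← st_zero]
  exact st_mono h0 h1

theorem tt_st' {t : ℝ} (h1 : t < 1) : tt (st t) = t := CV.tt_st (by unfold tau; linarith only [h1])

theorem st_tt (s : ℝ) : st (tt s) = s := by
  unfold st tt
  rw [sub_sub_cancel, Real.log_exp, neg_neg]

theorem tt_lt_one (s : ℝ) : tt s < 1 := by
  unfold tt
  linarith only [Real.exp_pos (-s)]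

/-! ### the constants -/

theorem om_le {q : Par} (hd0 : 0 < q.d0) (hd1 : q.d0 ≤ 1) (he0 : 0 < q.eps) (he1 : q.eps ≤ 1)
    {s : ℝ} (hs : 0 ≤ s) :
    om kap q.eps q.d0 q.N (3 * q.eta) s ≤
      (q.d0 + q.eps + 3 * q.eta + Real.exp (-q.N / 16)) * Real.exp (-s) := by
  have hk := KK_kap
  unfold om
  have h1 : q.d0 ^ 16 * Real.exp (-(8 / 5 : ℝ) * s) ≤ q.d0 * Real.exp (-s) := by
    apply mul_le_mul _ _ (Real.exp_pos _).le hd0.le
    · calc q.d0 ^ 16 = q.d0 * q.d0 ^ 15 := by ring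
        _ ≤ q.d0 * 1 := by
            apply mul_le_mul_of_nonneg_left (pow_le_one₀ hd0.le hd1) hd0.le
        _ = q.d0 := mul_one _
    · apply Real.exp_le_exp.mpr
      nlinarith only [hs]
  have h2 : Am kap q.eps s ^ 2 ≤ q.eps * Real.exp (-s) := by
    unfold Am
    rw [mul_pow, ← Real.exp_nat_mul]
    apply mul_le_mul _ _ (Real.exp_pos _).le he0.le
    · nlinarith only [he0, he1]
    · apply Real.exp_le_exp.mpr
      have := hk.hi
      push_cast
      nlinarith only [hs, this]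
  nlinarith only [h1, h2, h1, h2]

theorem om_nonneg {q : Par} (hη : 0 ≤ q.eta) (s : ℝ) :
    0 ≤ om kap q.eps q.d0 q.N (3 * q.eta) s := by
  unfold om
  have h1 : 0 ≤ q.d0 ^ 16 := by
    have : q.d0 ^ 16 = (q.d0 ^ 8) ^ 2 := by ring
    rw [this]
    exact sq_nonneg _
  have := Real.exp_pos (-(8 / 5 : ℝ) * s)
  have := Real.exp_pos (-s)
  have := Real.exp_pos (-q.N / 16)
  positivity

theorem int_o (C s : ℝ) : ∫ x in (0 : ℝ)..s, C * Real.exp (-x) = C * (1 - Real.exp (-s)) := by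
  rw [intervalIntegral.integral_const_mul, intervalIntegral.integral_comp_neg, integral_exp,
    neg_zero, Real.exp_zero]

/-- the size of the forcing on `[0, st t₁]` -/
theorem forcing {q : Par} (hd0 : 0 < q.d0) (hd1 : q.d0 ≤ 1) (he0 : 0 < q.eps) (he1 : q.eps ≤ 1)
    (hN : 16 ≤ q.N) {C1 C2 : ℝ} (hC2 : 0 ≤ C2)
    (hS4 : ∀ ε d N Rs s : ℝ, 0 < ε → ε ≤ 1 → 0 < d → d ≤ 1 → 16 ≤ N → 0 ≤ Rs → 0 ≤ s →
      ∀ U U1 U2 Z : ℝ → ℝ → ℝ,
        ContinuousOn (FN kap ε d N U U1 U2 Z s) (Ioi 0) → PtIn kap ε d N C1 Rs U U1 U2 Z s →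
        Integrable (fun z => FN kap ε d N U U1 U2 Z s z ^ 2) (Lag.mu (aa kap)) ∧
        ∫ z, FN kap ε d N U U1 U2 Z s z ^ 2 ∂(Lag.mu (aa kap)) ≤ (C2 * om kap ε d N Rs s) ^ 2)
    {U U1 U2 Z : ℝ → ℝ → ℝ} {s : ℝ} (hs : 0 ≤ s)
    (hc : ContinuousOn (FN kap q.eps q.d0 q.N U U1 U2 Z s) (Ioi 0))
    (hP : PtIn kap q.eps q.d0 q.N C1 (3 * q.eta) U U1 U2 Z s) :
    ∫ z, FN kap q.eps q.d0 q.N U U1 U2 Z s z ^ 2 ∂(Lag.mu (aa kap)) ≤
      (C2 * (q.d0 + q.eps + 3 * q.eta + Real.exp (-q.N / 16)) * Real.exp (-s)) ^ 2 := by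
  have hη : 0 ≤ q.eta := by
    unfold Par.eta
    positivity
  refine (hS4 q.eps q.d0 q.N (3 * q.eta) s he0 he1 hd0 hd1 hN (by linarith only [hη]) hs U U1 U2 Z hc
    hP).2.trans ?_
  have h1 := om_nonneg hη s
  have h2 := om_le hd0 hd1 he0 he1 hs (q := q)
  apply pow_le_pow_left₀ (mul_nonneg hC2 h1)
  rw [mul_assoc]
  exact mul_le_mul_of_nonneg_left h2 hC2

/-- the per-solution statement -/
theorem core {q : Par} (hsg : 0 < q.sg) (hd0 : 0 < q.d0) (hd1 : q.d0 ≤ 1) (he0 : 0 < q.eps)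
    (he1 : q.eps ≤ 1) (hN : 100 ≤ q.N) {C1 C2 : ℝ} (hC2 : 0 ≤ C2)
    (hS4 : ∀ ε d N Rs s : ℝ, 0 < ε → ε ≤ 1 → 0 < d → d ≤ 1 → 16 ≤ N → 0 ≤ Rs → 0 ≤ s →
      ∀ U U1 U2 Z : ℝ → ℝ → ℝ,
        ContinuousOn (FN kap ε d N U U1 U2 Z s) (Ioi 0) → PtIn kap ε d N C1 Rs U U1 U2 Z s →
        Integrable (fun z => FN kap ε d N U U1 U2 Z s z ^ 2) (Lag.mu (aa kap)) ∧
        ∫ z, FN kap ε d N U U1 U2 Z s z ^ 2 ∂(Lag.mu (aa kap)) ≤ (C2 * om kap ε d N Rs s) ^ 2)
    {E : ℝ} (hE : E = q.d0 + q.eps + 3 * q.eta + Real.exp (-q.N / 16))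
    (hE3 : C2 * E / nu kap 3 ≤ q.sg / 10)
    (hEi : ∀ i < 3, C2 * E / nu kap i ≤ q.sg / 10)
    (hEE : (2 : ℝ) ^ (20 - kap) * (C2 * E) ≤ q.sg / 10)
    {g : ℝ → ℝ} {w f : Fn} {T : ℝ} (hT : 0 < T) (hT1 : T ≤ 1) (h : ConfSol 20 w f T)
    (hq : Qual w f T) {b : Fin 3 → ℝ} (hI : InitOK q g b w f) {t₁ : ℝ} (ht₁ : t₁ ∈ Ico 0 T)
    (hB : Boot q g w f t₁)
    {X U U1 U2 Z R : ℝ → ℝ → ℝ} (hR : RG.RSol 20 w f T X U U1 U2 Z R)
    (hPt : ∀ t ∈ Icc 0 t₁, PtIn kap q.eps q.d0 q.N C1 (3 * q.eta) U U1 U2 Z (st t)) :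
    |gami q w f 3 t₁ - 1| < q.sg ∧ enU q w f t₁ < q.sg ^ 2 ∧
    (∀ i < 3, |gami q w f i t₁| = q.sg →
      ∀ᶠ t in 𝓝[>] t₁, q.sg < |gami q w f i t|) := by
  have hk := KK_kap
  have hN0 : 0 < q.N := by linarith only [hN]
  have ht₁1 : t₁ < 1 := lt_of_lt_of_le ht₁.2 hT1
  have hsN : 2 * Real.sqrt q.N < q.N / 4 := by
    have h1 : Real.sqrt q.N * Real.sqrt q.N = q.N := Real.mul_self_sqrt hN0.le
    have h2 : 10 ≤ Real.sqrt q.N := Real.le_sqrt_of_sq_le (by linarith only [hN])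
    nlinarith only [hN, h1, h2]
  have hrr : ∀ t ∈ Icc 0 t₁, 2 * Real.sqrt q.N < rr w f t 0 := fun t ht =>
    lt_of_lt_of_le hsN (hB.b0 t ht)
  -- a later time
  obtain ⟨t', ht't₁, ht'T, hrr'⟩ : ∃ t' > t₁, t' < T ∧
      ∀ t ∈ Icc 0 t', 2 * Real.sqrt q.N < rr w f t 0 := by
    have hc : ContinuousWithinAt (fun t => rr w f t 0) (Ico 0 T) t₁ := cont_rr0 h t₁ ht₁
    have hev := hc.eventually (lt_mem_nhds (hrr t₁ ⟨ht₁.1, le_rfl⟩))
    have hev2 : ∀ᶠ t in 𝓝[≥] t₁, 2 * Real.sqrt q.N < rr w f t 0 := by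
      have hsub : 𝓝[≥] t₁ ≤ 𝓝[Ico 0 T] t₁ := by
        apply nhdsWithin_le_of_mem
        exact mem_of_superset (Ico_mem_nhdsGE ht₁.2) fun t ht => ⟨ht₁.1.trans ht.1, ht.2⟩
      exact hev.filter_mono hsub
    obtain ⟨u, hu, hu2⟩ := (mem_nhdsGE_iff_exists_Ico_subset).mp hev2
    have hu' : t₁ < u := hu
    refine ⟨(t₁ + min u T) / 2, ?_, ?_, ?_⟩
    · have : t₁ < min u T := lt_min hu' ht₁.2
      linarith only [this]
    · have : min u T ≤ T := min_le_right _ _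
      linarith only [ht₁, this, ht₁.2]
    · intro t ht
      rcases le_or_gt t t₁ with hc1 | hc1
      · exact hrr t ⟨ht.1, hc1⟩
      · apply hu2
        refine ⟨hc1.le, ?_⟩
        have : min u T ≤ u := min_le_left _ _
        linarith only [ht, hc1, this, ht.2]
  have ht'1 : t' < 1 := lt_of_lt_of_le ht'T hT1
  have ht'0 : 0 < t' := lt_of_le_of_lt ht₁.1 ht't₁
  have hst' : 0 < st t' := by
    rw [← st_zero]
    exact st_strict ht'0 ht'1
  have hFam' : Fam (aa kap) 3 (st t') (HH kap q.eps q.d0 q.N U) (H1 kap q.eps q.d0 q.N U U1)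
      (H2 kap q.eps q.d0 q.N U U1 U2) (FN kap q.eps q.d0 q.N U U1 U2 Z) :=
    s3 kap q.eps q.d0 q.N hk he0 hd0 (by linarith only [hN, hT1, ht'T, ht'0]) T hT w f X U U1 U2 Z R hR (st t') hst'
      (by rw [tt_st' ht'1]; exact ht'T)
      (fun t ht => rh_gt hN0 (hrr' t (by rw [tt_st' ht'1] at ht; exact ht)))
  have hcv : ∀ t ∈ Icc 0 t', (∀ i : ℕ, gami q w f i t = SS.gam kap i (hh q U t)) ∧
      enU q w f t = (4 : ℝ) ^ (20 - kap) * Ex kap (hh q U t) := fun t ht =>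
    CV.cv q hd0 hN0 he0 w f T hT hT1 h hq X U U1 U2 Z R hR t ⟨ht.1, lt_of_le_of_lt ht.2 ht'T⟩
      (hrr' t ht)
  have hforce : ∀ s ∈ Icc 0 (st t₁),
      ∫ z, FN kap q.eps q.d0 q.N U U1 U2 Z s z ^ 2 ∂(Lag.mu (aa kap)) ≤
        (C2 * E * Real.exp (-s)) ^ 2 := by
    intro s hs
    rw [hE]
    refine forcing hd0 hd1 he0 he1 (by linarith only [hN, hT1, ht'T, ht'0]) hC2 hS4 hs.1 ?_ ?_
    · have hs' : s ∈ Icc 0 (st t') := ⟨hs.1, hs.2.trans (st_mono ht't₁.le ht'1)⟩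
      exact hFam'.cF.comp (f := fun z : ℝ => ((s, z) : ℝ × ℝ)) (by fun_prop)
        fun z hz => ⟨hs', hz⟩
    · have h1 := hPt (tt s) ⟨by rw [← tt_zero]; exact tt_mono hs.1, by
        rw [← tt_st' ht₁1]; exact tt_mono hs.2⟩
      rwa [st_tt] at h1
  have hE0 : 0 ≤ E := by
    have hη : 0 ≤ q.eta := by
      unfold Par.eta
      positivity
    have := Real.exp_pos (-q.N / 16)
    rw [hE]
    positivity
  have hCE : 0 ≤ C2 * E := mul_nonneg hC2 hE0
  have h4 : (0 : ℝ) < (4 : ℝ) ^ (20 - kap) := Real.rpow_pos_of_pos (by norm_num) _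
  have h24 : ((2 : ℝ) ^ (20 - kap)) ^ 2 = (4 : ℝ) ^ (20 - kap) := by
    rw [← Real.rpow_natCast, ← Real.rpow_mul (by norm_num), mul_comm, Real.rpow_mul (by norm_num)]
    norm_num
  refine ⟨?_, ?_, ?_⟩
  · -- main mode
    rcases eq_or_lt_of_le ht₁.1 with h0 | h0
    · rw [← h0]
      have := hI.mode_main
      linarith only [hsg, this]
    · have hs1 : 0 < st t₁ := by
        rw [← st_zero]
        exact st_strict h0 ht₁1
      have hFam : Fam (aa kap) 3 (st t₁) (HH kap q.eps q.d0 q.N U) (H1 kap q.eps q.d0 q.N U U1)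
          (H2 kap q.eps q.d0 q.N U U1 U2) (FN kap q.eps q.d0 q.N U U1 U2 Z) :=
        s3 kap q.eps q.d0 q.N hk he0 hd0 (by linarith only [hN, hT1, ht't₁, ht'T, h0]) T hT w f X U U1 U2 Z R hR (st t₁) hs1
          (by rw [tt_st' ht₁1]; exact ht₁.2)
          (fun t ht => rh_gt hN0 (hrr t (by rw [tt_st' ht₁1] at ht; exact ht)))
      have h5 := ((s5b kap hk (st t₁) hs1 _ _ _ _ hFam).2.2
        (fun s => C2 * E * Real.exp (-s)) (by fun_prop)
        (fun s _ => mul_nonneg hCE (Real.exp_pos _).le) hforce).1 (st t₁) ⟨hs1.le, le_rfl⟩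
      rw [int_o] at h5
      have e1 := (hcv t₁ ⟨ht₁.1, ht't₁.le⟩).1 3
      have e0 := (hcv 0 ⟨le_rfl, ht'0.le⟩).1 3
      unfold hh at e1 e0
      rw [st_zero] at e0
      rw [← e1, ← e0] at h5
      have h6 : C2 * E * (1 - Real.exp (-st t₁)) / nu kap 3 ≤ C2 * E / nu kap 3 := by
        apply div_le_div_of_nonneg_right _ (nu_pos hk 3).le
        have := Real.exp_pos (-st t₁)
        nlinarith only [hT1, ht'T, ht'0, hCE, this]
      have h7 := hI.mode_main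
      have h8 := abs_sub_abs_le_abs_sub (gami q w f 3 t₁ - 1) (gami q w f 3 0 - 1)
      have h9 : gami q w f 3 t₁ - 1 - (gami q w f 3 0 - 1) =
          gami q w f 3 t₁ - gami q w f 3 0 := by ring
      rw [h9] at h8
      linarith only [hsg, hE3, h5, h6, h7, h8]
  · -- energy
    rcases eq_or_lt_of_le ht₁.1 with h0 | h0
    · rw [← h0]
      have := hI.en
      nlinarith only [hsg, this]
    · have hs1 : 0 < st t₁ := by
        rw [← st_zero]
        exact st_strict h0 ht₁1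
      have hFam : Fam (aa kap) 3 (st t₁) (HH kap q.eps q.d0 q.N U) (H1 kap q.eps q.d0 q.N U U1)
          (H2 kap q.eps q.d0 q.N U U1 U2) (FN kap q.eps q.d0 q.N U U1 U2 Z) :=
        s3 kap q.eps q.d0 q.N hk he0 hd0 (by linarith only [hN, hT1, ht't₁, ht'T, h0]) T hT w f X U U1 U2 Z R hR (st t₁) hs1
          (by rw [tt_st' ht₁1]; exact ht₁.2)
          (fun t ht => rh_gt hN0 (hrr t (by rw [tt_st' ht₁1] at ht; exact ht)))
      have h50 := s5b kap hk (st t₁) hs1 _ _ _ _ hFam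
      have h5 := (h50.2.2
        (fun s => C2 * E * Real.exp (-s)) (by fun_prop)
        (fun s _ => mul_nonneg hCE (Real.exp_pos _).le) hforce).2 (st t₁) ⟨hs1.le, le_rfl⟩
      rw [int_o] at h5
      have e1 := (hcv t₁ ⟨ht₁.1, ht't₁.le⟩).2
      have e0 := (hcv 0 ⟨le_rfl, ht'0.le⟩).2
      unfold hh at e1 e0
      rw [st_zero] at e0
      have n1 := h50.2.1 (st t₁) ⟨hs1.le, le_rfl⟩
      have n0 := h50.2.1 0 ⟨le_rfl, hs1.le⟩
      set x1 := Ex kap (HH kap q.eps q.d0 q.N U (st t₁))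
      set x0 := Ex kap (HH kap q.eps q.d0 q.N U 0)
      have h2p : (0 : ℝ) < (2 : ℝ) ^ (20 - kap) := Real.rpow_pos_of_pos (by norm_num) _
      have hs0 : (2 : ℝ) ^ (20 - kap) * Real.sqrt x0 ≤ q.sg / 10 := by
        have h7 : ((2 : ℝ) ^ (20 - kap) * Real.sqrt x0) ^ 2 ≤ (q.sg / 10) ^ 2 := by
          rw [mul_pow, h24, Real.sq_sqrt n0, ← e0]
          exact hI.en
        exact le_of_sq_le_sq h7 (by linarith only [hsg])
      have hs1' : (2 : ℝ) ^ (20 - kap) * Real.sqrt x1 ≤ q.sg / 5 := by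
        have h8 : Real.sqrt x1 ≤ Real.sqrt x0 + C2 * E := by
          have := Real.exp_pos (-st t₁)
          nlinarith only [hT1, ht'T, ht'0, hCE, h5, this]
        have h9 := mul_le_mul_of_nonneg_left h8 h2p.le
        rw [mul_add] at h9
        linarith only [hEE, hs0, h9]
      have h10 : ((2 : ℝ) ^ (20 - kap) * Real.sqrt x1) ^ 2 ≤ (q.sg / 5) ^ 2 :=
        pow_le_pow_left₀ (by positivity) hs1' 2
      rw [mul_pow, h24, Real.sq_sqrt n1, ← e1] at h10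
      nlinarith only [hsg, h10]
  · -- exit
    intro i hi hgi
    obtain ⟨cG, cF, dG, bF⟩ := s5a kap hk (st t') hst' _ _ _ _ hFam' i
    set G : ℝ → ℝ := fun s => SS.gam kap i (HH kap q.eps q.d0 q.N U s) with hG
    set Φ : ℝ → ℝ := fun s => SS.gam kap i (FN kap q.eps q.d0 q.N U U1 U2 Z s) with hΦ
    have hs0 : 0 ≤ st t₁ := st_nonneg ht₁.1 ht₁1
    have hlt : st t₁ < st t' := st_strict ht't₁ ht'1
    have hsI : st t₁ ∈ Icc 0 (st t') := ⟨hs0, hlt.le⟩
    have eG : G (st t₁) = gami q w f i t₁ := ((hcv t₁ ⟨ht₁.1, ht't₁.le⟩).1 i).symm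
    have hΦ1 : |Φ (st t₁)| ≤ q.sg / 10 := by
      refine ((bF (st t₁) hsI).2).trans ?_
      have h1 := hforce (st t₁) ⟨hs0, le_rfl⟩
      have h2 : Real.sqrt (∫ z, FN kap q.eps q.d0 q.N U U1 U2 Z (st t₁) z ^ 2
          ∂(Lag.mu (aa kap))) ≤ C2 * E := by
        rw [Real.sqrt_le_left hCE]
        refine h1.trans ?_
        apply pow_le_pow_left₀ (mul_nonneg hCE (Real.exp_pos _).le)
        have : Real.exp (-st t₁) ≤ 1 := Real.exp_le_one_iff.mpr (by linarith only [hs0])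
        nlinarith only [hT1, ht'T, ht'0, hCE, this]
      exact (div_le_div_of_nonneg_right h2 (nu_pos hk i).le).trans (hEi i hi)
    -- the sign
    obtain ⟨σ, hσ, hσG⟩ : ∃ σ : ℝ, (σ = 1 ∨ σ = -1) ∧ σ * G (st t₁) = q.sg := by
      rw [eG]
      rcases le_or_gt 0 (gami q w f i t₁) with hc | hc
      · exact ⟨1, Or.inl rfl, by rw [one_mul, ← hgi, abs_of_nonneg hc]⟩
      · exact ⟨-1, Or.inr rfl, by rw [← hgi, abs_of_neg hc]; ring⟩
    have hσ1 : |σ| = 1 := by rcases hσ with h | h <;> simp [h]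
    have hcont : ContinuousOn (fun s => σ * ((3 - (i : ℝ)) * G s + Φ s)) (Icc 0 (st t')) :=
      continuousOn_const.mul ((continuousOn_const.mul cG).add cF)
    have hpos : 0 < σ * ((3 - (i : ℝ)) * G (st t₁) + Φ (st t₁)) := by
      have h1 : σ * ((3 - (i : ℝ)) * G (st t₁) + Φ (st t₁)) =
          (3 - (i : ℝ)) * q.sg + σ * Φ (st t₁) := by
        rw [← hσG]; ring
      have h2 : |σ * Φ (st t₁)| ≤ q.sg / 10 := by rw [abs_mul, hσ1, one_mul]; exact hΦ1
      have h3 : (i : ℝ) ≤ 2 := by exact_mod_cast (by omega : i ≤ 2)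
      have h4 := (abs_le.mp h2).1
      rw [h1]
      nlinarith only [hsg, hT1, ht'T, ht'0, h3, h4]
    obtain ⟨s₂, hs₂, hs₂', hD⟩ : ∃ s₂ > st t₁, s₂ < st t' ∧
        ∀ s ∈ Icc (st t₁) s₂, 0 < σ * ((3 - (i : ℝ)) * G s + Φ s) := by
      have hev := (hcont (st t₁) hsI).eventually (lt_mem_nhds hpos)
      have hev2 : ∀ᶠ s in 𝓝[≥] (st t₁), 0 < σ * ((3 - (i : ℝ)) * G s + Φ s) := by
        have hsub : 𝓝[≥] (st t₁) ≤ 𝓝[Icc 0 (st t')] (st t₁) := by
          apply nhdsWithin_le_of_mem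
          exact mem_of_superset (Icc_mem_nhdsGE hlt) fun s hs => ⟨hs0.trans hs.1, hs.2⟩
        exact hev.filter_mono hsub
      obtain ⟨u, hu, hu2⟩ := (mem_nhdsGE_iff_exists_Ico_subset).mp hev2
      have hu' : st t₁ < u := hu
      refine ⟨(st t₁ + min u (st t')) / 2, ?_, ?_, ?_⟩
      · have : st t₁ < min u (st t') := lt_min hu' hlt
        linarith only [this]
      · have : min u (st t') ≤ st t' := min_le_right _ _
        linarith only [hlt, this]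
      · intro s hs
        apply hu2
        refine ⟨hs.1, ?_⟩
        have : min u (st t') ≤ u := min_le_left _ _
        linarith only [hu', hs, this, hs.2]
    have hmono : StrictMonoOn (fun s => σ * G s) (Icc (st t₁) s₂) := by
      have hsubI : Icc (st t₁) s₂ ⊆ Icc 0 (st t') := Icc_subset_Icc hs0 hs₂'.le
      refine strictMonoOn_of_deriv_pos (convex_Icc _ _)
        (continuousOn_const.mul (cG.mono hsubI)) fun s hs => ?_
      rw [interior_Icc] at hs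
      have h1 := dG s ⟨lt_of_le_of_lt hs0 hs.1, hs.2.trans hs₂'⟩
      rw [(h1.const_mul σ).deriv]
      exact hD s ⟨hs.1.le, hs.2.le⟩
    have hev : ∀ᶠ t in 𝓝[>] t₁, t ∈ Ioo t₁ (min t' (tt s₂)) := by
      refine Ioo_mem_nhdsGT (lt_min ht't₁ ?_)
      rw [← tt_st' ht₁1]
      exact tt_strict hs₂
    filter_upwards [hev] with t ht
    have htt' : t < t' := lt_of_lt_of_le ht.2 (min_le_left _ _)
    have htt2 : t < tt s₂ := lt_of_lt_of_le ht.2 (min_le_right _ _)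
    have ht1 : t < 1 := htt'.trans ht'1
    have e2 : G (st t) = gami q w f i t :=
      ((hcv t ⟨(ht₁.1.trans ht.1.le), htt'.le⟩).1 i).symm
    have h1 : st t₁ < st t := st_strict ht.1 ht1
    have h2 : st t < s₂ := by
      rw [← st_tt s₂]
      exact st_strict htt2 (tt_lt_one _)
    have h3 := hmono ⟨le_rfl, hs₂.le⟩ ⟨h1.le, h2.le⟩ h1
    simp only at h3
    rw [hσG, e2] at h3
    refine lt_of_lt_of_le h3 ?_
    calc σ * gami q w f i t ≤ |σ * gami q w f i t| := le_abs_self _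
      _ = |gami q w f i t| := by rw [abs_mul, hσ1, one_mul]

/-! ### the choice of the parameters -/

/-- the constant of `S4` -/
noncomputable def c2 (c : ℝ) : ℝ :=
  open Classical in if h : 0 ≤ c then (s4 kap KK_kap c h).choose else 0

theorem c2_nonneg (c : ℝ) : 0 ≤ c2 c := by
  unfold c2
  split_ifs with h
  · exact (s4 kap KK_kap c h).choose_spec.1
  · exact le_rfl

theorem c2_spec {c : ℝ} (h : 0 ≤ c) :
    ∀ ε d N Rs s : ℝ, 0 < ε → ε ≤ 1 → 0 < d → d ≤ 1 → 16 ≤ N → 0 ≤ Rs → 0 ≤ s →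
      ∀ U U1 U2 Z : ℝ → ℝ → ℝ,
        ContinuousOn (FN kap ε d N U U1 U2 Z s) (Ioi 0) → PtIn kap ε d N c Rs U U1 U2 Z s →
        Integrable (fun z => FN kap ε d N U U1 U2 Z s z ^ 2) (Lag.mu (aa kap)) ∧
        ∫ z, FN kap ε d N U U1 U2 Z s z ^ 2 ∂(Lag.mu (aa kap)) ≤
          (c2 c * om kap ε d N Rs s) ^ 2 := by
  unfold c2
  rw [dif_pos h]
  exact (s4 kap KK_kap c h).choose_spec.2

/-- the weights of the modes -/
noncomputable def MM : ℝ :=
  1 / nu kap 3 + ∑ i ∈ Finset.range 3, 1 / nu kap i + (2 : ℝ) ^ (20 - kap) + 1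

theorem inv_nu_nonneg (i : ℕ) : 0 ≤ 1 / nu kap i :=
  one_div_nonneg.2 (nu_pos KK_kap i).le

theorem MM_three : 1 / nu kap 3 ≤ MM := by
  have h1 : 0 ≤ ∑ i ∈ Finset.range 3, 1 / nu kap i :=
    Finset.sum_nonneg fun i _ => inv_nu_nonneg i
  have h2 : (0 : ℝ) < (2 : ℝ) ^ (20 - kap) := Real.rpow_pos_of_pos (by norm_num) _
  unfold MM
  linarith only [h1, h2]

theorem MM_lt {i : ℕ} (hi : i < 3) : 1 / nu kap i ≤ MM := by
  have h1 : 1 / nu kap i ≤ ∑ i ∈ Finset.range 3, 1 / nu kap i :=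
    Finset.single_le_sum (f := fun i => 1 / nu kap i) (fun i _ => inv_nu_nonneg i)
      (Finset.mem_range.2 hi)
  have h2 : (0 : ℝ) < (2 : ℝ) ^ (20 - kap) := Real.rpow_pos_of_pos (by norm_num) _
  have h3 := inv_nu_nonneg 3
  unfold MM
  linarith only [h1, h2, h3]

theorem MM_pow : (2 : ℝ) ^ (20 - kap) ≤ MM := by
  have h1 : 0 ≤ ∑ i ∈ Finset.range 3, 1 / nu kap i :=
    Finset.sum_nonneg fun i _ => inv_nu_nonneg i
  have h3 := inv_nu_nonneg 3
  unfold MM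
  linarith only [h1, h3]

theorem MM_one : 1 ≤ MM := by
  have h1 : 0 ≤ ∑ i ∈ Finset.range 3, 1 / nu kap i :=
    Finset.sum_nonneg fun i _ => inv_nu_nonneg i
  have h2 : (0 : ℝ) < (2 : ℝ) ^ (20 - kap) := Real.rpow_pos_of_pos (by norm_num) _
  have h3 := inv_nu_nonneg 3
  unfold MM
  linarith only [h1, h2, h3]

/-- the smallness required of `d0, ε, 1/N` -/
noncomputable def dl (C1 : Par → ℝ) (q : Par) : ℝ := q.sg / (40 * MM * (1 + c2 (C1 q)))

theorem dl_pos (C1 : Par → ℝ) {q : Par} (h : 0 < q.sg) : 0 < dl C1 q := by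
  have h1 := MM_one
  have h2 := c2_nonneg (C1 q)
  unfold dl
  positivity

theorem E_le {q : Par} {δ : ℝ} (hδ : 0 < δ) (hd : q.d0 ≤ δ) (he : q.eps ≤ δ) (hN : 100 ≤ q.N)
    (hN2 : 2 * 10 ^ 5 / δ ≤ q.N) :
    q.d0 + q.eps + 3 * q.eta + Real.exp (-q.N / 16) ≤ 4 * δ := by
  have hN0 : 0 < q.N := by linarith only [hN]
  have h0 : 2 * 10 ^ 5 ≤ q.N * δ := by rwa [div_le_iff₀ hδ] at hN2
  have h1 : 3 * q.eta ≤ δ := by
    unfold Par.eta
    rw [← mul_div_assoc, div_le_iff₀ (by positivity)]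
    nlinarith only [hN, h0]
  have h2 : Real.exp (-q.N / 16) ≤ δ := by
    have h3 : q.N / 16 ≤ Real.exp (q.N / 16) := by
      linarith only [Real.add_one_le_exp (q.N / 16)]
    have h4 : Real.exp (-q.N / 16) = (Real.exp (q.N / 16))⁻¹ := by
      rw [← Real.exp_neg]
      congr 1
      ring
    rw [h4, inv_le_comm₀ (Real.exp_pos _) hδ]
    refine le_trans ?_ h3
    rw [inv_le_iff_one_le_mul₀ hδ]
    linarith only [h0]
  linarith only [hd, he, h1, h2]

theorem s6_of (hPt : PtStatement) : S6Statement := by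
  intro g hg
  obtain ⟨C1, hC1, hC1n, hev⟩ := hPt g hg
  have hdl : ∀ q q' : Par, HeadEq q q' → q.sg = q'.sg → dl C1 q = dl C1 q' := by
    intro q q' h hs
    unfold dl
    rw [hC1 q q' h.B h.rho0 h.BV h.MU h.MP h.MV h.CU h.CP h.CV h.GR, hs]
  have e1 : Ev fun q => q.d0 ≤ min 1 (dl C1 q) :=
    ev_d0 (fun q q' h hs => by rw [hdl q q' h hs])
      fun q _ hs => lt_min one_pos (dl_pos C1 hs)
  have e2 : Ev fun q => q.eps ≤ min 1 (if 0 < dl C1 q then dl C1 q else 1) :=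
    ev_eps (fun q q' h hs _ _ => by rw [hdl q q' h hs])
      fun q _ _ _ _ => lt_min one_pos (by split_ifs with h; exacts [h, one_pos])
  have e3 : Ev fun q => max 100 (2 * 10 ^ 5 / dl C1 q) ≤ q.N :=
    ev_N fun q q' h hs _ => by rw [hdl q q' h hs]
  refine ((((hev.and e1).and e2).and e3).and (ev_pos one_pos)).mono ?_
  rintro q ⟨⟨⟨⟨hP, hd⟩, he⟩, hN⟩, hq⟩ b w f T hT hT1 h hQ hI t₁ ht₁ hB
  obtain ⟨X, U, U1, U2, Z, R, hR⟩ := exists_rsol hT h hQ
  have hδ := dl_pos C1 hq.sg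
  rw [if_pos hδ] at he
  have hN1 : 100 ≤ q.N := (le_max_left _ _).trans hN
  have hE := E_le hδ (hd.trans (min_le_right _ _)) (he.trans (min_le_right _ _)) hN1
    ((le_max_right _ _).trans hN)
  have hC2 := c2_nonneg (C1 q)
  have hM := MM_one
  set E := q.d0 + q.eps + 3 * q.eta + Real.exp (-q.N / 16) with hEdef
  have hE0 : 0 ≤ E := by
    have hη : 0 ≤ q.eta := by
      unfold Par.eta
      positivity
    have := Real.exp_pos (-q.N / 16)
    have := hq.d0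
    have := hq.eps
    rw [hEdef]
    positivity
  have hCE0 : 0 ≤ c2 (C1 q) * E := mul_nonneg hC2 hE0
  have hCE : c2 (C1 q) * E * MM ≤ q.sg / 10 := by
    have h1 : dl C1 q * (40 * MM * (1 + c2 (C1 q))) = q.sg := by
      unfold dl
      field_simp
    have h2 : c2 (C1 q) * E ≤ (1 + c2 (C1 q)) * (4 * dl C1 q) :=
      mul_le_mul (by linarith) hE hE0 (by linarith)
    nlinarith [mul_le_mul_of_nonneg_right h2 (by linarith : (0 : ℝ) ≤ MM)]
  have key : ∀ x : ℝ, x ≤ MM → c2 (C1 q) * E * x ≤ q.sg / 10 := fun x hx =>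
    (mul_le_mul_of_nonneg_left hx hCE0).trans hCE
  refine core hq.sg hq.d0 (hd.trans (min_le_left _ _)) hq.eps (he.trans (min_le_left _ _)) hN1
    hC2 (c2_spec (hC1n q)) hEdef ?_ ?_ ?_ hT hT1 h hQ hI ht₁ hB hR
    (hP w f T hT hT1 h hQ X U U1 U2 Z R hR t₁ ht₁ hB)
  · have := key _ MM_three
    rwa [mul_one_div] at this
  · intro i hi
    have := key _ (MM_lt hi)
    rwa [mul_one_div] at this
  · have := key _ MM_pow
    linarith only [this]

end Vale.Agent.P244.ST.SS.S6
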