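import Vale.Agent.P244.ST.S.CV
import Vale.Agent.P244.ST.S.S3
import Vale.Agent.P244.ST.S.S7
import Vale.Agent.P244.ST.S.EvS
import Vale.Agent.P244.ST.S.RGauge

/-!
# P244 / ST / S : closeness in the parabolic region (S7), from the pointwise input
-/

open Set MeasureTheory Filter Topology Polynomial
open scoped ContDiff

namespace Vale.Agent.P244.ST.SS.S7F

theorem kk_kap : KK kap := by
  have h1 : (34.76 : ℝ) < Real.sqrt 1209 := by
    rw [Real.lt_sqrt (by norm_num)]; norm_num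
  have h2 : Real.sqrt 1209 < (34.8 : ℝ) := by
    rw [Real.sqrt_lt' (by norm_num)]; norm_num
  have h3 : Real.sqrt 1209 ^ 2 = 1209 := Real.sq_sqrt (by norm_num)
  unfold kap
  refine ⟨?_, by linarith only [h2], by linarith only [h1]⟩
  linear_combination (1 / 4 : ℝ) * h3

/-- the envelope of `∂_z H` on compact sets -/
noncomputable def GG7 (z : ℝ) : ℝ := wk kap z * (kap + 1) * en z / (2 * z)

theorem GG7_cont {z₁ z₂ : ℝ} (h1 : 0 < z₁) : ContinuousOn GG7 (Icc z₁ z₂) := by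
  have hpos : ∀ z ∈ Icc z₁ z₂, (0 : ℝ) < z := fun z hz => lt_of_lt_of_le h1 hz.1
  have hw : ContinuousOn (wk kap) (Icc z₁ z₂) := fun z hz =>
    (hd_wk (k := kap) (hpos z hz)).continuousAt.continuousWithinAt
  have he : ContinuousOn en (Icc z₁ z₂) := by
    unfold en
    refine ContinuousOn.add ?_ (by fun_prop)
    exact continuousOn_id.rpow_const fun z hz => Or.inl (hpos z hz).ne'
  unfold GG7
  exact ((hw.mul continuousOn_const).mul he).div (by fun_prop)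
    fun z hz => mul_ne_zero two_ne_zero (hpos z hz).ne'

theorem core : ∀ r c : ℝ, ∃ s0 : ℝ, 0 < s0 ∧ (0 < r → r ≤ 1 → 0 ≤ c →
    ∀ sg : ℝ, 0 < sg → sg ≤ s0 →
    ∀ h h1 : ℝ → ℝ, (∀ z > 0, HasDerivAt h (h1 z) z) → ContinuousOn h1 (Ioi 0) →
    (∃ c₁ > 0, ∃ c₂ : ℝ, ∀ z > 0, z ∉ Icc c₁ c₂ → h z = 0) →
    (∀ z ∈ Icc ((r / 16) ^ 2 / 4) 40000, |h1 z| ≤ c * GG7 z) →
    (∀ i < 3, |SS.gam kap i h| ≤ sg) → |SS.gam kap 3 h - 1| ≤ sg → Ex kap h ≤ sg ^ 2 →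
    ∀ z ∈ Icc ((r / 16) ^ 2 / 4) 40000,
      (r / 16) ^ (-kap) * |h z - (Lag.ell (SS.aa kap) 3).eval z| ≤ Real.sqrt sg) := by
  intro r c
  by_cases hr : 0 < r ∧ r ≤ 1 ∧ 0 ≤ c
  swap
  · exact ⟨1, one_pos, fun h1 h2 h3 => absurd ⟨h1, h2, h3⟩ hr⟩
  obtain ⟨hr0, hr1, hc⟩ := hr
  have hz1 : (0 : ℝ) < (r / 16) ^ 2 / 4 := by positivity
  have hz12 : (r / 16) ^ 2 / 4 < (40000 : ℝ) := by nlinarith only [hr0, hr1]
  obtain ⟨G0, hG0⟩ := isCompact_Icc.exists_bound_of_continuousOn (GG7_cont (z₂ := 40000) hz1)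
  have hG0n : 0 ≤ G0 := (norm_nonneg _).trans (hG0 _ ⟨le_rfl, hz12.le⟩)
  obtain ⟨C, hC, hmain⟩ := s7s kap kk_kap ((r / 16) ^ 2 / 4) hz1 40000 hz12 (c * G0) 1
    (by positivity) zero_le_one
  have hrk : (0 : ℝ) < (r / 16) ^ (-kap) := Real.rpow_pos_of_pos (by positivity) _
  set D : ℝ := (r / 16) ^ (-kap) * C with hD
  have hD0 : 0 ≤ D := by positivity
  refine ⟨min 1 (((D + 1) ^ 6)⁻¹), lt_min one_pos (by positivity), fun _ _ _ => ?_⟩
  intro sg hsg hsg1 h h1 hd hcont hsupp hb hlow h3 hE z hz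
  have hsg11 : sg ≤ 1 := hsg1.trans (min_le_left _ _)
  have hres := hmain sg hsg hsg11 h h1 hd hcont hsupp (fun z hz => (hb z hz).trans (by
    refine mul_le_mul_of_nonneg_left ?_ hc
    exact (le_abs_self _).trans (hG0 z hz))) (by simpa using hlow) (by simpa using h3)
    (by simpa using hE) z hz
  have hx : sg ^ (2 / 3 : ℝ) = Real.sqrt sg * sg ^ (1 / 6 : ℝ) := by
    rw [Real.sqrt_eq_rpow, ← Real.rpow_add hsg]
    norm_num
  have hy : D * sg ^ (1 / 6 : ℝ) ≤ 1 := by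
    have h5 : sg ^ (1 / 6 : ℝ) ≤ (D + 1)⁻¹ := by
      have h6 : sg ^ (1 / 6 : ℝ) ≤ (((D + 1) ^ 6)⁻¹) ^ (1 / 6 : ℝ) :=
        Real.rpow_le_rpow hsg.le (hsg1.trans (min_le_right _ _)) (by norm_num)
      refine h6.trans (le_of_eq ?_)
      rw [← inv_pow, ← Real.rpow_natCast ((D + 1)⁻¹) 6, ← Real.rpow_mul (by positivity)]
      norm_num
    calc D * sg ^ (1 / 6 : ℝ) ≤ D * (D + 1)⁻¹ := mul_le_mul_of_nonneg_left h5 hD0
      _ ≤ 1 := by
          rw [← div_eq_mul_inv, div_le_one (by positivity)]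
          linarith only []
  calc (r / 16) ^ (-kap) * |h z - (Lag.ell (SS.aa kap) 3).eval z|
      ≤ (r / 16) ^ (-kap) * (C * sg ^ (2 / 3 : ℝ)) := mul_le_mul_of_nonneg_left hres hrk.le
    _ = (D * sg ^ (1 / 6 : ℝ)) * Real.sqrt sg := by rw [hx, hD]; ring
    _ ≤ 1 * Real.sqrt sg := mul_le_mul_of_nonneg_right hy (Real.sqrt_nonneg _)
    _ = Real.sqrt sg := one_mul _

/-- the cut-offs are constant on the parabolic region -/
theorem cut_one {d N s z : ℝ} (h1 : 4 ≤ z / z0 d s) (h2 : be N s z ≤ 1) :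
    ch d N s z = 1 ∧ ch1 d N s z = 0 := by
  unfold ch ch1
  rw [xi_one h1, xi_zero h2, xi1_zero (Or.inr h1), xi1_zero (Or.inl h2)]
  constructor <;> ring

theorem rhx_neg {w f : Fn} {T : ℝ} (hS : ConfSol 20 w f T) (hQ : Qual w f T) :
    ∀ t ∈ Ico 0 T, ∀ x ∈ Ioo (0 : ℝ) 1, RG.rhx (w t) (f t) x < 0 := by
  intro t ht x hx
  have h1 := RG.rh_deriv hS ht (x := x) ⟨by linarith only [hx, hx.1], hx.2⟩
  have h2 : RG.rh 20 (w t) (f t) = rho w f t := funext fun x => CV.rh_eq x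
  rw [h2] at h1
  rw [← h1.deriv]
  exact CV.rho_deriv_neg hQ ht hx

/-- the bound of `∂_z H` -/
theorem H1_bound {ε d N s z C : ℝ} {U U1 : ℝ → ℝ → ℝ} (he : 0 < ε) (hzp : 0 < z)
    (h4 : 4 ≤ z / z0 d s) (h5 : be N s z ≤ 1)
    (hU : |U (tt s) (lr s z)| ≤ C * Am kap ε s * en z)
    (hU1 : |U1 (tt s) (lr s z)| ≤ C * Am kap ε s * en z) :
    |H1 kap ε d N U U1 s z| ≤ C * GG7 z := by
  obtain ⟨hc, hc1⟩ := cut_one h4 h5
  have hAm := Am_pos (k := kap) he s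
  have hwk := wk_pos (k := kap) hzp
  unfold H1 HD GG7
  rw [hc, hc1, zero_mul, zero_add, one_mul]
  have hk0 : 0 < kap := by have := kk_kap.lo; linarith only [this]
  have h7 : |kap * U (tt s) (lr s z) + U1 (tt s) (lr s z)| ≤
      (kap + 1) * (C * Am kap ε s * en z) := by
    refine (abs_add_le _ _).trans ?_
    rw [abs_mul, abs_of_pos hk0]
    have := mul_le_mul_of_nonneg_left hU hk0.le
    linarith only [hU1, this]
  rw [abs_div, abs_mul, abs_div, abs_of_pos hwk, abs_of_pos hAm,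
    abs_of_pos (by positivity : (0 : ℝ) < 2 * z), ← mul_div_assoc]
  refine div_le_div_of_nonneg_right ?_ (by positivity)
  calc wk kap z / Am kap ε s * |kap * U (tt s) (lr s z) + U1 (tt s) (lr s z)|
      ≤ wk kap z / Am kap ε s * ((kap + 1) * (C * Am kap ε s * en z)) :=
        mul_le_mul_of_nonneg_left h7 (by positivity)
    _ = C * (wk kap z * (kap + 1) * en z) := by
        field_simp

/-- back to the physical quantities -/
theorem back {A y u l r S : ℝ} (hA : 0 < A) (hr : 0 < r) (hy : r ≤ y)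
    (h : r ^ (-kap) * |y ^ kap * u / A - l| ≤ S) :
    |u - A * (y ^ (-kap) * l)| ≤ S * A := by
  have hy0 : 0 < y := lt_of_lt_of_le hr hy
  have hyk : y ^ (-kap) * y ^ kap = 1 := by
    rw [← Real.rpow_add hy0]; simp
  have hkey : u - A * (y ^ (-kap) * l) = A * (y ^ (-kap) * (y ^ kap * u / A - l)) := by
    have hA' := hA.ne'
    have : A * (y ^ (-kap) * (y ^ kap * u / A - l)) =
      (y ^ (-kap) * y ^ kap) * u - A * (y ^ (-kap) * l) := by
      field_simp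
    rw [this, hyk, one_mul]
  rw [hkey, abs_mul, abs_of_pos hA, mul_comm, abs_mul,
    abs_of_pos (Real.rpow_pos_of_pos hy0 _)]
  refine mul_le_mul_of_nonneg_right ?_ hA.le
  refine le_trans (mul_le_mul_of_nonneg_right ?_ (abs_nonneg _)) h
  have hk0 : 0 < kap := by have := kk_kap.lo; linarith only [this]
  exact Real.rpow_le_rpow_of_nonpos hr hy (by linarith only [hk0])

/-- the region of the r-gauge contains `r ≤ 2 √N` -/
theorem reg_of {w f : Fn} {t N : ℝ} (hN0 : 0 < N)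
    (heq : ∀ t' ∈ Icc 0 t, 2 * Real.sqrt N < rr w f t' 0) :
    ∀ t' ∈ Icc 0 t, Real.log (4 * N) / 2 < RG.rh 20 (w t') (f t') 0 := by
  intro t' ht'
  rw [CV.rh_eq]
  have h1 := heq t' ht'
  have h2 : Real.log (2 * Real.sqrt N) < Real.log (rr w f t' 0) :=
    Real.log_lt_log (by positivity) h1
  unfold rr at h2
  rw [Real.log_exp] at h2
  have h3 : Real.log (4 * N) = 2 * Real.log (2 * Real.sqrt N) := by
    rw [show (4 * N : ℝ) = (2 * Real.sqrt N) ^ 2 by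
      rw [mul_pow, Real.sq_sqrt hN0.le]; norm_num, Real.log_pow]
    norm_num
  rw [h3]
  linarith only [h2]

theorem two_sqrt_lt {N : ℝ} (hN : 200000 ≤ N) : 2 * Real.sqrt N < N / 4 := by
  have h8 : 8 < Real.sqrt N := by
    rw [Real.lt_sqrt (by norm_num)]; linarith only [hN]
  have h9 := Real.sq_sqrt (by linarith only [hN] : (0 : ℝ) ≤ N)
  nlinarith only [hN, h8, h9]

/-- facts on the parabolic region -/
theorem region {d N s r τ z : ℝ} (hd : 0 < d) (hr : 0 < r) (hdr : d ≤ r / 32) (hN : 200000 ≤ N)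
    (hs : 0 ≤ s) (hexp : Real.exp (-s) = τ) (hτ1 : τ ≤ 1)
    (hz : z ∈ Icc ((r / 16) ^ 2 / 4) 40000) :
    4 ≤ z / z0 d s ∧ be N s z ≤ 1 := by
  have hN0 : 0 < N := by linarith only [hN]
  have hz0 : z0 d s ≤ d ^ 2 / 4 := by
    unfold z0
    have : Real.exp (-s / 5) ≤ 1 := Real.exp_le_one_iff.2 (by linarith only [hs])
    nlinarith only [this, sq_nonneg d]
  have hz0p := z0_pos hd s
  constructor
  · rw [le_div_iff₀ hz0p]
    have h1 : d ^ 2 ≤ (r / 32) ^ 2 := pow_le_pow_left₀ hd.le hdr 2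
    have h2 := hz.1
    nlinarith only [hz0, h1, h2]
  · unfold be
    rw [hexp, div_le_one hN0]
    have h2 := hz.2
    have h3 : 0 < z := lt_of_lt_of_le (by positivity) hz.1
    nlinarith only [hN, hτ1, h2, h3]

theorem supp {ε d N s : ℝ} {U : ℝ → ℝ → ℝ} (hd : 0 < d) (hN0 : 0 < N) :
    ∃ c₁ > 0, ∃ c₂ : ℝ, ∀ z > 0, z ∉ Icc c₁ c₂ → HH kap ε d N U s z = 0 := by
  refine ⟨z0 d s, z0_pos hd s, N * Real.exp s, fun z hz hzI => ?_⟩
  refine (all_zero (k := kap) (ε := ε) hd ?_ U U U U).1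
  rw [mem_Icc, not_and_or] at hzI
  push Not at hzI
  rcases hzI with h | h
  · exact Or.inl h.le
  · right
    unfold be
    rw [le_div_iff₀ hN0]
    have h3 : Real.exp s * Real.exp (-s) = 1 := by rw [← Real.exp_add]; simp
    have h4 : N * Real.exp s * Real.exp (-s) ≤ z * Real.exp (-s) :=
      mul_le_mul_of_nonneg_right h.le (Real.exp_pos _).le
    rw [mul_assoc, h3, mul_one] at h4
    linarith only [h4]

theorem st_nonneg {t : ℝ} (ht : 0 ≤ t) (hτ : 0 < tau t) : 0 ≤ st t := by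
  unfold st
  have h1 : 1 - t ≤ 1 := by linarith only [ht]
  have h2 : 0 < 1 - t := hτ
  have := Real.log_nonpos h2.le h1
  linarith only [this]

theorem x_ne_zero {q : Par} {g : ℝ → ℝ} {w f : Fn} {t t₁ x : ℝ} (hN : 200000 ≤ q.N)
    (hτ : 0 < tau t) (hB : Boot q g w f t₁) (ht : t ∈ Icc 0 t₁) (hy2 : yv w f t x ≤ 400) :
    x ≠ 0 := by
  rintro rfl
  have h1 := hB.b0 t ht
  have hτ1 : tau t ≤ 1 := by unfold tau; linarith only [ht, ht.1]
  have h2 : rr w f t 0 ≤ yv w f t 0 := by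
    unfold yv
    rw [le_div_iff₀ (Real.sqrt_pos.2 hτ)]
    have h3 : Real.sqrt (tau t) ≤ 1 := Real.sqrt_le_one.2 hτ1
    have h4 : 0 < rr w f t 0 := Real.exp_pos _
    calc rr w f t 0 * Real.sqrt (tau t) ≤ rr w f t 0 * 1 := mul_le_mul_of_nonneg_left h3 h4.le
      _ = rr w f t 0 := mul_one _
  linarith only [hN, hy2, h1, h2]

theorem Ex_le {q : Par} {w f : Fn} {t E : ℝ} (hen : enU q w f t = (4 : ℝ) ^ (20 - kap) * E)
    (h1 : enU q w f t ≤ q.sg ^ 2) : E ≤ q.sg ^ 2 := by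
  rw [hen] at h1
  have h2 : (1 : ℝ) ≤ (4 : ℝ) ^ (20 - kap) :=
    Real.one_le_rpow (by norm_num) (by have := kk_kap.hi; linarith only [this])
  have h3 : 0 ≤ q.sg ^ 2 := sq_nonneg _
  by_contra hcon
  push Not at hcon
  have h4 : 0 < E := lt_of_le_of_lt h3 hcon
  have h5 : E ≤ (4 : ℝ) ^ (20 - kap) * E := le_mul_of_one_le_left h4.le h2
  linarith only [h1, hcon, h5]

theorem slice_cont {Φ : ℝ → ℝ → ℝ} {A : Set ℝ} {s : ℝ} (hs : s ∈ A)
    (h : ContinuousOn (fun q : ℝ × ℝ => Φ q.1 q.2) (A ×ˢ Ioi (0 : ℝ))) :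
    ContinuousOn (Φ s) (Ioi 0) := by
  have h1 : ContinuousOn (fun z : ℝ => ((s, z) : ℝ × ℝ)) (Ioi 0) := by fun_prop
  exact h.comp h1 (fun z hz => ⟨hs, hz⟩)

/-- the estimate of `H` for one `(t, x)` -/
theorem point {q : Par} {g : ℝ → ℝ} {w f : Fn} {T t₁ t x C s0 : ℝ}
    (hcore : ∀ sg : ℝ, 0 < sg → sg ≤ s0 →
    ∀ h h1 : ℝ → ℝ, (∀ z > 0, HasDerivAt h (h1 z) z) → ContinuousOn h1 (Ioi 0) →
    (∃ c₁ > 0, ∃ c₂ : ℝ, ∀ z > 0, z ∉ Icc c₁ c₂ → h z = 0) →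
    (∀ z ∈ Icc ((q.rho0 / 16) ^ 2 / 4) 40000, |h1 z| ≤ C * GG7 z) →
    (∀ i < 3, |SS.gam kap i h| ≤ sg) → |SS.gam kap 3 h - 1| ≤ sg → Ex kap h ≤ sg ^ 2 →
    ∀ z ∈ Icc ((q.rho0 / 16) ^ 2 / 4) 40000,
      (q.rho0 / 16) ^ (-kap) * |h z - (Lag.ell (SS.aa kap) 3).eval z| ≤ Real.sqrt sg)
    (hsg : q.sg ≤ s0) (hd0 : q.d0 ≤ q.rho0 / 32) (hK : ParPos 200000 q)
    (hT : 0 < T) (hT1 : T ≤ 1) (hS : ConfSol 20 w f T) (hQ : Qual w f T) (ht₁ : t₁ ∈ Ico 0 T)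
    (hB : Boot q g w f t₁) (ht : t ∈ Icc 0 t₁)
    (hy1 : q.rho0 / 16 ≤ yv w f t x) (hy2 : yv w f t x ≤ 400)
    {X U U1 U2 Z R : ℝ → ℝ → ℝ} (hR : RG.RSol 20 w f T X U U1 U2 Z R)
    (hPtIn : PtIn kap q.eps q.d0 q.N C (3 * q.eta) U U1 U2 Z (st t)) :
    (q.rho0 / 16) ^ (-kap) * |hh q U t (CV.zt w f t x) -
      (Lag.ell (SS.aa kap) 3).eval (CV.zt w f t x)| ≤ Real.sqrt q.sg := by
  have htT : t ∈ Ico 0 T := ⟨ht.1, lt_of_le_of_lt ht.2 ht₁.2⟩
  have hτ : 0 < tau t := CV.tau_pos hT1 htT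
  have hτ1 : tau t ≤ 1 := by unfold tau; linarith only [ht, ht.1]
  have hN : 200000 ≤ q.N := hK.N
  have hN0 : 0 < q.N := by linarith only [hN]
  have hN1 : 1 ≤ q.N := by linarith only [hN]
  have hρ0 := hK.rho0
  have he := hK.eps
  have hd := hK.d0
  have heq : ∀ t' ∈ Icc 0 t, 2 * Real.sqrt q.N < rr w f t' 0 := fun t' ht' =>
    lt_of_lt_of_le (two_sqrt_lt hN) (hB.b0 t' ⟨ht'.1, ht'.2.trans ht.2⟩)
  obtain ⟨hgam, hen⟩ := CV.cv q hd hN0 he w f T hT hT1 hS hQ X U U1 U2 Z R hR t htT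
    (heq t ⟨ht.1, le_rfl⟩)
  have hts : tt (st t) = t := CV.tt_st hτ
  have hst0 : 0 ≤ st t := st_nonneg ht.1 hτ
  have hreg : ∀ t' ∈ Icc 0 (tt (st t)), Real.log (4 * q.N) / 2 < RG.rh 20 (w t') (f t') 0 := by
    rw [hts]
    exact reg_of hN0 heq
  have hTs : tt (st t) < T := by rw [hts]; exact htT.2
  have hsI : st t ∈ Icc 0 (st t) := ⟨hst0, le_rfl⟩
  have hcont := (s3_cont (k := kap) (ε := q.eps) (d := q.d0) he hd hN1 hR hTs hreg).2.1
  have hexp : Real.exp (-st t) = tau t := by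
    have := CV.exp_st (t := t) hτ 1
    rwa [one_mul, Real.rpow_one] at this
  have hregz : ∀ z ∈ Icc ((q.rho0 / 16) ^ 2 / 4) 40000,
      4 ≤ z / z0 q.d0 (st t) ∧ be q.N (st t) z ≤ 1 := fun z hz =>
    region hd hρ0 hd0 hN hst0 hexp hτ1 hz
  have hzx : CV.zt w f t x ∈ Icc ((q.rho0 / 16) ^ 2 / 4) 40000 := by
    unfold CV.zt
    have h1 : 0 < yv w f t x := CV.yv_pos hτ x
    constructor
    · have := pow_le_pow_left₀ (by positivity : (0 : ℝ) ≤ q.rho0 / 16) hy1 2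
      linarith only [this]
    · have := pow_le_pow_left₀ h1.le hy2 2
      linarith only [this]
  have hder : ∀ z > 0, HasDerivAt (hh q U t) (H1 kap q.eps q.d0 q.N U U1 (st t) z) z :=
    fun z hz => s3_d1 he hd hN1 hR hTs hreg hsI hz
  have hc1 : ContinuousOn (H1 kap q.eps q.d0 q.N U U1 (st t)) (Ioi 0) := slice_cont hsI hcont
  have hbd : ∀ z ∈ Icc ((q.rho0 / 16) ^ 2 / 4) 40000,
      |H1 kap q.eps q.d0 q.N U U1 (st t) z| ≤ C * GG7 z := by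
    intro z hz
    obtain ⟨h4, h5⟩ := hregz z hz
    have hzp : 0 < z := lt_of_lt_of_le (by positivity) hz.1
    have h6 : z0 q.d0 (st t) ≤ z := by
      have := (le_div_iff₀ (z0_pos hd (st t))).1 h4
      linarith only [hzp, this, z0_pos hd (st t)]
    obtain ⟨hU, hU1, -⟩ := hPtIn z h6 (by linarith only [h5])
    exact H1_bound he hzp h4 h5 hU hU1
  have hE : Ex kap (hh q U t) ≤ q.sg ^ 2 := Ex_le hen (hB.b6 t ht).en
  have hl : ∀ i < 3, |SS.gam kap i (hh q U t)| ≤ q.sg := fun i hi => by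
    rw [← hgam i]; exact (hB.b6 t ht).low i hi
  have h3 : |SS.gam kap 3 (hh q U t) - 1| ≤ q.sg := by
    rw [← hgam 3]; exact (hB.b6 t ht).main
  exact hcore q.sg hK.sg hsg (hh q U t)
    (H1 kap q.eps q.d0 q.N U U1 (st t)) hder hc1 (supp hd hN0) hbd hl h3 hE (CV.zt w f t x) hzx

theorem chi_one {q : Par} {w f : Fn} {t x : ℝ} (hd0 : q.d0 ≤ q.rho0 / 32)
    (hK : ParPos 200000 q) (h0 : 0 ≤ t) (hτ : 0 < tau t)
    (hy1 : q.rho0 / 16 ≤ yv w f t x) (hy2 : yv w f t x ≤ 400) : chi q t (yv w f t x) = 1 := by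
  have hτ1 : tau t ≤ 1 := by unfold tau; linarith only [h0]
  have hexp : Real.exp (-st t) = tau t := by
    have := CV.exp_st (t := t) hτ 1
    rwa [one_mul, Real.rpow_one] at this
  have hzx : CV.zt w f t x ∈ Icc ((q.rho0 / 16) ^ 2 / 4) 40000 := by
    unfold CV.zt
    have h1 : 0 < yv w f t x := CV.yv_pos hτ x
    have h2 := hK.rho0
    constructor
    · have := pow_le_pow_left₀ (by positivity : (0 : ℝ) ≤ q.rho0 / 16) hy1 2
      linarith only [this]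
    · have := pow_le_pow_left₀ h1.le hy2 2
      linarith only [this]
  rw [← CV.ch_eq hτ q hK.d0 x]
  obtain ⟨h1, h2⟩ := region hK.d0 hK.rho0 hd0 hK.N (st_nonneg h0 hτ) hexp hτ1 hzx
  exact (cut_one h1 h2).1

/-- **S7** from the pointwise input. -/
theorem s7_of (hPt : PtStatement) : Vale.Agent.P244.ST.S7Statement := by
  intro g hg
  obtain ⟨C1, hC1, hC1n, hEv⟩ := hPt g hg
  choose s0 hs0 hcore using core
  have e1 : Ev fun q => q.sg ≤ s0 q.rho0 (C1 q) :=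
    ev_sg (F := fun q => s0 q.rho0 (C1 q)) (fun q q' h => by
      show s0 q.rho0 (C1 q) = s0 q'.rho0 (C1 q')
      rw [h.rho0, hC1 q q' h.B h.rho0 h.BV h.MU h.MP h.MV h.CU h.CP h.CV h.GR])
      (fun q _ => hs0 _ _)
  have e2 : Ev fun q => q.d0 ≤ q.rho0 / 32 :=
    ev_d0 (F := fun q => q.rho0 / 32) (fun q q' h _ => by
      show q.rho0 / 32 = q'.rho0 / 32
      rw [h.rho0]) (fun q h _ => by positivity)
  refine (((hEv.and e1).and e2).and (ev_pos (K := 200000) (by norm_num))).mono ?_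
  rintro q ⟨⟨⟨hpt, hsg⟩, hd0⟩, hK⟩ w f T hT hT1 hS hQ t₁ ht₁ hB t ht x hx hy1 hy2
  have htT : t ∈ Ico 0 T := ⟨ht.1, lt_of_le_of_lt ht.2 ht₁.2⟩
  have hτ : 0 < tau t := CV.tau_pos hT1 htT
  have hρ0 := hK.rho0
  have hρ1 : q.rho0 ≤ 1 := hK.rho0'.trans (by norm_num)
  have hA := CV.A_pos (q := q) hK.eps hτ
  have hx0 : x ≠ 0 := x_ne_zero hK.N hτ hB ht hy2
  have hx' : x ∈ Ioo (0 : ℝ) 1 := ⟨lt_of_le_of_ne hx.1 (Ne.symm hx0), hx.2⟩
  obtain ⟨X, U, U1, U2, Z, R, hR⟩ := RG.s8 20 (by norm_num) T hT w f hS (rhx_neg hS hQ)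
  have hPtIn := hpt w f T hT hT1 hS hQ X U U1 U2 Z R hR t₁ ht₁ hB t ht
  have hfin := point (hcore q.rho0 (C1 q) hρ0 hρ1 (hC1n q)) hsg hd0 hK hT hT1 hS hQ ht₁ hB ht
    hy1 hy2 hR hPtIn
  rw [CV.hh_eq hτ hR htT q hK.d0 hx', chi_one hd0 hK ht.1 hτ hy1 hy2, one_mul] at hfin
  have hph : ph 3 (yv w f t x) =
      yv w f t x ^ (-kap) * (Lag.ell (SS.aa kap) 3).eval (CV.zt w f t x) := by
    rw [← CV.ll_eq]
    rfl
  rw [hph]
  exact back hA (by positivity) hy1 hfin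

end Vale.Agent.P244.ST.SS.S7F
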