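import Vale.Agent.P244.ST.S.SDefs
import Vale.Agent.P244.ST.Iface

/-!
# P244 / ST / S : statements connecting block S with the interface (Geo.lean, Iface.lean)
-/

open Set MeasureTheory
open scoped ContDiff

namespace Vale.Agent.P244.ST.SS

/-- `s = -log (1-t)` -/
noncomputable def st (t : ℝ) : ℝ := -Real.log (1 - t)

/-- the normalised cut-off function of the solution, `z ↦ H(s,z)` at the time `t` -/
noncomputable def hh (q : Par) (U : ℝ → ℝ → ℝ) (t : ℝ) : ℝ → ℝ :=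
  HH kap q.eps q.d0 q.N U (st t)

/-- **CV** (change of variables): the `x`-integrals of `Geo.lean` are the `z`-integrals. -/
def CVStatement : Prop :=
  ∀ q : Par, 0 < q.d0 → 0 < q.N → 0 < q.eps → ∀ w f : Fn, ∀ T > 0, T ≤ 1 →
    ConfSol 20 w f T → Qual w f T →
    ∀ X U U1 U2 Z R : ℝ → ℝ → ℝ, RG.RSol 20 w f T X U U1 U2 Z R →
    ∀ t ∈ Ico 0 T, 2 * Real.sqrt q.N < rr w f t 0 →
    (∀ i : ℕ, gami q w f i t = SS.gam kap i (hh q U t)) ∧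
    enU q w f t = (4 : ℝ) ^ (20 - kap) * Ex kap (hh q U t)

/-- **Pt** (pointwise input from the bootstrap); the constant `C1` depends only on the
parameters before `sg`. -/
def PtStatement : Prop :=
  ∀ g : ℝ → ℝ, IsBub g → ∃ C1 : Par → ℝ,
    (∀ q q' : Par, q.B = q'.B → q.rho0 = q'.rho0 → q.BV = q'.BV → q.MU = q'.MU → q.MP = q'.MP →
      q.MV = q'.MV → q.CU = q'.CU → q.CP = q'.CP → q.CV = q'.CV → q.GR = q'.GR → C1 q = C1 q') ∧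
    (∀ q, 0 ≤ C1 q) ∧
    Ev fun q => ∀ w f : Fn, ∀ T > 0, T ≤ 1 → ConfSol 20 w f T → Qual w f T →
      ∀ X U U1 U2 Z R : ℝ → ℝ → ℝ, RG.RSol 20 w f T X U U1 U2 Z R →
      ∀ t₁ ∈ Ico 0 T, Boot q g w f t₁ → ∀ t ∈ Icc 0 t₁,
        PtIn kap q.eps q.d0 q.N (C1 q) (3 * q.eta) U U1 U2 Z (st t)

/-- **S7s** (closeness on compact sets with a rate). -/
def S7sStatement : Prop :=
  ∀ k : ℝ, KK k → ∀ z₁ > 0, ∀ z₂ > z₁, ∀ M K : ℝ, 0 ≤ M → 0 ≤ K → ∃ C : ℝ, 0 ≤ C ∧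
    ∀ sg : ℝ, 0 < sg → sg ≤ 1 →
    ∀ h h1 : ℝ → ℝ, (∀ z > 0, HasDerivAt h (h1 z) z) → ContinuousOn h1 (Ioi 0) →
    (∃ c₁ > 0, ∃ c₂ : ℝ, ∀ z > 0, z ∉ Icc c₁ c₂ → h z = 0) →
    (∀ z ∈ Icc z₁ z₂, |h1 z| ≤ M) →
    (∀ i < 3, |gam k i h| ≤ K * sg) → |gam k 3 h - 1| ≤ K * sg → Ex k h ≤ (K * sg) ^ 2 →
    ∀ z ∈ Icc z₁ z₂, |h z - (Lag.ell (aa k) 3).eval z| ≤ C * sg ^ (2 / 3 : ℝ)

end Vale.Agent.P244.ST.SS
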