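import Vale.Agent.P244.ST.S.Bd
import Vale.Agent.P244.ST.S.S6Fin
import Vale.Agent.P244.ST.S.S7Fin
import Vale.Agent.P244.ST.S.Pt
import Vale.Agent.P244.ST.M.QSpace
import Vale.Agent.P244.ST.RegI6

/-!
# P244 / ST / S : block S, summary
-/

open Set

namespace Vale.Agent.P244.ST.SS

theorem scal_eq : ScalStatement := fun _ _ _ _ h _ ht _ hx =>
  h.RR_eq ⟨by linarith only [hx, hx.1], hx.2⟩ ht

theorem bd_final : BdStatement := bd scal_eq

theorem pt_of_ptOf (h : PtOfStatement) : PtStatement := h M.m2Statement bd_final scal_eq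

theorem s6_of_ptOf (h : PtOfStatement) : Vale.Agent.P244.ST.S6Statement :=
  S6.s6_of (pt_of_ptOf h)

theorem s7_of_ptOf (h : PtOfStatement) : Vale.Agent.P244.ST.S7Statement :=
  S7F.s7_of (pt_of_ptOf h)

theorem pt_final : PtStatement := pt_of_ptOf Pt.ptOf

/-- **Block S**: closure of (b6) and strict exit. -/
theorem s6Statement : Vale.Agent.P244.ST.S6Statement := s6_of_ptOf Pt.ptOf

/-- **Block S**: closeness in the parabolic region. -/
theorem s7Statement : Vale.Agent.P244.ST.S7Statement := s7_of_ptOf Pt.ptOf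

end Vale.Agent.P244.ST.SS
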