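import Vale.Agent.P244.ST.S.SDefs

/-!
# P244 / ST / S : the smooth step `xi`
-/

open Set Filter Topology
open scoped ContDiff

namespace Vale.Agent.P244.ST.SS

theorem xi_zero {x : ℝ} (hx : x ≤ 1) : xi x = 0 := by
  unfold xi
  refine Real.smoothTransition.zero_of_nonpos ?_
  have : Real.sqrt x ≤ 1 := by
    rw [Real.sqrt_le_left (by norm_num)]
    linarith only [hx]
  linarith only [this]

theorem xi_one {x : ℝ} (hx : 4 ≤ x) : xi x = 1 := by
  unfold xi
  refine Real.smoothTransition.one_of_one_le ?_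
  have : 2 ≤ Real.sqrt x := by
    refine Real.le_sqrt_of_sq_le ?_
    linarith only [hx]
  linarith only [this]

theorem xi_mem (x : ℝ) : xi x ∈ Icc (0 : ℝ) 1 :=
  ⟨Real.smoothTransition.nonneg _, Real.smoothTransition.le_one _⟩

theorem xi_smooth : ContDiff ℝ ∞ xi := by
  rw [contDiff_iff_contDiffAt]
  intro x
  rcases lt_or_ge x 1 with hx | hx
  · have h1 : xi =ᶠ[𝓝 x] fun _ => 0 := by
      filter_upwards [Iio_mem_nhds hx] with y hy
      exact xi_zero (le_of_lt hy)
    exact contDiffAt_const.congr_of_eventuallyEq h1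
  · have h1 : ContDiffAt ℝ ∞ (fun x => Real.sqrt x - 1) x :=
      (Real.contDiffAt_sqrt (by linarith only [hx] : x ≠ 0)).sub contDiffAt_const
    exact (Real.smoothTransition.contDiffAt (n := ⊤) (x := Real.sqrt x - 1)).comp x h1

theorem xi1_smooth : ContDiff ℝ ∞ xi1 := by
  have h := (contDiff_infty_iff_deriv.1 xi_smooth).2
  exact h

theorem xi2_smooth : ContDiff ℝ ∞ xi2 := by
  have h := (contDiff_infty_iff_deriv.1 xi1_smooth).2
  exact h

theorem xi_hasDerivAt (x : ℝ) : HasDerivAt xi (xi1 x) x :=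
  ((xi_smooth.differentiable (by simp)).differentiableAt).hasDerivAt

theorem xi1_hasDerivAt (x : ℝ) : HasDerivAt xi1 (xi2 x) x :=
  ((xi1_smooth.differentiable (by simp)).differentiableAt).hasDerivAt

theorem xi1_zero {x : ℝ} (hx : x ≤ 1 ∨ 4 ≤ x) : xi1 x = 0 := by
  have key : ∀ s : Set ℝ, IsOpen s → (∀ x ∈ s, xi1 x = 0) → ∀ x ∈ closure s, xi1 x = 0 := by
    intro s _ hs x hx
    have hc : IsClosed {x | xi1 x = 0} := isClosed_eq xi1_smooth.continuous continuous_const
    exact closure_minimal (fun y hy => hs y hy) hc hx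
  rcases hx with h | h
  · refine key (Iio 1) isOpen_Iio (fun y hy => ?_) x (by rw [closure_Iio]; exact h)
    have h1 : xi =ᶠ[𝓝 y] fun _ => 0 := by
      filter_upwards [Iio_mem_nhds hy] with z hz
      exact xi_zero (le_of_lt hz)
    unfold xi1
    rw [h1.deriv_eq, deriv_const]
  · refine key (Ioi 4) isOpen_Ioi (fun y hy => ?_) x (by rw [closure_Ioi]; exact h)
    have h1 : xi =ᶠ[𝓝 y] fun _ => 1 := by
      filter_upwards [Ioi_mem_nhds hy] with z hz
      exact xi_one (le_of_lt hz)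
    unfold xi1
    rw [h1.deriv_eq, deriv_const]

theorem xi2_zero {x : ℝ} (hx : x ≤ 1 ∨ 4 ≤ x) : xi2 x = 0 := by
  have key : ∀ s : Set ℝ, IsOpen s → (∀ x ∈ s, xi2 x = 0) → ∀ x ∈ closure s, xi2 x = 0 := by
    intro s _ hs x hx
    have hc : IsClosed {x | xi2 x = 0} := isClosed_eq xi2_smooth.continuous continuous_const
    exact closure_minimal (fun y hy => hs y hy) hc hx
  rcases hx with h | h
  · refine key (Iio 1) isOpen_Iio (fun y hy => ?_) x (by rw [closure_Iio]; exact h)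
    have h1 : xi1 =ᶠ[𝓝 y] fun _ => 0 := by
      filter_upwards [Iio_mem_nhds hy] with z hz
      exact xi1_zero (Or.inl (le_of_lt hz))
    unfold xi2
    rw [h1.deriv_eq, deriv_const]
  · refine key (Ioi 4) isOpen_Ioi (fun y hy => ?_) x (by rw [closure_Ioi]; exact h)
    have h1 : xi1 =ᶠ[𝓝 y] fun _ => 0 := by
      filter_upwards [Ioi_mem_nhds hy] with z hz
      exact xi1_zero (Or.inr (le_of_lt hz))
    unfold xi2
    rw [h1.deriv_eq, deriv_const]

theorem xi_bounds : ∃ C : ℝ, 0 ≤ C ∧ ∀ x, |xi1 x| ≤ C ∧ |xi2 x| ≤ C := by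
  have h1 := isCompact_Icc.exists_bound_of_continuousOn (s := Icc (1 : ℝ) 4)
    xi1_smooth.continuous.continuousOn
  have h2 := isCompact_Icc.exists_bound_of_continuousOn (s := Icc (1 : ℝ) 4)
    xi2_smooth.continuous.continuousOn
  obtain ⟨C1, h1⟩ := h1
  obtain ⟨C2, h2⟩ := h2
  have hC1 : 0 ≤ C1 := (norm_nonneg _).trans (h1 1 ⟨le_rfl, by norm_num⟩)
  have hC2 : 0 ≤ C2 := (norm_nonneg _).trans (h2 1 ⟨le_rfl, by norm_num⟩)
  refine ⟨max C1 C2, hC1.trans (le_max_left _ _), fun x => ?_⟩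
  by_cases hx : x ∈ Icc (1 : ℝ) 4
  · exact ⟨(h1 x hx).trans (le_max_left _ _), (h2 x hx).trans (le_max_right _ _)⟩
  · have h3 : x ≤ 1 ∨ 4 ≤ x := by
      rw [mem_Icc, not_and_or] at hx
      push Not at hx
      rcases hx with h | h
      · exact Or.inl h.le
      · exact Or.inr h.le
    rw [xi1_zero h3, xi2_zero h3, abs_zero]
    exact ⟨hC1.trans (le_max_left _ _), hC1.trans (le_max_left _ _)⟩

end Vale.Agent.P244.ST.SS
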